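import Vale.Agent.P237.Petty.Cor.Grid.Tiny.N19.Cert

/-!
# P237: a cell down to zero in dimension 19, subdivisions
-/

namespace Vale.Agent.P237.Petty.Cor.Grid.Tiny.N19

def covers0 : cell.Covers Vale.Agent.P237.Petty.Cor.Grid.N19.table row0.1 :=
  ⟨(.cut .d 0 (.cut .v 16777216 (.cut .v 8388608 (.cut .v 4194304 (.cut .v 2097152 (.void 6 ⟨⟨0, 0, 100000, 0, 0, 0, 0, 0, 0, ⟨0, 0⟩, 0⟩, 0, 0⟩ 0 0) (.pos 7 .mm ⟨⟨0, 0, 0, 0, 0, 0, 0, 0, 0, ⟨0, 0⟩, 0⟩, 0, 0⟩ 0 0)) (.pos 5 .mm ⟨⟨0, 0, 0, 0, 0, 0, 0, 0, 0, ⟨0, 0⟩, 0⟩, 0, 0⟩ 0 0)) (.cut .v 12582912 (.cut .d (-8388608) (.pos 8 .mm ⟨⟨0, 0, 0, 0, 0, 0, 0, 0, 0, ⟨0, 0⟩, 0⟩, 0, 0⟩ 0 0) (.cut .d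 (-4194304) (.pos 8 .mm ⟨⟨0, 0, 0, 0, 0, 0, 0, 0, 0, ⟨0, 0⟩, 0⟩, 0, 0⟩ 0 0) (.pos 8 .mm ⟨⟨0, 0, 0, 0, 0, 0, 0, 0, 0, ⟨0, 0⟩, 0⟩, 0, 0⟩ 0 0))) (.cut .d (-8388608) (.pos 9 .mm ⟨⟨0, 0, 0, 0, 0, 349438, 0, 0, 0, ⟨0, 0⟩, 0⟩, 0, 0⟩ 0 0) (.cut .d (-4194304) (.cut .v 14680064 (.cut .v 13631488 (.pos 14 .mm ⟨⟨0, 0, 0, 0, 0, 0, 0, 0, 0, ⟨0, 0⟩, 0⟩, 0, 0⟩ 0 0) (.pos 15 .mm ⟨⟨0, 0, 0, 0, 0, 0, 0, 0, 0, ⟨0, 0⟩, 0⟩, 0, 0⟩ 0 0)) (.pos 13 .mm ⟨⟨0, 0, 0, 0, 0, 0, 0, 0, 0, ⟨0, 0⟩, 0⟩, 0, 0⟩ 0 0)) (.cut .v 14680064 (.cut .d (-2097152) (.cut .s 851968 (.cut .s 425984 (.cut .v 13631488 (.cut .d (-3145728) (.pos 14 .mm ⟨⟨0, 0, 0, 0, 0, 0, 0, 0, 0, ⟨0,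 0⟩, 0⟩, 0, 0⟩ 0 0) (.pos 14 .mm ⟨⟨0, 0, 0, 0, 0, 0, 0, 0, 0, ⟨0, 0⟩, 0⟩, 0, 0⟩ 0 0)) (.cut .d (-3145728) (.pos 15 .mm ⟨⟨0, 0, 0, 0, 0, 0, 0, 0, 0, ⟨0, 0⟩, 0⟩, 0, 0⟩ 0 0) (.pos 15 .mm ⟨⟨0, 0, 0, 0, 0, 0, 0, 0, 0, ⟨0, 0⟩, 0⟩, 0, 0⟩ 0 0))) (.void 12 ⟨⟨0, 0, 0, 0, 0, 100000, 0, 0, 0, ⟨0, 0⟩, 0⟩, 0, 0⟩ 0 0)) (.void 12 ⟨⟨0, 0, 0, 0, 0, 100000, 0, 0, 0, ⟨0, 0⟩, 0⟩, 0, 0⟩ 0 0)) (.pos 12 .mm ⟨⟨0, 0, 0, 0, 0, 0, 0, 0, 0, ⟨0, 0⟩, 0⟩, 0, 0⟩ 0 0)) (.cut .d (-2097152) (.pos 13 .mm ⟨⟨0, 0, 0, 0, 0, 0, 0, 0, 0, ⟨0, 0⟩, 0⟩, 0, 0⟩ 0 0) (.cut .d (-1048576) (.cut .v 15728640 (.pos 20 .mm ⟨⟨0, 0, 0, 0, 0, 0, 0, 0, 0, ⟨0, 0⟩, 0⟩, 0, 0⟩ 0 0) (.pos 21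 .mm ⟨⟨0, 0, 0, 0, 0, 0, 0, 0, 0, ⟨0, 0⟩, 0⟩, 0, 0⟩ 0 0)) (.cut .v 15728640 (.pos 20 .mm ⟨⟨0, 0, 0, 0, 0, 0, 0, 0, 0, ⟨0, 0⟩, 0⟩, 0, 0⟩ 0 0) (.pos 21 .mm ⟨⟨0, 0, 0, 0, 0, 190771, 0, 0, 0, ⟨0, 0⟩, 0⟩, 0, 0⟩ 0 0))))))))) (.cut .v 25165824 (.cut .v 20971520 (.cut .v 18874368 (.pos 27 .mp ⟨⟨1612211, 0, 0, 0, 0, 774, 0, 0, 0, ⟨0, 0⟩, 0⟩, 0, 0⟩ 0 0) (.void 28 ⟨⟨0, 0, 0, 0, 0, 0, 100000, 0, 0, ⟨0, 0⟩, 0⟩, 0, 0⟩ 0 0)) (.void 26 ⟨⟨0, 0, 0, 0, 0, 0, 100000, 0, 0, ⟨0, 0⟩, 0⟩, 0, 0⟩ 0 0)) (.void 24 ⟨⟨0, 0, 0, 0, 0, 0, 100000, 0, 0, ⟨0, 0⟩, 0⟩, 0, 0⟩ 0 0))) (.cut .v 16777216 (.cut .v 8388608 (.cut .v 4194304 (.cut .v 2097152 (.void 6 ⟨⟨0, 0,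 100000, 0, 0, 0, 0, 0, 0, ⟨0, 0⟩, 0⟩, 0, 0⟩ 0 0) (.pos 7 .pm ⟨⟨0, 0, 0, 0, 840822, 0, 0, 0, 0, ⟨0, 0⟩, 0⟩, 0, 0⟩ 0 0)) (.pos 5 .pm ⟨⟨0, 0, 0, 0, 809423, 0, 0, 0, 0, ⟨0, 0⟩, 0⟩, 0, 0⟩ 0 0)) (.cut .v 12582912 (.pos 8 .pm ⟨⟨0, 0, 0, 0, 806879, 0, 0, 0, 0, ⟨0, 0⟩, 0⟩, 0, 0⟩ 0 0) (.pos 9 .pm ⟨⟨0, 0, 0, 0, 0, 0, 0, 0, 0, ⟨0, 0⟩, 0⟩, 0, 432506⟩ 0 0))) (.cut .v 25165824 (.cut .v 20971520 (.cut .v 18874368 (.cut .v 17825792 (.cut .v 17301504 (.cut .d 382804 (.cut .v 17039360 (.cut .s 851968 (.cut .d 191402 (.pos 33 .pp ⟨⟨654184, 0, 0, 0, 0, 0, 398015, 0, 0, ⟨0, 0⟩, 0⟩, 0, 165432⟩ 0 0) (.pos 33 .pp ⟨⟨950581, 0, 0, 0, 0, 0, 333221, 0, 0,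 ⟨0, 0⟩, 0⟩, 0, 26678⟩ 0 0)) (.cut .d 191402 (.cut .s 1277952 (.pos 33 .pp ⟨⟨1417940, 0, 0, 0, 0, 0, 0, 0, 0, ⟨0, 0⟩, 0⟩, 0, 253099⟩ 0 0) (.cut .s 1490944 (.pos 33 .pp ⟨⟨1200473, 0, 0, 0, 0, 0, 0, 0, 0, ⟨0, 0⟩, 0⟩, 0, 295591⟩ 0 0) (.pos 33 .pp ⟨⟨1088995, 0, 0, 0, 0, 0, 0, 0, 0, ⟨0, 0⟩, 0⟩, 0, 270623⟩ 0 0))) (.pos 33 .pp ⟨⟨1034799, 0, 0, 0, 0, 0, 0, 0, 0, ⟨0, 0⟩, 0⟩, 0, 792076⟩ 0 0))) (.void 34 ⟨⟨90689, 0, 0, 0, 0, 0, 0, 0, 0, ⟨0, 0⟩, 0⟩, 0, 9311⟩ 0 0)) (.pos 31 .pp ⟨⟨0, 0, 0, 0, 0, 0, 892464, 0, 0, ⟨0, 0⟩, 0⟩, 0, 735293⟩ 0 0)) (.void 32 ⟨⟨0, 0, 0, 0, 0, 0, 100000, 0, 0, ⟨0, 0⟩, 0⟩, 0, 0⟩ 0 0)) (.void 30 ⟨⟨0, 0, 0, 0, 0, 0, 100000,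 0, 0, ⟨0, 0⟩, 0⟩, 0, 0⟩ 0 0)) (.void 28 ⟨⟨0, 0, 0, 0, 0, 0, 0, 0, 0, ⟨0, 0⟩, 0⟩, 100000, 0⟩ 0 0)) (.void 26 ⟨⟨0, 0, 0, 0, 0, 0, 0, 0, 0, ⟨0, 0⟩, 0⟩, 100000, 0⟩ 0 0)) (.void 24 ⟨⟨0, 0, 0, 0, 0, 0, 0, 0, 0, ⟨0, 0⟩, 0⟩, 100000, 0⟩ 0 0)))),
    by decide +kernel⟩

def covers1 : cell.Covers Vale.Agent.P237.Petty.Cor.Grid.N19.table row1.1 :=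
  ⟨(.cut .d 0 (.cut .v 16777216 (.cut .v 8388608 (.void 2 ⟨⟨0, 0, 0, 0, 50000, 50000, 0, 0, 0, ⟨0, 0⟩, 0⟩, 0, 0⟩ 0 0) (.cut .v 12582912 (.void 8 ⟨⟨0, 0, 0, 0, 20709, 56453, 0, 0, 22838, ⟨0, 0⟩, 13128881⟩, 0, 0⟩ 0 0) (.cut .d (-8388608) (.void 9 ⟨⟨0, 0, 0, 0, 0, 100000, 0, 0, 0, ⟨0, 0⟩, 0⟩, 0, 0⟩ 0 0) (.cut .d (-4194304) (.void 9 ⟨⟨0, 0, 0, 0, 0, 100000, 0, 0, 0, ⟨0, 0⟩, 0⟩, 0, 0⟩ 0 0) (.cut .v 14680064 (.pos 12 .mm ⟨⟨0, 0, 0, 0, 0, 3425344, 0, 0, 0, ⟨0, 0⟩, 0⟩, 0, 0⟩ 0 0) (.cut .d (-2097152) (.void 13 ⟨⟨0, 0, 0, 0, 0, 100000, 0, 0, 0, ⟨0, 0⟩, 0⟩, 0, 0⟩ 0 0) (.cut .d (-1048576) (.void 13 ⟨⟨0, 0, 0, 0, 0, 100000, 0, 0, 0, ⟨0, 0⟩,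 0⟩, 0, 0⟩ 0 0) (.cut .d (-524288) (.void 13 ⟨⟨0, 0, 0, 0, 0, 100000, 0, 0, 0, ⟨0, 0⟩, 0⟩, 0, 0⟩ 0 0) (.pos 13 .mm ⟨⟨0, 0, 0, 0, 0, 596583, 0, 0, 0, ⟨0, 0⟩, 0⟩, 0, 0⟩ 0 0))))))))) (.cut .v 25165824 (.cut .d (-8388608) (.void 23 ⟨⟨0, 0, 0, 0, 0, 100000, 0, 0, 0, ⟨0, 0⟩, 0⟩, 0, 0⟩ 0 0) (.cut .d (-4194304) (.void 23 ⟨⟨0, 0, 0, 0, 0, 100000, 0, 0, 0, ⟨0, 0⟩, 0⟩, 0, 0⟩ 0 0) (.cut .v 20971520 (.cut .d (-2097152) (.void 25 ⟨⟨0, 0, 0, 0, 0, 100000, 0, 0, 0, ⟨0, 0⟩, 0⟩, 0, 0⟩ 0 0) (.cut .d (-1048576) (.void 25 ⟨⟨0, 0, 0, 0, 0, 100000, 0, 0, 0, ⟨0, 0⟩, 0⟩, 0, 0⟩ 0 0) (.cut .d (-524288) (.void 25 ⟨⟨0, 0, 0, 0, 0, 100000, 0, 0, 0, ⟨0, 0⟩, 0⟩,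 0, 0⟩ 0 0) (.cut .v 18874368 (.cut .s 2359296 (.pos 27 .mp ⟨⟨1211282, 0, 0, 0, 0, 0, 0, 0, 0, ⟨0, 0⟩, 0⟩, 0, 0⟩ 0 0) (.pos 27 .mp ⟨⟨1040104, 0, 0, 0, 0, 148158, 0, 0, 0, ⟨0, 0⟩, 0⟩, 0, 0⟩ 0 0)) (.void 28 ⟨⟨0, 0, 0, 0, 0, 0, 100000, 0, 0, ⟨0, 0⟩, 0⟩, 0, 0⟩ 0 0))))) (.void 26 ⟨⟨0, 0, 0, 0, 0, 0, 100000, 0, 0, ⟨0, 0⟩, 0⟩, 0, 0⟩ 0 0)))) (.void 24 ⟨⟨0, 0, 0, 0, 0, 0, 100000, 0, 0, ⟨0, 0⟩, 0⟩, 0, 0⟩ 0 0))) (.cut .v 16777216 (.cut .v 8388608 (.void 2 ⟨⟨0, 0, 0, 0, 100000, 0, 0, 0, 0, ⟨0, 0⟩, 0⟩, 0, 0⟩ 0 0) (.cut .v 12582912 (.void 8 ⟨⟨0, 0, 0, 0, 40896, 0, 0, 0, 59104, ⟨0, 0⟩, 13128881⟩, 0, 0⟩ 0 0) (.cut .v 14680064 (.void 12 ⟨⟨0, 0,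 0, 0, 0, 0, 0, 0, 100000, ⟨0, 0⟩, 15100357⟩, 0, 0⟩ 0 0) (.cut .d 971866 (.cut .d 485933 (.cut .d 242966 (.pos 13 .pm ⟨⟨0, 0, 0, 0, 0, 0, 0, 0, 0, ⟨0, 0⟩, 0⟩, 0, 276600⟩ 0 0) (.void 13 ⟨⟨0, 0, 0, 0, 0, 0, 0, 0, 0, ⟨0, 0⟩, 0⟩, 0, 100000⟩ 0 0)) (.void 13 ⟨⟨0, 0, 0, 0, 0, 0, 0, 0, 0, ⟨0, 0⟩, 0⟩, 0, 100000⟩ 0 0)) (.void 13 ⟨⟨0, 0, 0, 0, 0, 0, 0, 0, 0, ⟨0, 0⟩, 0⟩, 0, 100000⟩ 0 0))))) (.cut .v 25165824 (.cut .v 20971520 (.cut .v 18874368 (.cut .d 971866 (.cut .v 17825792 (.cut .d 485933 (.cut .d 242966 (.cut .v 17301504 (.cut .v 17039360 (.cut .s 2359296 (.cut .s 2031616 (.cut .s 1867776 (.cut .s 1785856 (.pos 33 .pp ⟨⟨997946, 0, 0, 0,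 0, 0, 0, 0, 0, ⟨0, 0⟩, 0⟩, 0, 282799⟩ 0 0) (.pos 33 .pp ⟨⟨942105, 0, 0, 0, 0, 0, 0, 0, 0, ⟨0, 0⟩, 0⟩, 0, 283608⟩ 0 0)) (.cut .s 1949696 (.pos 33 .pp ⟨⟨886481, 0, 0, 0, 0, 0, 0, 0, 0, ⟨0, 0⟩, 0⟩, 0, 283293⟩ 0 0) (.pos 33 .pp ⟨⟨831065, 0, 0, 0, 0, 0, 0, 0, 0, ⟨0, 0⟩, 0⟩, 0, 281983⟩ 0 0))) (.cut .s 2195456 (.cut .s 2113536 (.pos 33 .pp ⟨⟨775852, 0, 0, 0, 0, 0, 0, 0, 0, ⟨0, 0⟩, 0⟩, 0, 279787⟩ 0 0) (.pos 33 .pp ⟨⟨723339, 0, 0, 0, 0, 0, 0, 0, 0, ⟨0, 0⟩, 0⟩, 0, 277403⟩ 0 0)) (.cut .s 2277376 (.pos 33 .pp ⟨⟨679633, 0, 0, 0, 0, 0, 0, 0, 0, ⟨0, 0⟩, 0⟩, 0, 272492⟩ 0 0) (.pos 33 .pp ⟨⟨639282, 0, 0, 0, 0, 0, 0, 0, 0, ⟨0, 0⟩, 0⟩, 0, 266340⟩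 0 0)))) (.cut .s 2686976 (.cut .d 121483 (.cut .s 2523136 (.pos 33 .pp ⟨⟨589947, 0, 0, 0, 0, 0, 0, 0, 0, ⟨0, 0⟩, 0⟩, 0, 247228⟩ 0 0) (.pos 33 .pp ⟨⟨522006, 0, 0, 0, 0, 0, 0, 0, 0, ⟨0, 0⟩, 0⟩, 0, 233437⟩ 0 0)) (.cut .s 2523136 (.pos 33 .pp ⟨⟨518002, 0, 0, 0, 0, 0, 0, 0, 0, ⟨0, 0⟩, 0⟩, 0, 294467⟩ 0 0) (.pos 33 .pp ⟨⟨408987, 0, 0, 0, 0, 0, 0, 0, 0, ⟨0, 0⟩, 0⟩, 0, 293566⟩ 0 0))) (.cut .d 121483 (.pos 33 .pp ⟨⟨417473, 0, 0, 0, 0, 0, 0, 0, 0, ⟨0, 0⟩, 0⟩, 0, 209785⟩ 0 0) (.pos 33 .pp ⟨⟨192718, 0, 0, 0, 0, 0, 0, 0, 0, ⟨0, 0⟩, 0⟩, 0, 334620⟩ 0 0)))) (.pos 34 .pp ⟨⟨949971, 0, 0, 0, 0, 0, 0, 0, 0, ⟨0, 0⟩, 0⟩, 0, 330743⟩ 0 0)) (.void 32 ⟨⟨100000,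 0, 0, 0, 0, 0, 0, 0, 0, ⟨0, 0⟩, 0⟩, 0, 0⟩ 0 0)) (.void 29 ⟨⟨2404, 0, 0, 0, 0, 0, 0, 0, 0, ⟨0, 0⟩, 0⟩, 0, 97596⟩ 0 0)) (.void 29 ⟨⟨0, 0, 0, 0, 0, 0, 618, 0, 0, ⟨0, 0⟩, 0⟩, 0, 99382⟩ 0 0)) (.void 30 ⟨⟨0, 0, 0, 0, 0, 0, 100000, 0, 0, ⟨0, 0⟩, 0⟩, 0, 0⟩ 0 0)) (.void 27 ⟨⟨0, 0, 0, 0, 0, 0, 618, 0, 0, ⟨0, 0⟩, 0⟩, 0, 99382⟩ 0 0)) (.void 28 ⟨⟨0, 0, 0, 0, 0, 0, 33167, 0, 0, ⟨0, 0⟩, 0⟩, 11978, 54855⟩ 0 0)) (.void 26 ⟨⟨0, 0, 0, 0, 0, 0, 0, 0, 0, ⟨0, 0⟩, 0⟩, 100000, 0⟩ 0 0)) (.void 24 ⟨⟨0, 0, 0, 0, 0, 0, 0, 0, 0, ⟨0, 0⟩, 0⟩, 100000, 0⟩ 0 0)))),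
    by decide +kernel⟩

def covers2 : cell.Covers Vale.Agent.P237.Petty.Cor.Grid.N19.table row2.1 :=
  ⟨(.cut .d 0 (.cut .v 16777216 (.cut .v 8388608 (.void 2 ⟨⟨0, 0, 0, 0, 50000, 50000, 0, 0, 0, ⟨0, 0⟩, 0⟩, 0, 0⟩ 0 0) (.cut .v 12582912 (.void 8 ⟨⟨0, 0, 0, 0, 0, 61015, 0, 0, 38985, ⟨0, 0⟩, 13128881⟩, 0, 0⟩ 0 0) (.cut .d (-8388608) (.void 9 ⟨⟨0, 0, 0, 0, 0, 100000, 0, 0, 0, ⟨0, 0⟩, 0⟩, 0, 0⟩ 0 0) (.cut .d (-4194304) (.void 9 ⟨⟨0, 0, 0, 0, 0, 100000, 0, 0, 0, ⟨0, 0⟩, 0⟩, 0, 0⟩ 0 0) (.cut .d (-2097152) (.void 9 ⟨⟨0, 0, 0, 0, 0, 100000, 0, 0, 0, ⟨0, 0⟩, 0⟩, 0, 0⟩ 0 0) (.cut .v 14680064 (.pos 12 .mm ⟨⟨0, 0, 0, 0, 0, 3657910, 0, 0, 0,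 ⟨0, 0⟩, 0⟩, 0, 0⟩ 0 0) (.cut .d (-1048576) (.void 13 ⟨⟨0, 0, 0, 0, 0, 100000, 0, 0, 0, ⟨0, 0⟩, 0⟩, 0, 0⟩ 0 0) (.cut .d (-524288) (.void 13 ⟨⟨0, 0, 0, 0, 0, 100000, 0, 0, 0, ⟨0, 0⟩, 0⟩, 0, 0⟩ 0 0) (.cut .d (-262144) (.void 13 ⟨⟨0, 0, 0, 0, 0, 100000, 0, 0, 0, ⟨0, 0⟩, 0⟩, 0, 0⟩ 0 0) (.cut .v 15728640 (.pos 20 .mm ⟨⟨0, 0, 0, 0, 0, 438993, 0, 0, 0, ⟨0, 0⟩, 0⟩, 0, 0⟩ 0 0) (.cut .s 3407872 (.pos 21 .mm ⟨⟨0, 0, 0, 0, 0, 679903, 0, 0, 0, ⟨0, 0⟩, 0⟩, 0, 0⟩ 0 0) (.cut .d (-131072) (.pos 21 .mm ⟨⟨0, 0, 0, 0, 0, 2544075, 0, 0, 0, ⟨0, 0⟩, 0⟩, 0, 0⟩ 0 0) (.pos 21 .mm ⟨⟨0, 0, 0, 0, 0, 867892, 0, 0, 0, ⟨0, 0⟩, 0⟩, 0, 0⟩ 0 0))))))))))))) (.cut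 .v 25165824 (.cut .d (-8388608) (.void 23 ⟨⟨0, 0, 0, 0, 0, 100000, 0, 0, 0, ⟨0, 0⟩, 0⟩, 0, 0⟩ 0 0) (.cut .d (-4194304) (.void 23 ⟨⟨0, 0, 0, 0, 0, 100000, 0, 0, 0, ⟨0, 0⟩, 0⟩, 0, 0⟩ 0 0) (.cut .d (-2097152) (.void 23 ⟨⟨0, 0, 0, 0, 0, 100000, 0, 0, 0, ⟨0, 0⟩, 0⟩, 0, 0⟩ 0 0) (.cut .v 20971520 (.cut .d (-1048576) (.void 25 ⟨⟨0, 0, 0, 0, 0, 100000, 0, 0, 0, ⟨0, 0⟩, 0⟩, 0, 0⟩ 0 0) (.cut .d (-524288) (.void 25 ⟨⟨0, 0, 0, 0, 0, 100000, 0, 0, 0, ⟨0, 0⟩, 0⟩, 0, 0⟩ 0 0) (.cut .v 18874368 (.cut .d (-262144) (.void 27 ⟨⟨0, 0, 0, 0, 0, 100000, 0, 0, 0, ⟨0, 0⟩, 0⟩, 0, 0⟩ 0 0) (.cut .v 17825792 (.cut .s 3407872 (.pos 29 .mp ⟨⟨430072, 0, 0, 0,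 0, 477563, 0, 0, 0, ⟨0, 0⟩, 0⟩, 0, 0⟩ 0 0) (.cut .d (-131072) (.pos 29 .mp ⟨⟨335716, 0, 0, 0, 0, 2350419, 0, 0, 0, ⟨0, 0⟩, 0⟩, 0, 0⟩ 0 0) (.cut .d (-65536) (.pos 29 .mp ⟨⟨335716, 0, 0, 0, 0, 862348, 0, 0, 0, ⟨0, 0⟩, 0⟩, 0, 0⟩ 0 0) (.pos 29 .mp ⟨⟨234625, 0, 0, 0, 0, 674221, 0, 0, 0, ⟨0, 0⟩, 0⟩, 0, 0⟩ 0 0)))) (.void 30 ⟨⟨100000, 0, 0, 0, 0, 0, 0, 0, 0, ⟨0, 0⟩, 0⟩, 0, 0⟩ 0 0))) (.void 28 ⟨⟨0, 0, 0, 0, 0, 0, 100000, 0, 0, ⟨0, 0⟩, 0⟩, 0, 0⟩ 0 0)))) (.void 26 ⟨⟨0, 0, 0, 0, 0, 0, 100000, 0, 0, ⟨0, 0⟩, 0⟩, 0, 0⟩ 0 0))))) (.void 24 ⟨⟨0, 0, 0, 0, 0, 0, 100000, 0, 0, ⟨0, 0⟩, 0⟩, 0, 0⟩ 0 0))) (.cut .v 16777216 (.cut .v 8388608 (.void 2 ⟨⟨0,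 0, 0, 0, 100000, 0, 0, 0, 0, ⟨0, 0⟩, 0⟩, 0, 0⟩ 0 0) (.cut .v 12582912 (.void 8 ⟨⟨0, 0, 0, 0, 0, 0, 0, 0, 100000, ⟨0, 0⟩, 13128881⟩, 0, 0⟩ 0 0) (.cut .d 1487608 (.cut .d 743804 (.cut .v 14680064 (.pos 12 .pm ⟨⟨0, 0, 0, 0, 0, 0, 0, 0, 0, ⟨0, 0⟩, 0⟩, 0, 1149669⟩ 0 0) (.cut .d 371902 (.cut .v 15728640 (.cut .d 185951 (.pos 20 .pm ⟨⟨0, 0, 0, 0, 0, 0, 0, 0, 0, ⟨0, 0⟩, 0⟩, 0, 225698⟩ 0 0) (.pos 20 .pm ⟨⟨0, 0, 0, 0, 0, 0, 0, 0, 0, ⟨0, 0⟩, 0⟩, 0, 723843⟩ 0 0)) (.cut .d 185951 (.pos 21 .pm ⟨⟨0, 0, 0, 0, 0, 0, 0, 0, 0, ⟨0, 0⟩, 0⟩, 0, 228773⟩ 0 0) (.cut .d 278926 (.cut .s 3407872 (.pos 21 .pm ⟨⟨0, 0, 0, 0, 0, 0, 0, 0, 0, ⟨0, 0⟩, 0⟩, 0, 490850⟩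 0 0) (.cut .v 16252928 (.pos 37 .pm ⟨⟨0, 0, 0, 0, 0, 0, 0, 0, 0, ⟨0, 0⟩, 0⟩, 0, 483134⟩ 0 0) (.pos 38 .pm ⟨⟨0, 0, 0, 0, 0, 0, 0, 0, 0, ⟨0, 0⟩, 0⟩, 0, 438718⟩ 0 0))) (.void 21 ⟨⟨0, 0, 0, 0, 0, 0, 0, 0, 0, ⟨0, 0⟩, 0⟩, 0, 100000⟩ 0 0)))) (.void 13 ⟨⟨0, 0, 0, 0, 0, 0, 0, 0, 0, ⟨0, 0⟩, 0⟩, 0, 100000⟩ 0 0))) (.void 9 ⟨⟨0, 0, 0, 0, 0, 0, 0, 0, 0, ⟨0, 0⟩, 0⟩, 0, 100000⟩ 0 0)) (.void 9 ⟨⟨0, 0, 0, 0, 0, 0, 0, 0, 0, ⟨0, 0⟩, 0⟩, 0, 100000⟩ 0 0)))) (.cut .v 25165824 (.cut .v 20971520 (.cut .d 1487608 (.cut .v 18874368 (.cut .d 743804 (.cut .d 371902 (.cut .v 17825792 (.cut .v 17301504 (.cut .d 185951 (.cut .s 3407872 (.pos 31 .pp ⟨⟨252080,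 0, 0, 0, 0, 0, 0, 0, 0, ⟨0, 0⟩, 0⟩, 0, 201389⟩ 0 0) (.pos 31 .pp ⟨⟨225074, 0, 0, 0, 0, 0, 0, 0, 0, ⟨0, 0⟩, 0⟩, 0, 174903⟩ 0 0)) (.pos 31 .pp ⟨⟨0, 0, 0, 0, 0, 0, 0, 0, 0, ⟨0, 0⟩, 0⟩, 0, 449088⟩ 0 0)) (.void 32 ⟨⟨81362, 0, 0, 0, 0, 0, 0, 0, 0, ⟨0, 0⟩, 0⟩, 0, 18638⟩ 0 0)) (.void 30 ⟨⟨0, 0, 0, 0, 0, 0, 0, 0, 0, ⟨0, 0⟩, 0⟩, 100000, 0⟩ 0 0)) (.void 27 ⟨⟨0, 0, 0, 0, 0, 0, 2521, 0, 0, ⟨0, 0⟩, 0⟩, 0, 97479⟩ 0 0)) (.void 27 ⟨⟨0, 0, 0, 0, 0, 0, 1561, 0, 0, ⟨0, 0⟩, 0⟩, 0, 98439⟩ 0 0)) (.void 28 ⟨⟨0, 0, 0, 0, 0, 0, 0, 0, 0, ⟨0, 0⟩, 0⟩, 18273, 81727⟩ 0 0)) (.void 25 ⟨⟨0, 0, 0, 0, 0, 0, 0, 0, 0, ⟨0, 0⟩, 0⟩, 217, 99783⟩ 0 0)) (.void 26 ⟨⟨0, 0,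 0, 0, 0, 0, 0, 0, 0, ⟨0, 0⟩, 0⟩, 18273, 81727⟩ 0 0)) (.void 24 ⟨⟨0, 0, 0, 0, 0, 0, 0, 0, 0, ⟨0, 0⟩, 0⟩, 100000, 0⟩ 0 0)))),
    by decide +kernel⟩

def covers3 : cell.Covers Vale.Agent.P237.Petty.Cor.Grid.N19.table row3.1 :=
  ⟨(.cut .d 0 (.cut .v 16777216 (.cut .v 8388608 (.void 2 ⟨⟨0, 0, 0, 0, 50000, 50000, 0, 0, 0, ⟨0, 0⟩, 0⟩, 0, 0⟩ 0 0) (.cut .d (-8388608) (.void 3 ⟨⟨0, 0, 0, 0, 0, 100000, 0, 0, 0, ⟨0, 0⟩, 0⟩, 0, 0⟩ 0 0) (.cut .v 12582912 (.pos 8 .mm ⟨⟨0, 0, 0, 0, 0, 22236097, 0, 0, 8177, ⟨0, 0⟩, 13128881⟩, 0, 0⟩ 0 0) (.cut .d (-4194304) (.void 9 ⟨⟨0, 0, 0, 0, 0, 100000, 0, 0, 0, ⟨0, 0⟩, 0⟩, 0, 0⟩ 0 0) (.cut .d (-2097152) (.void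 9 ⟨⟨0, 0, 0, 0, 0, 100000, 0, 0, 0, ⟨0, 0⟩, 0⟩, 0, 0⟩ 0 0) (.cut .d (-1048576) (.void 9 ⟨⟨0, 0, 0, 0, 0, 100000, 0, 0, 0, ⟨0, 0⟩, 0⟩, 0, 0⟩ 0 0) (.cut .v 14680064 (.pos 12 .mm ⟨⟨0, 0, 0, 0, 0, 3480129, 0, 0, 0, ⟨0, 0⟩, 0⟩, 0, 0⟩ 0 0) (.cut .d (-524288) (.void 13 ⟨⟨0, 0, 0, 0, 0, 100000, 0, 0, 0, ⟨0, 0⟩, 0⟩, 0, 0⟩ 0 0) (.cut .d (-262144) (.void 13 ⟨⟨0, 0, 0, 0, 0, 100000, 0, 0, 0, ⟨0, 0⟩, 0⟩, 0, 0⟩ 0 0) (.cut .d (-131072) (.void 13 ⟨⟨0, 0, 0, 0, 0, 100000, 0, 0, 0, ⟨0, 0⟩, 0⟩, 0, 0⟩ 0 0) (.cut .v 15728640 (.pos 20 .mm ⟨⟨0, 0, 0, 0, 0, 900142, 0, 0, 0, ⟨0, 0⟩, 0⟩, 0, 0⟩ 0 0) (.cut .s 4161536 (.cut .v 16252928 (.pos 37 .mm ⟨⟨0, 0,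 0, 0, 0, 969396, 0, 0, 0, ⟨0, 0⟩, 0⟩, 0, 0⟩ 0 0) (.cut .d (-65536) (.cut .s 3981312 (.pos 38 .mm ⟨⟨0, 0, 0, 0, 0, 1218130, 0, 0, 0, ⟨0, 0⟩, 0⟩, 0, 0⟩ 0 0) (.pos 38 .mm ⟨⟨0, 0, 0, 0, 0, 1545382, 0, 0, 0, ⟨0, 0⟩, 0⟩, 0, 0⟩ 0 0)) (.cut .s 3981312 (.pos 38 .mm ⟨⟨0, 0, 0, 0, 0, 991901, 0, 0, 0, ⟨0, 0⟩, 0⟩, 0, 0⟩ 0 0) (.pos 38 .mm ⟨⟨0, 0, 0, 0, 0, 1281148, 0, 0, 0, ⟨0, 0⟩, 0⟩, 0, 0⟩ 0 0)))) (.cut .v 16252928 (.pos 37 .mm ⟨⟨0, 0, 0, 0, 0, 1594059, 0, 0, 0, ⟨0, 0⟩, 0⟩, 0, 0⟩ 0 0) (.cut .d (-65536) (.cut .s 4341760 (.pos 38 .mm ⟨⟨0, 0, 0, 0, 0, 1940470, 0, 0, 0, ⟨0, 0⟩, 0⟩, 0, 0⟩ 0 0) (.pos 38 .mm ⟨⟨0, 0, 0, 0, 0, 2403038, 0, 0, 0, ⟨0,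 0⟩, 0⟩, 0, 0⟩ 0 0)) (.cut .v 16515072 (.pos 41 .mm ⟨⟨0, 0, 0, 0, 0, 1577282, 0, 0, 0, ⟨0, 0⟩, 0⟩, 0, 0⟩ 0 0) (.cut .l 97131 (.cut .d (-32768) (.pos 42 .mm ⟨⟨0, 0, 0, 0, 0, 2129934, 0, 0, 0, ⟨0, 0⟩, 0⟩, 0, 0⟩ 0 0) (.cut .s 4341760 (.pos 42 .mm ⟨⟨0, 0, 0, 0, 0, 1580008, 0, 0, 0, ⟨0, 0⟩, 0⟩, 0, 0⟩ 0 0) (.pos 42 .mm ⟨⟨0, 0, 0, 0, 0, 1983783, 0, 0, 0, ⟨0, 0⟩, 0⟩, 0, 0⟩ 0 0))) (.pos 42 .mm ⟨⟨0, 0, 0, 0, 0, 1461769, 0, 0, 0, ⟨0, 0⟩, 0⟩, 0, 0⟩ 0 0))))))))))))))))) (.cut .v 25165824 (.cut .d (-8388608) (.void 23 ⟨⟨0, 0, 0, 0, 0, 100000, 0, 0, 0, ⟨0, 0⟩, 0⟩, 0, 0⟩ 0 0) (.cut .d (-4194304) (.void 23 ⟨⟨0, 0, 0, 0, 0, 100000, 0, 0, 0, ⟨0, 0⟩,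 0⟩, 0, 0⟩ 0 0) (.cut .d (-2097152) (.void 23 ⟨⟨0, 0, 0, 0, 0, 100000, 0, 0, 0, ⟨0, 0⟩, 0⟩, 0, 0⟩ 0 0) (.cut .v 20971520 (.cut .d (-1048576) (.void 25 ⟨⟨0, 0, 0, 0, 0, 100000, 0, 0, 0, ⟨0, 0⟩, 0⟩, 0, 0⟩ 0 0) (.cut .d (-524288) (.void 25 ⟨⟨0, 0, 0, 0, 0, 100000, 0, 0, 0, ⟨0, 0⟩, 0⟩, 0, 0⟩ 0 0) (.cut .d (-262144) (.void 25 ⟨⟨0, 0, 0, 0, 0, 100000, 0, 0, 0, ⟨0, 0⟩, 0⟩, 0, 0⟩ 0 0) (.cut .v 18874368 (.cut .d (-131072) (.void 27 ⟨⟨0, 0, 0, 0, 0, 100000, 0, 0, 0, ⟨0, 0⟩, 0⟩, 0, 0⟩ 0 0) (.cut .v 17825792 (.cut .v 17301504 (.cut .v 17039360 (.cut .v 16908288 (.cut .s 4161536 (.cut .d (-65536) (.cut .s 3981312 (.pos 35 .mp ⟨⟨131686, 0, 0,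 0, 0, 1179934, 0, 0, 0, ⟨0, 0⟩, 0⟩, 0, 0⟩ 0 0) (.pos 35 .mp ⟨⟨162017, 0, 0, 0, 0, 1499492, 0, 0, 0, ⟨0, 0⟩, 0⟩, 0, 0⟩ 0 0)) (.cut .s 3981312 (.pos 35 .mp ⟨⟨172073, 0, 0, 0, 0, 893799, 0, 0, 0, ⟨0, 0⟩, 0⟩, 0, 0⟩ 0 0) (.cut .s 4071424 (.pos 35 .mp ⟨⟨300358, 0, 0, 0, 0, 1022058, 0, 0, 0, ⟨0, 0⟩, 0⟩, 0, 0⟩ 0 0) (.pos 35 .mp ⟨⟨298792, 0, 0, 0, 0, 1177321, 0, 0, 0, ⟨0, 0⟩, 0⟩, 0, 0⟩ 0 0)))) (.cut .d (-65536) (.cut .s 4341760 (.pos 35 .mp ⟨⟨301834, 0, 0, 0, 0, 1787859, 0, 0, 0, ⟨0, 0⟩, 0⟩, 0, 0⟩ 0 0) (.pos 35 .mp ⟨⟨288981, 0, 0, 0, 0, 2335864, 0, 0, 0, ⟨0, 0⟩, 0⟩, 0, 0⟩ 0 0)) (.cut .v 16842752 (.cut .l 97131 (.cut .d (-32768) (.pos 45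 .mp ⟨⟨148633, 0, 0, 0, 0, 2114788, 0, 0, 0, ⟨0, 0⟩, 0⟩, 0, 0⟩ 0 0) (.cut .s 4341760 (.pos 45 .mp ⟨⟨243237, 0, 0, 0, 0, 1415941, 0, 0, 0, ⟨0, 0⟩, 0⟩, 0, 0⟩ 0 0) (.cut .s 4431872 (.pos 45 .mp ⟨⟨535273, 0, 0, 0, 0, 1530226, 0, 0, 0, ⟨0, 0⟩, 0⟩, 0, 0⟩ 0 0) (.pos 45 .mp ⟨⟨599433, 0, 0, 0, 0, 1701917, 0, 0, 0, ⟨0, 0⟩, 0⟩, 0, 0⟩ 0 0)))) (.pos 45 .mp ⟨⟨424148, 0, 0, 0, 0, 1239986, 0, 0, 0, ⟨0, 0⟩, 0⟩, 0, 0⟩ 0 0)) (.pos 46 .mp ⟨⟨2734011, 0, 0, 0, 0, 0, 0, 0, 0, ⟨0, 0⟩, 0⟩, 0, 0⟩ 0 0)))) (.pos 36 .mp ⟨⟨3033500, 0, 0, 0, 0, 0, 0, 0, 0, ⟨0, 0⟩, 0⟩, 0, 0⟩ 0 0)) (.void 34 ⟨⟨100000, 0, 0, 0, 0, 0, 0, 0, 0, ⟨0, 0⟩, 0⟩, 0, 0⟩ 0 0)) (.void 32 ⟨⟨100000,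 0, 0, 0, 0, 0, 0, 0, 0, ⟨0, 0⟩, 0⟩, 0, 0⟩ 0 0)) (.void 30 ⟨⟨100000, 0, 0, 0, 0, 0, 0, 0, 0, ⟨0, 0⟩, 0⟩, 0, 0⟩ 0 0))) (.void 28 ⟨⟨100000, 0, 0, 0, 0, 0, 0, 0, 0, ⟨0, 0⟩, 0⟩, 0, 0⟩ 0 0))))) (.void 26 ⟨⟨0, 0, 0, 0, 0, 0, 100000, 0, 0, ⟨0, 0⟩, 0⟩, 0, 0⟩ 0 0))))) (.void 24 ⟨⟨0, 0, 0, 0, 0, 0, 100000, 0, 0, ⟨0, 0⟩, 0⟩, 0, 0⟩ 0 0))) (.cut .v 16777216 (.cut .v 8388608 (.void 2 ⟨⟨0, 0, 0, 0, 100000, 0, 0, 0, 0, ⟨0, 0⟩, 0⟩, 0, 0⟩ 0 0) (.cut .v 12582912 (.pos 8 .pm ⟨⟨0, 0, 0, 0, 0, 0, 0, 0, 8067570, ⟨0, 0⟩, 13128881⟩, 0, 0⟩ 0 0) (.cut .d 2129437 (.cut .d 1064718 (.cut .d 532359 (.cut .v 14680064 (.pos 12 .pm ⟨⟨0, 0, 0, 0, 0, 0, 0, 0, 0, ⟨0,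 0⟩, 0⟩, 0, 1015986⟩ 0 0) (.cut .v 15728640 (.cut .d 266179 (.pos 20 .pm ⟨⟨0, 0, 0, 0, 0, 0, 0, 0, 0, ⟨0, 0⟩, 0⟩, 0, 266158⟩ 0 0) (.pos 20 .pm ⟨⟨0, 0, 0, 0, 0, 0, 0, 0, 0, ⟨0, 0⟩, 0⟩, 0, 1170312⟩ 0 0)) (.cut .d 266179 (.cut .v 16252928 (.pos 37 .pm ⟨⟨0, 0, 0, 0, 0, 0, 0, 0, 0, ⟨0, 0⟩, 0⟩, 0, 254287⟩ 0 0) (.pos 38 .pm ⟨⟨0, 0, 0, 0, 0, 0, 0, 0, 0, ⟨0, 0⟩, 0⟩, 0, 177748⟩ 0 0)) (.cut .v 16252928 (.pos 37 .pm ⟨⟨0, 0, 0, 0, 0, 0, 0, 0, 0, ⟨0, 0⟩, 0⟩, 0, 1087359⟩ 0 0) (.pos 38 .pm ⟨⟨0, 0, 0, 0, 0, 0, 0, 0, 0, ⟨0, 0⟩, 0⟩, 0, 909468⟩ 0 0))))) (.void 9 ⟨⟨0, 0, 0, 0, 0, 0, 0, 0, 0, ⟨0, 0⟩, 0⟩, 0, 100000⟩ 0 0)) (.void 9 ⟨⟨0, 0, 0, 0, 0, 0,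 0, 0, 0, ⟨0, 0⟩, 0⟩, 0, 100000⟩ 0 0)) (.void 9 ⟨⟨0, 0, 0, 0, 0, 0, 0, 0, 0, ⟨0, 0⟩, 0⟩, 0, 100000⟩ 0 0)))) (.cut .v 25165824 (.cut .v 20971520 (.cut .d 2129437 (.cut .d 1064718 (.cut .v 18874368 (.cut .d 532359 (.cut .d 266179 (.cut .v 17825792 (.cut .s 4161536 (.pos 29 .pp ⟨⟨273479, 0, 0, 0, 0, 0, 0, 0, 0, ⟨0, 0⟩, 0⟩, 0, 162543⟩ 0 0) (.pos 29 .pp ⟨⟨623242, 0, 0, 0, 0, 0, 0, 0, 0, ⟨0, 0⟩, 0⟩, 0, 134047⟩ 0 0)) (.void 30 ⟨⟨0, 0, 0, 0, 0, 0, 0, 0, 0, ⟨0, 0⟩, 0⟩, 100000, 0⟩ 0 0)) (.pos 27 .pp ⟨⟨252116, 0, 0, 0, 0, 0, 0, 0, 0, ⟨0, 0⟩, 0⟩, 0, 781818⟩ 0 0)) (.void 27 ⟨⟨0, 0, 0, 0, 0, 0, 0, 0, 0, ⟨0, 0⟩, 0⟩, 489, 99511⟩ 0 0)) (.void 28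 ⟨⟨0, 0, 0, 0, 0, 0, 0, 0, 0, ⟨0, 0⟩, 0⟩, 18017, 81983⟩ 0 0)) (.void 25 ⟨⟨0, 0, 0, 0, 0, 0, 0, 0, 0, ⟨0, 0⟩, 0⟩, 349, 99651⟩ 0 0)) (.void 25 ⟨⟨0, 0, 0, 0, 0, 0, 0, 0, 0, ⟨0, 0⟩, 0⟩, 0, 100000⟩ 0 0)) (.void 26 ⟨⟨0, 0, 0, 0, 0, 0, 0, 0, 0, ⟨0, 0⟩, 0⟩, 18017, 81983⟩ 0 0)) (.void 24 ⟨⟨0, 0, 0, 0, 0, 0, 0, 0, 0, ⟨0, 0⟩, 0⟩, 18017, 81983⟩ 0 0)))),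
    by decide +kernel⟩

def covers4 : cell.Covers Vale.Agent.P237.Petty.Cor.Grid.N19.table row4.1 :=
  ⟨(.cut .d 0 (.cut .v 16777216 (.cut .v 8388608 (.void 2 ⟨⟨0, 0, 0, 0, 50000, 50000, 0, 0, 0, ⟨0, 0⟩, 0⟩, 0, 0⟩ 0 0) (.cut .d (-8388608) (.void 3 ⟨⟨0, 0, 0, 0, 0, 100000, 0, 0, 0, ⟨0, 0⟩, 0⟩, 0, 0⟩ 0 0) (.cut .v 12582912 (.pos 8 .mm ⟨⟨0, 0, 0, 0, 0, 32887019, 0, 0, 0, ⟨0, 0⟩, 0⟩, 0, 0⟩ 0 0) (.cut .d (-4194304) (.void 9 ⟨⟨0, 0, 0, 0, 0, 100000, 0, 0, 0, ⟨0, 0⟩, 0⟩, 0, 0⟩ 0 0) (.cut .d (-2097152) (.void 9 ⟨⟨0, 0, 0, 0, 0, 100000, 0, 0, 0, ⟨0, 0⟩, 0⟩, 0, 0⟩ 0 0) (.cut .d (-1048576) (.void 9 ⟨⟨0, 0, 0, 0, 0, 100000, 0, 0, 0, ⟨0, 0⟩,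 0⟩, 0, 0⟩ 0 0) (.cut .v 14680064 (.pos 12 .mm ⟨⟨0, 0, 0, 0, 0, 6658999, 0, 0, 0, ⟨0, 0⟩, 0⟩, 0, 0⟩ 0 0) (.cut .d (-524288) (.void 13 ⟨⟨0, 0, 0, 0, 0, 100000, 0, 0, 0, ⟨0, 0⟩, 0⟩, 0, 0⟩ 0 0) (.cut .d (-262144) (.void 13 ⟨⟨0, 0, 0, 0, 0, 100000, 0, 0, 0, ⟨0, 0⟩, 0⟩, 0, 0⟩ 0 0) (.cut .d (-131072) (.void 13 ⟨⟨0, 0, 0, 0, 0, 100000, 0, 0, 0, ⟨0, 0⟩, 0⟩, 0, 0⟩ 0 0) (.cut .v 15728640 (.pos 20 .mm ⟨⟨0, 0, 0, 0, 0, 2105776, 0, 0, 0, ⟨0, 0⟩, 0⟩, 0, 0⟩ 0 0) (.cut .v 16252928 (.pos 37 .mm ⟨⟨0, 0, 0, 0, 0, 3014823, 0, 0, 0, ⟨0, 0⟩, 0⟩, 0, 0⟩ 0 0) (.cut .d (-65536) (.cut .s 4882432 (.pos 38 .mm ⟨⟨0, 0, 0, 0, 0, 3477867, 0, 0, 0, ⟨0, 0⟩, 0⟩,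 0, 0⟩ 0 0) (.pos 38 .mm ⟨⟨0, 0, 0, 0, 0, 5039105, 0, 0, 0, ⟨0, 0⟩, 0⟩, 0, 0⟩ 0 0)) (.cut .s 4882432 (.cut .v 16515072 (.pos 41 .mm ⟨⟨0, 0, 0, 0, 0, 2444759, 0, 0, 0, ⟨0, 0⟩, 0⟩, 0, 0⟩ 0 0) (.cut .v 16646144 (.pos 43 .mm ⟨⟨0, 0, 0, 0, 0, 2613284, 0, 0, 0, ⟨0, 0⟩, 0⟩, 0, 0⟩ 0 0) (.cut .l 97131 (.cut .d (-32768) (.pos 44 .mm ⟨⟨0, 0, 0, 0, 0, 3275888, 0, 0, 0, ⟨0, 0⟩, 0⟩, 0, 0⟩ 0 0) (.cut .s 4702208 (.pos 44 .mm ⟨⟨0, 0, 0, 0, 0, 2465713, 0, 0, 0, ⟨0, 0⟩, 0⟩, 0, 0⟩ 0 0) (.cut .s 4792320 (.pos 44 .mm ⟨⟨0, 0, 0, 0, 0, 2869923, 0, 0, 0, ⟨0, 0⟩, 0⟩, 0, 0⟩ 0 0) (.pos 44 .mm ⟨⟨0, 0, 0, 0, 0, 3164746, 0, 0, 0, ⟨0, 0⟩, 0⟩, 0, 0⟩ 0 0)))) (.pos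 44 .mm ⟨⟨0, 0, 0, 0, 0, 2485618, 0, 0, 0, ⟨0, 0⟩, 0⟩, 0, 0⟩ 0 0)))) (.cut .v 16515072 (.pos 41 .mm ⟨⟨0, 0, 0, 0, 0, 3606156, 0, 0, 0, ⟨0, 0⟩, 0⟩, 0, 0⟩ 0 0) (.cut .v 16646144 (.pos 43 .mm ⟨⟨0, 0, 0, 0, 0, 3843431, 0, 0, 0, ⟨0, 0⟩, 0⟩, 0, 0⟩ 0 0) (.cut .s 5062656 (.cut .s 4972544 (.pos 44 .mm ⟨⟨0, 0, 0, 0, 0, 3561791, 0, 0, 0, ⟨0, 0⟩, 0⟩, 0, 0⟩ 0 0) (.pos 44 .mm ⟨⟨0, 0, 0, 0, 0, 3921289, 0, 0, 0, ⟨0, 0⟩, 0⟩, 0, 0⟩ 0 0)) (.cut .s 5152768 (.pos 44 .mm ⟨⟨0, 0, 0, 0, 0, 4309442, 0, 0, 0, ⟨0, 0⟩, 0⟩, 0, 0⟩ 0 0) (.pos 44 .mm ⟨⟨0, 0, 0, 0, 0, 4726058, 0, 0, 0, ⟨0, 0⟩, 0⟩, 0, 0⟩ 0 0))))))))))))))))))) (.cut .d (-8388608) (.void 22 ⟨⟨0,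 0, 0, 0, 0, 100000, 0, 0, 0, ⟨0, 0⟩, 0⟩, 0, 0⟩ 0 0) (.cut .v 25165824 (.cut .d (-4194304) (.void 23 ⟨⟨0, 0, 0, 0, 0, 100000, 0, 0, 0, ⟨0, 0⟩, 0⟩, 0, 0⟩ 0 0) (.cut .d (-2097152) (.void 23 ⟨⟨0, 0, 0, 0, 0, 100000, 0, 0, 0, ⟨0, 0⟩, 0⟩, 0, 0⟩ 0 0) (.cut .v 20971520 (.cut .d (-1048576) (.void 25 ⟨⟨0, 0, 0, 0, 0, 100000, 0, 0, 0, ⟨0, 0⟩, 0⟩, 0, 0⟩ 0 0) (.cut .d (-524288) (.void 25 ⟨⟨0, 0, 0, 0, 0, 100000, 0, 0, 0, ⟨0, 0⟩, 0⟩, 0, 0⟩ 0 0) (.cut .d (-262144) (.void 25 ⟨⟨0, 0, 0, 0, 0, 100000, 0, 0, 0, ⟨0, 0⟩, 0⟩, 0, 0⟩ 0 0) (.cut .v 18874368 (.cut .d (-131072) (.void 27 ⟨⟨0, 0, 0, 0, 0, 100000, 0, 0, 0, ⟨0, 0⟩, 0⟩, 0, 0⟩ 0 0) (.cut .v 17825792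 (.cut .v 17301504 (.cut .v 17039360 (.cut .v 16908288 (.cut .d (-65536) (.cut .d (-98304) (.void 35 ⟨⟨0, 0, 0, 0, 0, 100000, 0, 0, 0, ⟨0, 0⟩, 0⟩, 0, 0⟩ 0 0) (.cut .l 97131 (.void 35 ⟨⟨0, 0, 0, 0, 0, 100000, 0, 0, 0, ⟨0, 0⟩, 0⟩, 0, 0⟩ 0 0) (.cut .l 145697 (.pos 35 .mp ⟨⟨418896, 0, 0, 0, 0, 6014895, 0, 0, 0, ⟨0, 0⟩, 0⟩, 0, 0⟩ 0 0) (.cut .s 4882432 (.cut .s 4702208 (.pos 35 .mp ⟨⟨458386, 0, 0, 0, 0, 2629303, 0, 0, 0, ⟨0, 0⟩, 0⟩, 0, 0⟩ 0 0) (.pos 35 .mp ⟨⟨706114, 0, 0, 0, 0, 3039045, 0, 0, 0, ⟨0, 0⟩, 0⟩, 0, 0⟩ 0 0)) (.cut .s 5062656 (.pos 35 .mp ⟨⟨798316, 0, 0, 0, 0, 3868379, 0, 0, 0, ⟨0, 0⟩, 0⟩, 0, 0⟩ 0 0) (.pos 35 .mp ⟨⟨1075215,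 0, 0, 0, 0, 4494131, 0, 0, 0, ⟨0, 0⟩, 0⟩, 0, 0⟩ 0 0)))))) (.cut .s 4882432 (.cut .v 16842752 (.cut .s 4702208 (.cut .s 4612096 (.pos 45 .mp ⟨⟨539857, 0, 0, 0, 0, 2034597, 0, 0, 0, ⟨0, 0⟩, 0⟩, 0, 0⟩ 0 0) (.cut .s 4657152 (.pos 45 .mp ⟨⟨770953, 0, 0, 0, 0, 2054101, 0, 0, 0, ⟨0, 0⟩, 0⟩, 0, 0⟩ 0 0) (.pos 45 .mp ⟨⟨779297, 0, 0, 0, 0, 2174439, 0, 0, 0, ⟨0, 0⟩, 0⟩, 0, 0⟩ 0 0))) (.cut .s 4792320 (.cut .s 4747264 (.pos 45 .mp ⟨⟨791849, 0, 0, 0, 0, 2299014, 0, 0, 0, ⟨0, 0⟩, 0⟩, 0, 0⟩ 0 0) (.pos 45 .mp ⟨⟨809342, 0, 0, 0, 0, 2427236, 0, 0, 0, ⟨0, 0⟩, 0⟩, 0, 0⟩ 0 0)) (.cut .s 4837376 (.pos 45 .mp ⟨⟨832504, 0, 0, 0, 0, 2558503, 0, 0, 0, ⟨0,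 0⟩, 0⟩, 0, 0⟩ 0 0) (.pos 45 .mp ⟨⟨862064, 0, 0, 0, 0, 2692204, 0, 0, 0, ⟨0, 0⟩, 0⟩, 0, 0⟩ 0 0)))) (.pos 46 .mp ⟨⟨4051665, 0, 0, 0, 0, 0, 0, 0, 0, ⟨0, 0⟩, 0⟩, 0, 0⟩ 0 0)) (.cut .v 16842752 (.cut .s 5062656 (.cut .s 4972544 (.cut .s 4927488 (.pos 45 .mp ⟨⟨903136, 0, 0, 0, 0, 2824505, 0, 0, 0, ⟨0, 0⟩, 0⟩, 0, 0⟩ 0 0) (.pos 45 .mp ⟨⟨971815, 0, 0, 0, 0, 2943419, 0, 0, 0, ⟨0, 0⟩, 0⟩, 0, 0⟩ 0 0)) (.cut .s 5017600 (.pos 45 .mp ⟨⟨1044077, 0, 0, 0, 0, 3066352, 0, 0, 0, ⟨0, 0⟩, 0⟩, 0, 0⟩ 0 0) (.pos 45 .mp ⟨⟨1119943, 0, 0, 0, 0, 3193222, 0, 0, 0, ⟨0, 0⟩, 0⟩, 0, 0⟩ 0 0))) (.cut .s 5152768 (.cut .s 5107712 (.pos 45 .mp ⟨⟨1199437, 0, 0, 0, 0,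 3323941, 0, 0, 0, ⟨0, 0⟩, 0⟩, 0, 0⟩ 0 0) (.pos 45 .mp ⟨⟨1282583, 0, 0, 0, 0, 3458424, 0, 0, 0, ⟨0, 0⟩, 0⟩, 0, 0⟩ 0 0)) (.cut .s 5197824 (.pos 45 .mp ⟨⟨1369403, 0, 0, 0, 0, 3596580, 0, 0, 0, ⟨0, 0⟩, 0⟩, 0, 0⟩ 0 0) (.pos 45 .mp ⟨⟨1459923, 0, 0, 0, 0, 3738317, 0, 0, 0, ⟨0, 0⟩, 0⟩, 0, 0⟩ 0 0)))) (.pos 46 .mp ⟨⟨5683776, 0, 0, 0, 0, 0, 0, 0, 0, ⟨0, 0⟩, 0⟩, 0, 0⟩ 0 0)))) (.pos 36 .mp ⟨⟨6520655, 0, 0, 0, 0, 0, 0, 0, 0, ⟨0, 0⟩, 0⟩, 0, 0⟩ 0 0)) (.void 34 ⟨⟨100000, 0, 0, 0, 0, 0, 0, 0, 0, ⟨0, 0⟩, 0⟩, 0, 0⟩ 0 0)) (.void 32 ⟨⟨100000, 0, 0, 0, 0, 0, 0, 0, 0, ⟨0, 0⟩, 0⟩, 0, 0⟩ 0 0)) (.void 30 ⟨⟨100000, 0, 0, 0, 0, 0, 0, 0, 0, ⟨0, 0⟩, 0⟩, 0, 0⟩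 0 0))) (.void 28 ⟨⟨100000, 0, 0, 0, 0, 0, 0, 0, 0, ⟨0, 0⟩, 0⟩, 0, 0⟩ 0 0))))) (.void 26 ⟨⟨100000, 0, 0, 0, 0, 0, 0, 0, 0, ⟨0, 0⟩, 0⟩, 0, 0⟩ 0 0)))) (.void 24 ⟨⟨0, 0, 0, 0, 0, 0, 100000, 0, 0, ⟨0, 0⟩, 0⟩, 0, 0⟩ 0 0)))) (.cut .v 16777216 (.cut .v 8388608 (.void 2 ⟨⟨0, 0, 0, 0, 100000, 0, 0, 0, 0, ⟨0, 0⟩, 0⟩, 0, 0⟩ 0 0) (.cut .d 2829939 (.cut .d 1414969 (.cut .v 12582912 (.pos 8 .pm ⟨⟨0, 0, 0, 0, 0, 0, 0, 0, 0, ⟨0, 0⟩, 0⟩, 0, 2472485⟩ 0 0) (.cut .d 707484 (.cut .v 14680064 (.pos 12 .pm ⟨⟨0, 0, 0, 0, 0, 0, 0, 0, 0, ⟨0, 0⟩, 0⟩, 0, 1096494⟩ 0 0) (.cut .d 353742 (.cut .v 15728640 (.pos 20 .pm ⟨⟨0, 0, 0, 0, 0, 0, 0, 0, 0, ⟨0, 0⟩, 0⟩, 0,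 197021⟩ 0 0) (.pos 21 .pm ⟨⟨0, 0, 0, 0, 0, 0, 0, 0, 0, ⟨0, 0⟩, 0⟩, 0, 44964⟩ 0 0)) (.pos 13 .pm ⟨⟨0, 0, 0, 0, 0, 0, 0, 0, 0, ⟨0, 0⟩, 0⟩, 0, 9685949⟩ 0 0))) (.void 9 ⟨⟨0, 0, 0, 0, 0, 0, 0, 0, 0, ⟨0, 0⟩, 0⟩, 0, 100000⟩ 0 0))) (.void 3 ⟨⟨0, 0, 0, 0, 0, 0, 0, 0, 0, ⟨0, 0⟩, 0⟩, 0, 100000⟩ 0 0)) (.void 3 ⟨⟨0, 0, 0, 0, 0, 0, 0, 0, 0, ⟨0, 0⟩, 0⟩, 0, 100000⟩ 0 0))) (.cut .v 25165824 (.cut .d 2829939 (.cut .v 20971520 (.cut .d 1414969 (.cut .d 707484 (.cut .v 18874368 (.cut .d 353742 (.cut .d 176871 (.cut .s 4882432 (.pos 27 .pp ⟨⟨2001815, 0, 0, 0, 0, 0, 0, 0, 0, ⟨0, 0⟩, 0⟩, 0, 77637⟩ 0 0) (.pos 27 .pp ⟨⟨2975128, 0, 0, 0, 0, 0, 0, 0, 0,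 ⟨0, 0⟩, 0⟩, 0, 35194⟩ 0 0)) (.pos 27 .pp ⟨⟨1371178, 0, 0, 0, 0, 0, 0, 0, 0, ⟨0, 0⟩, 0⟩, 0, 414750⟩ 0 0)) (.pos 27 .pp ⟨⟨1680622, 0, 0, 0, 0, 0, 0, 0, 0, ⟨0, 0⟩, 0⟩, 0, 5315489⟩ 0 0)) (.void 28 ⟨⟨0, 0, 0, 0, 0, 0, 0, 0, 0, ⟨0, 0⟩, 0⟩, 17467, 82533⟩ 0 0)) (.void 25 ⟨⟨0, 0, 0, 0, 0, 0, 0, 0, 0, ⟨0, 0⟩, 0⟩, 701, 99299⟩ 0 0)) (.void 25 ⟨⟨0, 0, 0, 0, 0, 0, 0, 0, 0, ⟨0, 0⟩, 0⟩, 445, 99555⟩ 0 0)) (.void 26 ⟨⟨0, 0, 0, 0, 0, 0, 0, 0, 0, ⟨0, 0⟩, 0⟩, 17467, 82533⟩ 0 0)) (.void 23 ⟨⟨0, 0, 0, 0, 0, 0, 0, 0, 0, ⟨0, 0⟩, 0⟩, 383, 99617⟩ 0 0)) (.void 24 ⟨⟨0, 0, 0, 0, 0, 0, 0, 0, 0, ⟨0, 0⟩, 0⟩, 17467, 82533⟩ 0 0)))),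
    by decide +kernel⟩

def covers5 : cell.Covers Vale.Agent.P237.Petty.Cor.Grid.N19.table row5.1 :=
  ⟨(.cut .d 0 (.cut .v 16777216 (.cut .d (-8388608) (.void 1 ⟨⟨0, 0, 0, 0, 0, 100000, 0, 0, 0, ⟨0, 0⟩, 0⟩, 0, 0⟩ 0 0) (.cut .d (-4194304) (.void 1 ⟨⟨0, 0, 0, 0, 0, 100000, 0, 0, 0, ⟨0, 0⟩, 0⟩, 0, 0⟩ 0 0) (.cut .d (-2097152) (.void 1 ⟨⟨0, 0, 0, 0, 0, 100000, 0, 0, 0, ⟨0, 0⟩, 0⟩, 0, 0⟩ 0 0) (.cut .d (-1048576) (.void 1 ⟨⟨0, 0, 0, 0, 0, 100000, 0, 0, 0, ⟨0, 0⟩, 0⟩, 0, 0⟩ 0 0) (.cut .d (-524288) (.void 1 ⟨⟨0, 0, 0, 0, 0, 100000, 0, 0, 0, ⟨0, 0⟩, 0⟩, 0, 0⟩ 0 0) (.cut .d (-262144) (.void 1 ⟨⟨0, 0, 0, 0, 0, 100000, 0, 0, 0, ⟨0, 0⟩, 0⟩,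 0, 0⟩ 0 0) (.cut .d (-131072) (.void 1 ⟨⟨0, 0, 0, 0, 0, 100000, 0, 0, 0, ⟨0, 0⟩, 0⟩, 0, 0⟩ 0 0) (.cut .v 8388608 (.cut .v 4194304 (.void 4 ⟨⟨0, 0, 59906, 0, 40094, 0, 0, 0, 0, ⟨0, 0⟩, 0⟩, 0, 0⟩ 0 0) (.void 5 ⟨⟨0, 0, 0, 0, 0, 0, 0, 0, 100000, ⟨0, 0⟩, 9975792⟩, 0, 0⟩ 0 0)) (.cut .v 12582912 (.pos 8 .mm ⟨⟨0, 0, 0, 0, 0, 1721803, 0, 0, 0, ⟨0, 0⟩, 0⟩, 0, 0⟩ 0 0) (.cut .v 14680064 (.pos 12 .mm ⟨⟨0, 0, 0, 0, 0, 3055281, 0, 0, 0, ⟨0, 0⟩, 0⟩, 0, 0⟩ 0 0) (.cut .d (-65536) (.pos 13 .mm ⟨⟨0, 0, 0, 0, 0, 10205804, 0, 0, 0, ⟨0, 0⟩, 0⟩, 0, 0⟩ 0 0) (.cut .v 15728640 (.pos 20 .mm ⟨⟨0, 0, 0, 0, 0, 3629069, 0, 0, 0, ⟨0, 0⟩, 0⟩, 0, 0⟩ 0 0) (.cut .v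 16252928 (.pos 37 .mm ⟨⟨0, 0, 0, 0, 0, 4481477, 0, 0, 0, ⟨0, 0⟩, 0⟩, 0, 0⟩ 0 0) (.cut .v 16515072 (.pos 41 .mm ⟨⟨0, 0, 0, 0, 0, 6112272, 0, 0, 0, ⟨0, 0⟩, 0⟩, 0, 0⟩ 0 0) (.cut .s 5636096 (.cut .v 16646144 (.pos 43 .mm ⟨⟨0, 0, 0, 0, 0, 5673813, 0, 0, 0, ⟨0, 0⟩, 0⟩, 0, 0⟩ 0 0) (.cut .s 5439488 (.cut .s 5341184 (.pos 44 .mm ⟨⟨0, 0, 0, 0, 0, 5195696, 0, 0, 0, ⟨0, 0⟩, 0⟩, 0, 0⟩ 0 0) (.pos 44 .mm ⟨⟨0, 0, 0, 0, 0, 5684300, 0, 0, 0, ⟨0, 0⟩, 0⟩, 0, 0⟩ 0 0)) (.cut .s 5537792 (.pos 44 .mm ⟨⟨0, 0, 0, 0, 0, 6230262, 0, 0, 0, ⟨0, 0⟩, 0⟩, 0, 0⟩ 0 0) (.pos 44 .mm ⟨⟨0, 0, 0, 0, 0, 6833196, 0, 0, 0, ⟨0, 0⟩, 0⟩, 0, 0⟩ 0 0)))) (.cut .v 16646144 (.pos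 43 .mm ⟨⟨0, 0, 0, 0, 0, 8182226, 0, 0, 0, ⟨0, 0⟩, 0⟩, 0, 0⟩ 0 0) (.cut .s 5832704 (.cut .s 5734400 (.pos 44 .mm ⟨⟨0, 0, 0, 0, 0, 7492674, 0, 0, 0, ⟨0, 0⟩, 0⟩, 0, 0⟩ 0 0) (.pos 44 .mm ⟨⟨0, 0, 0, 0, 0, 8208231, 0, 0, 0, ⟨0, 0⟩, 0⟩, 0, 0⟩ 0 0)) (.cut .s 5931008 (.pos 44 .mm ⟨⟨0, 0, 0, 0, 0, 8979364, 0, 0, 0, ⟨0, 0⟩, 0⟩, 0, 0⟩ 0 0) (.pos 44 .mm ⟨⟨0, 0, 0, 0, 0, 9805537, 0, 0, 0, ⟨0, 0⟩, 0⟩, 0, 0⟩ 0 0))))))))))))))))))) (.cut .d (-8388608) (.void 22 ⟨⟨0, 0, 0, 0, 0, 100000, 0, 0, 0, ⟨0, 0⟩, 0⟩, 0, 0⟩ 0 0) (.cut .v 25165824 (.cut .d (-4194304) (.void 23 ⟨⟨0, 0, 0, 0, 0, 100000, 0, 0, 0, ⟨0, 0⟩, 0⟩, 0, 0⟩ 0 0) (.cut .d (-2097152) (.void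 23 ⟨⟨0, 0, 0, 0, 0, 100000, 0, 0, 0, ⟨0, 0⟩, 0⟩, 0, 0⟩ 0 0) (.cut .v 20971520 (.cut .d (-1048576) (.void 25 ⟨⟨0, 0, 0, 0, 0, 100000, 0, 0, 0, ⟨0, 0⟩, 0⟩, 0, 0⟩ 0 0) (.cut .d (-524288) (.void 25 ⟨⟨0, 0, 0, 0, 0, 100000, 0, 0, 0, ⟨0, 0⟩, 0⟩, 0, 0⟩ 0 0) (.cut .d (-262144) (.void 25 ⟨⟨0, 0, 0, 0, 0, 100000, 0, 0, 0, ⟨0, 0⟩, 0⟩, 0, 0⟩ 0 0) (.cut .d (-131072) (.void 25 ⟨⟨0, 0, 0, 0, 0, 100000, 0, 0, 0, ⟨0, 0⟩, 0⟩, 0, 0⟩ 0 0) (.cut .v 18874368 (.cut .v 17825792 (.cut .v 17301504 (.cut .v 17039360 (.cut .v 16908288 (.cut .d (-65536) (.cut .s 5636096 (.cut .s 5439488 (.pos 35 .mp ⟨⟨1612512, 0, 0, 0, 0, 5458168, 0, 0, 0, ⟨0, 0⟩, 0⟩, 0, 0⟩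 0 0) (.void 35 ⟨⟨0, 0, 0, 0, 0, 100000, 0, 0, 0, ⟨0, 0⟩, 0⟩, 0, 0⟩ 0 0)) (.void 35 ⟨⟨0, 0, 0, 0, 0, 100000, 0, 0, 0, ⟨0, 0⟩, 0⟩, 0, 0⟩ 0 0)) (.cut .s 5636096 (.cut .v 16842752 (.cut .s 5439488 (.cut .s 5341184 (.cut .s 5292032 (.pos 45 .mp ⟨⟨1565057, 0, 0, 0, 0, 3886964, 0, 0, 0, ⟨0, 0⟩, 0⟩, 0, 0⟩ 0 0) (.cut .s 5316608 (.pos 45 .mp ⟨⟨1717692, 0, 0, 0, 0, 3936354, 0, 0, 0, ⟨0, 0⟩, 0⟩, 0, 0⟩ 0 0) (.pos 45 .mp ⟨⟨1740501, 0, 0, 0, 0, 4033402, 0, 0, 0, ⟨0, 0⟩, 0⟩, 0, 0⟩ 0 0))) (.cut .d (-32768) (.pos 45 .mp ⟨⟨1486651, 0, 0, 0, 0, 4795408, 0, 0, 0, ⟨0, 0⟩, 0⟩, 0, 0⟩ 0 0) (.cut .s 5390336 (.pos 45 .mp ⟨⟨1852277, 0, 0, 0, 0, 4051183, 0,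 0, 0, ⟨0, 0⟩, 0⟩, 0, 0⟩ 0 0) (.pos 45 .mp ⟨⟨1916076, 0, 0, 0, 0, 4246918, 0, 0, 0, ⟨0, 0⟩, 0⟩, 0, 0⟩ 0 0)))) (.cut .s 5537792 (.cut .d (-32768) (.cut .s 5488640 (.pos 45 .mp ⟨⟨1715653, 0, 0, 0, 0, 4952341, 0, 0, 0, ⟨0, 0⟩, 0⟩, 0, 0⟩ 0 0) (.pos 45 .mp ⟨⟨1839751, 0, 0, 0, 0, 5138746, 0, 0, 0, ⟨0, 0⟩, 0⟩, 0, 0⟩ 0 0)) (.cut .s 5488640 (.pos 45 .mp ⟨⟨1989770, 0, 0, 0, 0, 4448889, 0, 0, 0, ⟨0, 0⟩, 0⟩, 0, 0⟩ 0 0) (.pos 45 .mp ⟨⟨2074658, 0, 0, 0, 0, 4655952, 0, 0, 0, ⟨0, 0⟩, 0⟩, 0, 0⟩ 0 0))) (.cut .d (-32768) (.cut .s 5586944 (.pos 45 .mp ⟨⟨1970311, 0, 0, 0, 0, 5333772, 0, 0, 0, ⟨0, 0⟩, 0⟩, 0, 0⟩ 0 0) (.pos 45 .mp ⟨⟨2107382, 0, 0, 0, 0,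 5537348, 0, 0, 0, ⟨0, 0⟩, 0⟩, 0, 0⟩ 0 0)) (.cut .s 5586944 (.pos 45 .mp ⟨⟨2200462, 0, 0, 0, 0, 4843269, 0, 0, 0, ⟨0, 0⟩, 0⟩, 0, 0⟩ 0 0) (.pos 45 .mp ⟨⟨2348042, 0, 0, 0, 0, 5026374, 0, 0, 0, ⟨0, 0⟩, 0⟩, 0, 0⟩ 0 0))))) (.pos 46 .mp ⟨⟨8011396, 0, 0, 0, 0, 0, 0, 0, 0, ⟨0, 0⟩, 0⟩, 0, 0⟩ 0 0)) (.cut .v 16842752 (.cut .s 5832704 (.cut .s 5734400 (.cut .d (-32768) (.cut .s 5685248 (.pos 45 .mp ⟨⟨2251015, 0, 0, 0, 0, 5749397, 0, 0, 0, ⟨0, 0⟩, 0⟩, 0, 0⟩ 0 0) (.pos 45 .mp ⟨⟨2401262, 0, 0, 0, 0, 5969838, 0, 0, 0, ⟨0, 0⟩, 0⟩, 0, 0⟩ 0 0)) (.cut .v 16809984 (.cut .l 97131 (.cut .d (-16384) (.pos 47 .mp ⟨⟨2316927, 0, 0, 0, 0, 5800086, 0, 0, 0,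 ⟨0, 0⟩, 0⟩, 0, 0⟩ 0 0) (.cut .s 5685248 (.pos 47 .mp ⟨⟨2588071, 0, 0, 0, 0, 5110826, 0, 0, 0, ⟨0, 0⟩, 0⟩, 0, 0⟩ 0 0) (.pos 47 .mp ⟨⟨2733956, 0, 0, 0, 0, 5321916, 0, 0, 0, ⟨0, 0⟩, 0⟩, 0, 0⟩ 0 0))) (.pos 47 .mp ⟨⟨2521650, 0, 0, 0, 0, 4905016, 0, 0, 0, ⟨0, 0⟩, 0⟩, 0, 0⟩ 0 0)) (.pos 48 .mp ⟨⟨8511285, 0, 0, 0, 0, 0, 0, 0, 0, ⟨0, 0⟩, 0⟩, 0, 0⟩ 0 0))) (.cut .d (-32768) (.cut .s 5783552 (.pos 45 .mp ⟨⟨2558177, 0, 0, 0, 0, 6198585, 0, 0, 0, ⟨0, 0⟩, 0⟩, 0, 0⟩ 0 0) (.pos 45 .mp ⟨⟨2721814, 0, 0, 0, 0, 6435546, 0, 0, 0, ⟨0, 0⟩, 0⟩, 0, 0⟩ 0 0)) (.cut .v 16809984 (.cut .l 97131 (.cut .d (-16384) (.pos 47 .mp ⟨⟨2531824, 0, 0, 0, 0, 6384845, 0,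 0, 0, ⟨0, 0⟩, 0⟩, 0, 0⟩ 0 0) (.cut .s 5783552 (.pos 47 .mp ⟨⟨2897614, 0, 0, 0, 0, 5531879, 0, 0, 0, ⟨0, 0⟩, 0⟩, 0, 0⟩ 0 0) (.pos 47 .mp ⟨⟨3080390, 0, 0, 0, 0, 5739370, 0, 0, 0, ⟨0, 0⟩, 0⟩, 0, 0⟩ 0 0))) (.pos 47 .mp ⟨⟨2847236, 0, 0, 0, 0, 5302084, 0, 0, 0, ⟨0, 0⟩, 0⟩, 0, 0⟩ 0 0)) (.pos 48 .mp ⟨⟨9240166, 0, 0, 0, 0, 0, 0, 0, 0, ⟨0, 0⟩, 0⟩, 0, 0⟩ 0 0)))) (.cut .s 5931008 (.cut .d (-32768) (.cut .s 5881856 (.pos 45 .mp ⟨⟨2892228, 0, 0, 0, 0, 6680623, 0, 0, 0, ⟨0, 0⟩, 0⟩, 0, 0⟩ 0 0) (.pos 45 .mp ⟨⟨3069477, 0, 0, 0, 0, 6933714, 0, 0, 0, ⟨0, 0⟩, 0⟩, 0, 0⟩ 0 0)) (.cut .s 5881856 (.cut .s 5857280 (.pos 45 .mp ⟨⟨3360838, 0, 0, 0, 0, 5852041,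 0, 0, 0, ⟨0, 0⟩, 0⟩, 0, 0⟩ 0 0) (.pos 45 .mp ⟨⟨3472662, 0, 0, 0, 0, 5949319, 0, 0, 0, ⟨0, 0⟩, 0⟩, 0, 0⟩ 0 0)) (.pos 45 .mp ⟨⟨3378328, 0, 0, 0, 0, 6293095, 0, 0, 0, ⟨0, 0⟩, 0⟩, 0, 0⟩ 0 0))) (.cut .d (-32768) (.pos 45 .mp ⟨⟨3253618, 0, 0, 0, 0, 7512430, 0, 0, 0, ⟨0, 0⟩, 0⟩, 0, 0⟩ 0 0) (.cut .s 5980160 (.pos 45 .mp ⟨⟨3574718, 0, 0, 0, 0, 6531305, 0, 0, 0, ⟨0, 0⟩, 0⟩, 0, 0⟩ 0 0) (.pos 45 .mp ⟨⟨3830378, 0, 0, 0, 0, 6731487, 0, 0, 0, ⟨0, 0⟩, 0⟩, 0, 0⟩ 0 0))))) (.pos 46 .mp ⟨⟨10959121, 0, 0, 0, 0, 0, 0, 0, 0, ⟨0, 0⟩, 0⟩, 0, 0⟩ 0 0)))) (.pos 36 .mp ⟨⟨12230936, 0, 0, 0, 0, 0, 0, 0, 0, ⟨0, 0⟩, 0⟩, 0, 0⟩ 0 0)) (.void 34 ⟨⟨100000, 0, 0, 0,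 0, 0, 0, 0, 0, ⟨0, 0⟩, 0⟩, 0, 0⟩ 0 0)) (.void 32 ⟨⟨100000, 0, 0, 0, 0, 0, 0, 0, 0, ⟨0, 0⟩, 0⟩, 0, 0⟩ 0 0)) (.void 30 ⟨⟨100000, 0, 0, 0, 0, 0, 0, 0, 0, ⟨0, 0⟩, 0⟩, 0, 0⟩ 0 0)) (.void 28 ⟨⟨100000, 0, 0, 0, 0, 0, 0, 0, 0, ⟨0, 0⟩, 0⟩, 0, 0⟩ 0 0)))))) (.void 26 ⟨⟨100000, 0, 0, 0, 0, 0, 0, 0, 0, ⟨0, 0⟩, 0⟩, 0, 0⟩ 0 0)))) (.void 24 ⟨⟨0, 0, 0, 0, 0, 0, 100000, 0, 0, ⟨0, 0⟩, 0⟩, 0, 0⟩ 0 0)))) (.cut .v 16777216 (.cut .d 3794313 (.cut .d 1897156 (.cut .d 948578 (.cut .v 8388608 (.cut .v 4194304 (.void 4 ⟨⟨0, 0, 50000, 0, 50000, 0, 0, 0, 0, ⟨0, 0⟩, 0⟩, 0, 0⟩ 0 0) (.void 5 ⟨⟨0, 0, 0, 0, 0, 0, 0, 0, 100000, ⟨0, 0⟩, 9975792⟩, 0, 0⟩ 0 0)) (.cut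 .v 12582912 (.pos 8 .pm ⟨⟨0, 0, 0, 0, 0, 0, 0, 0, 0, ⟨0, 0⟩, 0⟩, 0, 1211262⟩ 0 0) (.cut .v 14680064 (.pos 12 .pm ⟨⟨0, 0, 0, 0, 0, 0, 0, 0, 0, ⟨0, 0⟩, 0⟩, 0, 935952⟩ 0 0) (.cut .d 474289 (.pos 13 .pm ⟨⟨0, 0, 0, 0, 0, 0, 0, 0, 0, ⟨0, 0⟩, 0⟩, 0, 0⟩ 0 0) (.pos 13 .pm ⟨⟨0, 0, 0, 0, 0, 0, 0, 0, 0, ⟨0, 0⟩, 0⟩, 0, 13567858⟩ 0 0))))) (.void 1 ⟨⟨0, 0, 0, 0, 0, 0, 0, 0, 0, ⟨0, 0⟩, 0⟩, 0, 100000⟩ 0 0)) (.void 1 ⟨⟨0, 0, 0, 0, 0, 0, 0, 0, 0, ⟨0, 0⟩, 0⟩, 0, 100000⟩ 0 0)) (.void 1 ⟨⟨0, 0, 0, 0, 0, 0, 0, 0, 0, ⟨0, 0⟩, 0⟩, 0, 100000⟩ 0 0)) (.cut .v 25165824 (.cut .d 3794313 (.cut .v 20971520 (.cut .d 1897156 (.cut .d 948578 (.cut .v 18874368 (.cut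 .d 474289 (.cut .d 237144 (.cut .s 5636096 (.pos 27 .pp ⟨⟨4420609, 0, 0, 0, 0, 0, 0, 0, 0, ⟨0, 0⟩, 0⟩, 0, 36390⟩ 0 0) (.pos 27 .pp ⟨⟨5933068, 0, 0, 0, 0, 0, 0, 0, 0, ⟨0, 0⟩, 0⟩, 51621, 0⟩ 0 0)) (.pos 27 .pp ⟨⟨2758741, 0, 0, 0, 0, 0, 0, 0, 0, ⟨0, 0⟩, 0⟩, 0, 508323⟩ 0 0)) (.pos 27 .pp ⟨⟨1951345, 0, 0, 0, 0, 0, 0, 0, 0, ⟨0, 0⟩, 0⟩, 0, 4297168⟩ 0 0)) (.void 28 ⟨⟨73018, 0, 0, 0, 0, 0, 0, 0, 0, ⟨0, 0⟩, 0⟩, 0, 26982⟩ 0 0)) (.void 25 ⟨⟨0, 0, 0, 0, 0, 0, 0, 0, 0, ⟨0, 0⟩, 0⟩, 963, 99037⟩ 0 0)) (.void 25 ⟨⟨0, 0, 0, 0, 0, 0, 0, 0, 0, ⟨0, 0⟩, 0⟩, 0, 100000⟩ 0 0)) (.void 26 ⟨⟨0, 0, 0, 0, 0, 0, 0, 0, 0, ⟨0, 0⟩, 0⟩, 16708, 83292⟩ 0 0)) (.void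 23 ⟨⟨0, 0, 0, 0, 0, 0, 0, 0, 0, ⟨0, 0⟩, 0⟩, 0, 100000⟩ 0 0)) (.void 24 ⟨⟨0, 0, 0, 0, 0, 0, 0, 0, 0, ⟨0, 0⟩, 0⟩, 16708, 83292⟩ 0 0)))),
    by decide +kernel⟩

def covers6 : cell.Covers Vale.Agent.P237.Petty.Cor.Grid.N19.table row6.1 :=
  ⟨(.cut .d 0 (.cut .v 16777216 (.cut .d (-8388608) (.void 1 ⟨⟨0, 0, 0, 0, 0, 100000, 0, 0, 0, ⟨0, 0⟩, 0⟩, 0, 0⟩ 0 0) (.cut .d (-4194304) (.void 1 ⟨⟨0, 0, 0, 0, 0, 100000, 0, 0, 0, ⟨0, 0⟩, 0⟩, 0, 0⟩ 0 0) (.cut .d (-2097152) (.void 1 ⟨⟨0, 0, 0, 0, 0, 100000, 0, 0, 0, ⟨0, 0⟩, 0⟩, 0, 0⟩ 0 0) (.cut .d (-1048576) (.void 1 ⟨⟨0, 0, 0, 0, 0, 100000, 0, 0, 0, ⟨0, 0⟩, 0⟩, 0, 0⟩ 0 0) (.cut .d (-524288) (.void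 1 ⟨⟨0, 0, 0, 0, 0, 100000, 0, 0, 0, ⟨0, 0⟩, 0⟩, 0, 0⟩ 0 0) (.cut .d (-262144) (.void 1 ⟨⟨0, 0, 0, 0, 0, 100000, 0, 0, 0, ⟨0, 0⟩, 0⟩, 0, 0⟩ 0 0) (.cut .d (-131072) (.void 1 ⟨⟨0, 0, 0, 0, 0, 100000, 0, 0, 0, ⟨0, 0⟩, 0⟩, 0, 0⟩ 0 0) (.cut .d (-65536) (.void 1 ⟨⟨0, 0, 0, 0, 0, 100000, 0, 0, 0, ⟨0, 0⟩, 0⟩, 0, 0⟩ 0 0) (.cut .v 8388608 (.cut .v 4194304 (.void 4 ⟨⟨0, 0, 100000, 0, 0, 0, 0, 0, 0, ⟨0, 0⟩, 0⟩, 0, 0⟩ 0 0) (.pos 5 .mm ⟨⟨0, 0, 0, 0, 0, 6711043, 0, 0, 168152, ⟨0, 0⟩, 9975792⟩, 0, 0⟩ 0 0)) (.cut .v 12582912 (.pos 8 .mm ⟨⟨0, 0, 0, 0, 0, 5988729, 0, 0, 0, ⟨0, 0⟩, 0⟩, 0, 0⟩ 0 0) (.cut .v 14680064 (.pos 12 .mm ⟨⟨0, 0, 0, 0, 0, 7570677,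 0, 0, 0, ⟨0, 0⟩, 0⟩, 0, 0⟩ 0 0) (.cut .v 15728640 (.pos 20 .mm ⟨⟨0, 0, 0, 0, 0, 8555322, 0, 0, 0, ⟨0, 0⟩, 0⟩, 0, 0⟩ 0 0) (.cut .v 16252928 (.pos 37 .mm ⟨⟨0, 0, 0, 0, 0, 10165803, 0, 0, 0, ⟨0, 0⟩, 0⟩, 0, 0⟩ 0 0) (.cut .v 16515072 (.pos 41 .mm ⟨⟨0, 0, 0, 0, 0, 12733701, 0, 0, 0, ⟨0, 0⟩, 0⟩, 0, 0⟩ 0 0) (.cut .s 6422528 (.cut .v 16646144 (.pos 43 .mm ⟨⟨0, 0, 0, 0, 0, 11723654, 0, 0, 0, ⟨0, 0⟩, 0⟩, 0, 0⟩ 0 0) (.cut .v 16711680 (.pos 49 .mm ⟨⟨0, 0, 0, 0, 0, 12040902, 0, 0, 0, ⟨0, 0⟩, 0⟩, 0, 0⟩ 0 0) (.cut .s 6225920 (.cut .s 6127616 (.pos 50 .mm ⟨⟨0, 0, 0, 0, 0, 10698415, 0, 0, 0, ⟨0, 0⟩, 0⟩, 0, 0⟩ 0 0) (.pos 50 .mm ⟨⟨0, 0, 0, 0, 0, 11564501,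 0, 0, 0, ⟨0, 0⟩, 0⟩, 0, 0⟩ 0 0)) (.cut .s 6324224 (.pos 50 .mm ⟨⟨0, 0, 0, 0, 0, 12523262, 0, 0, 0, ⟨0, 0⟩, 0⟩, 0, 0⟩ 0 0) (.pos 50 .mm ⟨⟨0, 0, 0, 0, 0, 13573863, 0, 0, 0, ⟨0, 0⟩, 0⟩, 0, 0⟩ 0 0))))) (.cut .d (-32768) (.pos 42 .mm ⟨⟨0, 0, 0, 0, 0, 18438194, 0, 0, 0, ⟨0, 0⟩, 0⟩, 0, 0⟩ 0 0) (.cut .v 16646144 (.pos 43 .mm ⟨⟨0, 0, 0, 0, 0, 15186866, 0, 0, 0, ⟨0, 0⟩, 0⟩, 0, 0⟩ 0 0) (.cut .v 16711680 (.pos 49 .mm ⟨⟨0, 0, 0, 0, 0, 15727730, 0, 0, 0, ⟨0, 0⟩, 0⟩, 0, 0⟩ 0 0) (.cut .l 97131 (.cut .d (-16384) (.pos 50 .mm ⟨⟨0, 0, 0, 0, 0, 18292785, 0, 0, 0, ⟨0, 0⟩, 0⟩, 0, 0⟩ 0 0) (.cut .v 16744448 (.pos 53 .mm ⟨⟨0, 0, 0, 0, 0, 15710631, 0, 0,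 0, ⟨0, 0⟩, 0⟩, 0, 0⟩ 0 0) (.cut .l 48565 (.cut .d (-8192) (.pos 54 .mm ⟨⟨0, 0, 0, 0, 0, 18288701, 0, 0, 0, ⟨0, 0⟩, 0⟩, 0, 0⟩ 0 0) (.cut .v 16760832 (.pos 55 .mm ⟨⟨0, 0, 0, 0, 0, 15702065, 0, 0, 0, ⟨0, 0⟩, 0⟩, 0, 0⟩ 0 0) (.cut .l 24282 (.cut .d (-4096) (.pos 56 .mm ⟨⟨0, 0, 0, 0, 0, 18286710, 0, 0, 0, ⟨0, 0⟩, 0⟩, 0, 0⟩ 0 0) (.cut .v 16769024 (.pos 57 .mm ⟨⟨0, 0, 0, 0, 0, 15697866, 0, 0, 0, ⟨0, 0⟩, 0⟩, 0, 0⟩ 0 0) (.cut .l 12141 (.cut .d (-2048) (.pos 58 .mm ⟨⟨0, 0, 0, 0, 0, 18285680, 0, 0, 0, ⟨0, 0⟩, 0⟩, 0, 0⟩ 0 0) (.cut .v 16773120 (.pos 59 .mm ⟨⟨0, 0, 0, 0, 0, 15695943, 0, 0, 0, ⟨0, 0⟩, 0⟩, 0, 0⟩ 0 0) (.cut .l 6070 (.cut .d (-1024)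 (.pos 60 .mm ⟨⟨0, 0, 0, 0, 0, 18285433, 0, 0, 0, ⟨0, 0⟩, 0⟩, 0, 0⟩ 0 0) (.cut .v 16775168 (.pos 61 .mm ⟨⟨0, 0, 0, 0, 0, 15695392, 0, 0, 0, ⟨0, 0⟩, 0⟩, 0, 0⟩ 0 0) (.cut .l 3035 (.cut .d (-512) (.pos 62 .mm ⟨⟨0, 0, 0, 0, 0, 18285176, 0, 0, 0, ⟨0, 0⟩, 0⟩, 0, 0⟩ 0 0) (.cut .v 16776192 (.pos 63 .mm ⟨⟨0, 0, 0, 0, 0, 15695843, 0, 0, 0, ⟨0, 0⟩, 0⟩, 0, 0⟩ 0 0) (.cut .l 1517 (.cut .s 6619136 (.cut .s 6520832 (.pos 64 .mm ⟨⟨0, 0, 0, 0, 0, 14577827, 0, 0, 0, ⟨0, 0⟩, 0⟩, 0, 0⟩ 0 0) (.pos 64 .mm ⟨⟨0, 0, 0, 0, 0, 15816051, 0, 0, 0, ⟨0, 0⟩, 0⟩, 0, 0⟩ 0 0)) (.cut .s 6717440 (.pos 64 .mm ⟨⟨0, 0, 0, 0, 0, 17153687, 0, 0, 0, ⟨0, 0⟩, 0⟩, 0, 0⟩ 0 0)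 (.pos 64 .mm ⟨⟨0, 0, 0, 0, 0, 18591046, 0, 0, 0, ⟨0, 0⟩, 0⟩, 0, 0⟩ 0 0))) (.pos 64 .mm ⟨⟨0, 0, 0, 0, 0, 14184237, 0, 0, 0, ⟨0, 0⟩, 0⟩, 0, 0⟩ 0 0)))) (.pos 62 .mm ⟨⟨0, 0, 0, 0, 0, 14186647, 0, 0, 0, ⟨0, 0⟩, 0⟩, 0, 0⟩ 0 0)))) (.pos 60 .mm ⟨⟨0, 0, 0, 0, 0, 14193829, 0, 0, 0, ⟨0, 0⟩, 0⟩, 0, 0⟩ 0 0)))) (.pos 58 .mm ⟨⟨0, 0, 0, 0, 0, 14207898, 0, 0, 0, ⟨0, 0⟩, 0⟩, 0, 0⟩ 0 0)))) (.pos 56 .mm ⟨⟨0, 0, 0, 0, 0, 14236626, 0, 0, 0, ⟨0, 0⟩, 0⟩, 0, 0⟩ 0 0)))) (.pos 54 .mm ⟨⟨0, 0, 0, 0, 0, 14294009, 0, 0, 0, ⟨0, 0⟩, 0⟩, 0, 0⟩ 0 0)))) (.pos 50 .mm ⟨⟨0, 0, 0, 0, 0, 14408885, 0, 0, 0, ⟨0, 0⟩, 0⟩, 0, 0⟩ 0 0)))))))))))))))))))) (.cut .d (-8388608)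 (.void 22 ⟨⟨0, 0, 0, 0, 0, 100000, 0, 0, 0, ⟨0, 0⟩, 0⟩, 0, 0⟩ 0 0) (.cut .v 25165824 (.cut .d (-4194304) (.void 23 ⟨⟨0, 0, 0, 0, 0, 100000, 0, 0, 0, ⟨0, 0⟩, 0⟩, 0, 0⟩ 0 0) (.cut .d (-2097152) (.void 23 ⟨⟨0, 0, 0, 0, 0, 100000, 0, 0, 0, ⟨0, 0⟩, 0⟩, 0, 0⟩ 0 0) (.cut .v 20971520 (.cut .d (-1048576) (.void 25 ⟨⟨0, 0, 0, 0, 0, 100000, 0, 0, 0, ⟨0, 0⟩, 0⟩, 0, 0⟩ 0 0) (.cut .d (-524288) (.void 25 ⟨⟨0, 0, 0, 0, 0, 100000, 0, 0, 0, ⟨0, 0⟩, 0⟩, 0, 0⟩ 0 0) (.cut .d (-262144) (.void 25 ⟨⟨0, 0, 0, 0, 0, 100000, 0, 0, 0, ⟨0, 0⟩, 0⟩, 0, 0⟩ 0 0) (.cut .d (-131072) (.void 25 ⟨⟨0, 0, 0, 0, 0, 100000, 0, 0, 0, ⟨0, 0⟩, 0⟩, 0, 0⟩ 0 0) (.cut .v 18874368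 (.cut .d (-65536) (.void 27 ⟨⟨0, 0, 0, 0, 0, 100000, 0, 0, 0, ⟨0, 0⟩, 0⟩, 0, 0⟩ 0 0) (.cut .v 17825792 (.cut .v 17301504 (.cut .v 17039360 (.cut .v 16908288 (.cut .s 6422528 (.cut .v 16842752 (.cut .s 6225920 (.cut .d (-32768) (.cut .s 6127616 (.pos 45 .mp ⟨⟨3644622, 0, 0, 0, 0, 8088482, 0, 0, 0, ⟨0, 0⟩, 0⟩, 0, 0⟩ 0 0) (.cut .s 6176768 (.pos 45 .mp ⟨⟨4068890, 0, 0, 0, 0, 8192272, 0, 0, 0, ⟨0, 0⟩, 0⟩, 0, 0⟩ 0 0) (.pos 45 .mp ⟨⟨4295922, 0, 0, 0, 0, 8438208, 0, 0, 0, ⟨0, 0⟩, 0⟩, 0, 0⟩ 0 0))) (.cut .s 6127616 (.cut .s 6078464 (.pos 45 .mp ⟨⟨4094215, 0, 0, 0, 0, 6940271, 0, 0, 0, ⟨0, 0⟩, 0⟩, 0, 0⟩ 0 0) (.pos 45 .mp ⟨⟨4213193, 0, 0,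 0, 0, 7218956, 0, 0, 0, ⟨0, 0⟩, 0⟩, 0, 0⟩ 0 0)) (.cut .v 16809984 (.cut .l 97131 (.cut .d (-16384) (.pos 47 .mp ⟨⟨4044784, 0, 0, 0, 0, 8508520, 0, 0, 0, ⟨0, 0⟩, 0⟩, 0, 0⟩ 0 0) (.cut .s 6176768 (.pos 47 .mp ⟨⟨4474805, 0, 0, 0, 0, 7350943, 0, 0, 0, ⟨0, 0⟩, 0⟩, 0, 0⟩ 0 0) (.pos 47 .mp ⟨⟨4587691, 0, 0, 0, 0, 7679998, 0, 0, 0, ⟨0, 0⟩, 0⟩, 0, 0⟩ 0 0))) (.pos 47 .mp ⟨⟨4581909, 0, 0, 0, 0, 7104216, 0, 0, 0, ⟨0, 0⟩, 0⟩, 0, 0⟩ 0 0)) (.pos 48 .mp ⟨⟨12590585, 0, 0, 0, 0, 0, 0, 0, 0, ⟨0, 0⟩, 0⟩, 0, 0⟩ 0 0)))) (.cut .d (-32768) (.cut .d (-49152) (.pos 45 .mp ⟨⟨4607190, 0, 0, 0, 0, 12266514, 0, 0, 0, ⟨0, 0⟩, 0⟩, 0, 0⟩ 0 0) (.cut .l 97131 (.void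 45 ⟨⟨0, 0, 0, 0, 0, 100000, 0, 0, 0, ⟨0, 0⟩, 0⟩, 0, 0⟩ 0 0) (.cut .l 145697 (.pos 45 .mp ⟨⟨4627406, 0, 0, 0, 0, 10262361, 0, 0, 0, ⟨0, 0⟩, 0⟩, 0, 0⟩ 0 0) (.cut .s 6324224 (.pos 45 .mp ⟨⟨4533001, 0, 0, 0, 0, 8827414, 0, 0, 0, ⟨0, 0⟩, 0⟩, 0, 0⟩ 0 0) (.cut .s 6373376 (.pos 45 .mp ⟨⟨5037669, 0, 0, 0, 0, 9080487, 0, 0, 0, ⟨0, 0⟩, 0⟩, 0, 0⟩ 0 0) (.pos 45 .mp ⟨⟨5305443, 0, 0, 0, 0, 9373384, 0, 0, 0, ⟨0, 0⟩, 0⟩, 0, 0⟩ 0 0)))))) (.cut .s 6324224 (.cut .v 16809984 (.cut .l 97131 (.cut .d (-16384) (.pos 47 .mp ⟨⟨4508785, 0, 0, 0, 0, 9016871, 0, 0, 0, ⟨0, 0⟩, 0⟩, 0, 0⟩ 0 0) (.cut .v 16793600 (.cut .l 48565 (.cut .d (-8192) (.pos 51 .mp ⟨⟨4497322,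 0, 0, 0, 0, 9013621, 0, 0, 0, ⟨0, 0⟩, 0⟩, 0, 0⟩ 0 0) (.cut .s 6275072 (.pos 51 .mp ⟨⟨4825818, 0, 0, 0, 0, 7897672, 0, 0, 0, ⟨0, 0⟩, 0⟩, 0, 0⟩ 0 0) (.cut .s 6299648 (.pos 51 .mp ⟨⟨5321040, 0, 0, 0, 0, 7841770, 0, 0, 0, ⟨0, 0⟩, 0⟩, 0, 0⟩ 0 0) (.pos 51 .mp ⟨⟨5424154, 0, 0, 0, 0, 7990721, 0, 0, 0, ⟨0, 0⟩, 0⟩, 0, 0⟩ 0 0)))) (.pos 51 .mp ⟨⟨5039581, 0, 0, 0, 0, 7515828, 0, 0, 0, ⟨0, 0⟩, 0⟩, 0, 0⟩ 0 0)) (.pos 52 .mp ⟨⟨13447542, 0, 0, 0, 0, 0, 0, 0, 0, ⟨0, 0⟩, 0⟩, 0, 0⟩ 0 0))) (.pos 47 .mp ⟨⟨5089494, 0, 0, 0, 0, 7591931, 0, 0, 0, ⟨0, 0⟩, 0⟩, 0, 0⟩ 0 0)) (.pos 48 .mp ⟨⟨13464330, 0, 0, 0, 0, 0, 0, 0, 0, ⟨0, 0⟩, 0⟩, 0, 0⟩ 0 0)) (.cut .s 6373376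 (.cut .v 16809984 (.cut .s 6348800 (.pos 47 .mp ⟨⟨5306989, 0, 0, 0, 0, 8410201, 0, 0, 0, ⟨0, 0⟩, 0⟩, 0, 0⟩ 0 0) (.cut .s 6361088 (.pos 47 .mp ⟨⟨5646862, 0, 0, 0, 0, 8309093, 0, 0, 0, ⟨0, 0⟩, 0⟩, 0, 0⟩ 0 0) (.pos 47 .mp ⟨⟨5698667, 0, 0, 0, 0, 8391915, 0, 0, 0, ⟨0, 0⟩, 0⟩, 0, 0⟩ 0 0))) (.pos 48 .mp ⟨⟨14065191, 0, 0, 0, 0, 0, 0, 0, 0, ⟨0, 0⟩, 0⟩, 0, 0⟩ 0 0)) (.cut .v 16809984 (.cut .l 97131 (.cut .d (-16384) (.pos 47 .mp ⟨⟨5281177, 0, 0, 0, 0, 9441392, 0, 0, 0, ⟨0, 0⟩, 0⟩, 0, 0⟩ 0 0) (.cut .s 6397952 (.pos 47 .mp ⟨⟨5660291, 0, 0, 0, 0, 8561956, 0, 0, 0, ⟨0, 0⟩, 0⟩, 0, 0⟩ 0 0) (.pos 47 .mp ⟨⟨5778283, 0, 0, 0, 0, 8722536, 0, 0, 0, ⟨0,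 0⟩, 0⟩, 0, 0⟩ 0 0))) (.pos 47 .mp ⟨⟨5204439, 0, 0, 0, 0, 8938573, 0, 0, 0, ⟨0, 0⟩, 0⟩, 0, 0⟩ 0 0)) (.pos 48 .mp ⟨⟨7988735, 0, 0, 0, 0, 6656120, 0, 0, 0, ⟨0, 0⟩, 0⟩, 0, 0⟩ 0 0)))))) (.pos 46 .mp ⟨⟨15041307, 0, 0, 0, 0, 0, 0, 0, 0, ⟨0, 0⟩, 0⟩, 0, 0⟩ 0 0)) (.cut .s 6619136 (.cut .v 16842752 (.cut .d (-32768) (.cut .d (-49152) (.void 45 ⟨⟨0, 0, 0, 0, 0, 100000, 0, 0, 0, ⟨0, 0⟩, 0⟩, 0, 0⟩ 0 0) (.cut .l 97131 (.void 45 ⟨⟨0, 0, 0, 0, 0, 100000, 0, 0, 0, ⟨0, 0⟩, 0⟩, 0, 0⟩ 0 0) (.cut .l 145697 (.pos 45 .mp ⟨⟨5628741, 0, 0, 0, 0, 11815587, 0, 0, 0, ⟨0, 0⟩, 0⟩, 0, 0⟩ 0 0) (.cut .v 16809984 (.pos 47 .mp ⟨⟨0, 0, 0, 0, 0, 15293124, 0, 0, 0,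 ⟨0, 0⟩, 0⟩, 0, 0⟩ 0 0) (.cut .v 16826368 (.cut .s 6520832 (.cut .s 6471680 (.pos 67 .mp ⟨⟨5599380, 0, 0, 0, 0, 9604728, 0, 0, 0, ⟨0, 0⟩, 0⟩, 0, 0⟩ 0 0) (.pos 67 .mp ⟨⟨5888818, 0, 0, 0, 0, 9916329, 0, 0, 0, ⟨0, 0⟩, 0⟩, 0, 0⟩ 0 0)) (.cut .s 6569984 (.pos 67 .mp ⟨⟨6188898, 0, 0, 0, 0, 10237939, 0, 0, 0, ⟨0, 0⟩, 0⟩, 0, 0⟩ 0 0) (.pos 67 .mp ⟨⟨6499724, 0, 0, 0, 0, 10569192, 0, 0, 0, ⟨0, 0⟩, 0⟩, 0, 0⟩ 0 0))) (.pos 68 .mp ⟨⟨18017283, 0, 0, 0, 0, 0, 0, 0, 0, ⟨0, 0⟩, 0⟩, 0, 0⟩ 0 0)))))) (.cut .s 6520832 (.cut .s 6471680 (.cut .v 16809984 (.cut .l 97131 (.cut .d (-16384) (.pos 47 .mp ⟨⟨5559388, 0, 0, 0, 0, 9745843, 0, 0, 0, ⟨0, 0⟩, 0⟩, 0,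 0⟩ 0 0) (.cut .s 6447104 (.pos 47 .mp ⟨⟨5903269, 0, 0, 0, 0, 8882369, 0, 0, 0, ⟨0, 0⟩, 0⟩, 0, 0⟩ 0 0) (.pos 47 .mp ⟨⟨6035525, 0, 0, 0, 0, 9041161, 0, 0, 0, ⟨0, 0⟩, 0⟩, 0, 0⟩ 0 0))) (.pos 47 .mp ⟨⟨5480961, 0, 0, 0, 0, 9240262, 0, 0, 0, ⟨0, 0⟩, 0⟩, 0, 0⟩ 0 0)) (.pos 48 .mp ⟨⟨8298585, 0, 0, 0, 0, 6911795, 0, 0, 0, ⟨0, 0⟩, 0⟩, 0, 0⟩ 0 0)) (.cut .v 16809984 (.cut .l 97131 (.cut .d (-16384) (.pos 47 .mp ⟨⟨5848136, 0, 0, 0, 0, 10066906, 0, 0, 0, ⟨0, 0⟩, 0⟩, 0, 0⟩ 0 0) (.cut .s 6496256 (.pos 47 .mp ⟨⟨6175327, 0, 0, 0, 0, 9198613, 0, 0, 0, ⟨0, 0⟩, 0⟩, 0, 0⟩ 0 0) (.pos 47 .mp ⟨⟨6322952, 0, 0, 0, 0, 9354423, 0, 0, 0, ⟨0, 0⟩, 0⟩, 0, 0⟩ 0 0)))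 (.pos 47 .mp ⟨⟨5767928, 0, 0, 0, 0, 9548586, 0, 0, 0, ⟨0, 0⟩, 0⟩, 0, 0⟩ 0 0)) (.pos 48 .mp ⟨⟨8657611, 0, 0, 0, 0, 7144181, 0, 0, 0, ⟨0, 0⟩, 0⟩, 0, 0⟩ 0 0))) (.cut .s 6569984 (.cut .v 16809984 (.cut .l 97131 (.cut .d (-16384) (.pos 47 .mp ⟨⟨6147521, 0, 0, 0, 0, 10404919, 0, 0, 0, ⟨0, 0⟩, 0⟩, 0, 0⟩ 0 0) (.cut .s 6545408 (.pos 47 .mp ⟨⟨6478679, 0, 0, 0, 0, 9508286, 0, 0, 0, ⟨0, 0⟩, 0⟩, 0, 0⟩ 0 0) (.pos 47 .mp ⟨⟨6642788, 0, 0, 0, 0, 9659892, 0, 0, 0, ⟨0, 0⟩, 0⟩, 0, 0⟩ 0 0))) (.pos 47 .mp ⟨⟨6065441, 0, 0, 0, 0, 9862882, 0, 0, 0, ⟨0, 0⟩, 0⟩, 0, 0⟩ 0 0)) (.pos 48 .mp ⟨⟨9070169, 0, 0, 0, 0, 7348620, 0, 0, 0, ⟨0, 0⟩, 0⟩, 0, 0⟩ 0 0)) (.cut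 .v 16809984 (.cut .l 97131 (.cut .d (-16384) (.pos 47 .mp ⟨⟨6457649, 0, 0, 0, 0, 10760223, 0, 0, 0, ⟨0, 0⟩, 0⟩, 0, 0⟩ 0 0) (.cut .s 6594560 (.pos 47 .mp ⟨⟨6815560, 0, 0, 0, 0, 9808927, 0, 0, 0, ⟨0, 0⟩, 0⟩, 0, 0⟩ 0 0) (.pos 47 .mp ⟨⟨6997276, 0, 0, 0, 0, 9955073, 0, 0, 0, ⟨0, 0⟩, 0⟩, 0, 0⟩ 0 0))) (.pos 47 .mp ⟨⟨6373604, 0, 0, 0, 0, 10182498, 0, 0, 0, ⟨0, 0⟩, 0⟩, 0, 0⟩ 0 0)) (.pos 48 .mp ⟨⟨9540631, 0, 0, 0, 0, 7520351, 0, 0, 0, ⟨0, 0⟩, 0⟩, 0, 0⟩ 0 0))))) (.pos 46 .mp ⟨⟨18479596, 0, 0, 0, 0, 0, 0, 0, 0, ⟨0, 0⟩, 0⟩, 0, 0⟩ 0 0)) (.cut .v 16842752 (.cut .d (-32768) (.cut .s 6717440 (.cut .s 6668288 (.pos 45 .mp ⟨⟨6802652, 0, 0, 0, 0,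 11231012, 0, 0, 0, ⟨0, 0⟩, 0⟩, 0, 0⟩ 0 0) (.pos 45 .mp ⟨⟨7134487, 0, 0, 0, 0, 11602297, 0, 0, 0, ⟨0, 0⟩, 0⟩, 0, 0⟩ 0 0)) (.pos 45 .mp ⟨⟨7477374, 0, 0, 0, 0, 12602444, 0, 0, 0, ⟨0, 0⟩, 0⟩, 0, 0⟩ 0 0)) (.cut .s 6717440 (.cut .s 6668288 (.cut .v 16809984 (.cut .l 97131 (.cut .d (-16384) (.pos 47 .mp ⟨⟨6778624, 0, 0, 0, 0, 11133166, 0, 0, 0, ⟨0, 0⟩, 0⟩, 0, 0⟩ 0 0) (.cut .s 6643712 (.pos 47 .mp ⟨⟨7188219, 0, 0, 0, 0, 10098009, 0, 0, 0, ⟨0, 0⟩, 0⟩, 0, 0⟩ 0 0) (.pos 47 .mp ⟨⟨7388674, 0, 0, 0, 0, 10237409, 0, 0, 0, ⟨0, 0⟩, 0⟩, 0, 0⟩ 0 0))) (.pos 47 .mp ⟨⟨6692521, 0, 0, 0, 0, 10506785, 0, 0, 0, ⟨0, 0⟩, 0⟩, 0, 0⟩ 0 0)) (.pos 48 .mp ⟨⟨10073391,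 0, 0, 0, 0, 7654505, 0, 0, 0, ⟨0, 0⟩, 0⟩, 0, 0⟩ 0 0)) (.cut .s 6692864 (.cut .s 6680576 (.pos 45 .mp ⟨⟨7610921, 0, 0, 0, 0, 10349940, 0, 0, 0, ⟨0, 0⟩, 0⟩, 0, 0⟩ 0 0) (.pos 45 .mp ⟨⟨7720790, 0, 0, 0, 0, 10414916, 0, 0, 0, ⟨0, 0⟩, 0⟩, 0, 0⟩ 0 0)) (.pos 45 .mp ⟨⟨7698936, 0, 0, 0, 0, 10669641, 0, 0, 0, ⟨0, 0⟩, 0⟩, 0, 0⟩ 0 0))) (.cut .v 16809984 (.cut .l 97131 (.cut .d (-16384) (.pos 47 .mp ⟨⟨7453556, 0, 0, 0, 0, 12536574, 0, 0, 0, ⟨0, 0⟩, 0⟩, 0, 0⟩ 0 0) (.cut .v 16793600 (.cut .l 48565 (.cut .d (-8192) (.pos 51 .mp ⟨⟨7442358, 0, 0, 0, 0, 12526818, 0, 0, 0, ⟨0, 0⟩, 0⟩, 0, 0⟩ 0 0) (.cut .v 16785408 (.cut .l 24282 (.cut .d (-4096) (.pos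 65 .mp ⟨⟨7436933, 0, 0, 0, 0, 12521777, 0, 0, 0, ⟨0, 0⟩, 0⟩, 0, 0⟩ 0 0) (.cut .s 6766592 (.cut .s 6742016 (.pos 65 .mp ⟨⟨8128072, 0, 0, 0, 0, 10539389, 0, 0, 0, ⟨0, 0⟩, 0⟩, 0, 0⟩ 0 0) (.pos 65 .mp ⟨⟨8356180, 0, 0, 0, 0, 10676529, 0, 0, 0, ⟨0, 0⟩, 0⟩, 0, 0⟩ 0 0)) (.pos 65 .mp ⟨⟨8205099, 0, 0, 0, 0, 11286935, 0, 0, 0, ⟨0, 0⟩, 0⟩, 0, 0⟩ 0 0))) (.pos 65 .mp ⟨⟨7414436, 0, 0, 0, 0, 11111436, 0, 0, 0, ⟨0, 0⟩, 0⟩, 0, 0⟩ 0 0)) (.pos 66 .mp ⟨⟨14177203, 0, 0, 0, 0, 5304872, 0, 0, 0, ⟨0, 0⟩, 0⟩, 0, 0⟩ 0 0))) (.pos 51 .mp ⟨⟨7397278, 0, 0, 0, 0, 11196469, 0, 0, 0, ⟨0, 0⟩, 0⟩, 0, 0⟩ 0 0)) (.pos 52 .mp ⟨⟨13934792, 0, 0, 0, 0, 5571567, 0, 0, 0,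 ⟨0, 0⟩, 0⟩, 0, 0⟩ 0 0))) (.pos 47 .mp ⟨⟨7363051, 0, 0, 0, 0, 11366681, 0, 0, 0, ⟨0, 0⟩, 0⟩, 0, 0⟩ 0 0)) (.pos 48 .mp ⟨⟨13449794, 0, 0, 0, 0, 6105021, 0, 0, 0, ⟨0, 0⟩, 0⟩, 0, 0⟩ 0 0)))) (.pos 46 .mp ⟨⟨20944764, 0, 0, 0, 0, 0, 0, 0, 0, ⟨0, 0⟩, 0⟩, 0, 0⟩ 0 0)))) (.pos 36 .mp ⟨⟨19121711, 0, 0, 0, 0, 0, 0, 0, 0, ⟨0, 0⟩, 0⟩, 0, 0⟩ 0 0)) (.void 34 ⟨⟨100000, 0, 0, 0, 0, 0, 0, 0, 0, ⟨0, 0⟩, 0⟩, 0, 0⟩ 0 0)) (.void 32 ⟨⟨100000, 0, 0, 0, 0, 0, 0, 0, 0, ⟨0, 0⟩, 0⟩, 0, 0⟩ 0 0)) (.void 30 ⟨⟨100000, 0, 0, 0, 0, 0, 0, 0, 0, ⟨0, 0⟩, 0⟩, 0, 0⟩ 0 0))) (.void 28 ⟨⟨100000, 0, 0, 0, 0, 0, 0, 0, 0, ⟨0, 0⟩, 0⟩, 0, 0⟩ 0 0)))))) (.void 26 ⟨⟨100000, 0, 0,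 0, 0, 0, 0, 0, 0, ⟨0, 0⟩, 0⟩, 0, 0⟩ 0 0)))) (.void 24 ⟨⟨100000, 0, 0, 0, 0, 0, 0, 0, 0, ⟨0, 0⟩, 0⟩, 0, 0⟩ 0 0)))) (.cut .v 16777216 (.cut .d 4989282 (.cut .d 2494641 (.cut .d 1247320 (.cut .v 8388608 (.cut .v 4194304 (.void 4 ⟨⟨0, 0, 92582, 0, 7418, 0, 0, 0, 0, ⟨0, 0⟩, 0⟩, 0, 0⟩ 0 0) (.pos 5 .pm ⟨⟨0, 0, 0, 0, 0, 0, 0, 0, 439908, ⟨0, 0⟩, 9975792⟩, 0, 0⟩ 0 0)) (.cut .v 12582912 (.pos 8 .pm ⟨⟨0, 0, 0, 0, 0, 0, 0, 0, 0, ⟨0, 0⟩, 0⟩, 0, 160203⟩ 0 0) (.pos 9 .pm ⟨⟨0, 0, 0, 0, 0, 0, 0, 0, 0, ⟨0, 0⟩, 0⟩, 0, 111824⟩ 0 0))) (.void 1 ⟨⟨0, 0, 0, 0, 0, 0, 0, 0, 0, ⟨0, 0⟩, 0⟩, 0, 100000⟩ 0 0)) (.void 1 ⟨⟨0, 0, 0, 0, 0, 0, 0, 0, 0, ⟨0, 0⟩, 0⟩,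 0, 100000⟩ 0 0)) (.void 1 ⟨⟨0, 0, 0, 0, 0, 0, 0, 0, 0, ⟨0, 0⟩, 0⟩, 0, 100000⟩ 0 0)) (.cut .d 4989282 (.cut .v 25165824 (.cut .d 2494641 (.cut .v 20971520 (.cut .d 1247320 (.cut .v 18874368 (.cut .d 623660 (.cut .d 311830 (.cut .s 6422528 (.pos 27 .pp ⟨⟨8780613, 0, 0, 0, 0, 0, 0, 0, 0, ⟨0, 0⟩, 0⟩, 37688, 0⟩ 0 0) (.pos 27 .pp ⟨⟨10339847, 0, 0, 0, 0, 0, 0, 0, 0, ⟨0, 0⟩, 0⟩, 230573, 0⟩ 0 0)) (.pos 27 .pp ⟨⟨5127441, 0, 0, 0, 0, 0, 0, 0, 0, ⟨0, 0⟩, 0⟩, 0, 447997⟩ 0 0)) (.pos 27 .pp ⟨⟨0, 0, 0, 0, 0, 0, 0, 0, 0, ⟨0, 0⟩, 0⟩, 0, 11706411⟩ 0 0)) (.cut .d 623660 (.pos 28 .pp ⟨⟨21478550, 0, 0, 0, 0, 0, 0, 0, 0, ⟨0, 0⟩, 0⟩, 0, 1740466⟩ 0 0)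 (.pos 28 .pp ⟨⟨18363217, 0, 0, 0, 0, 0, 0, 0, 0, ⟨0, 0⟩, 0⟩, 0, 7348880⟩ 0 0))) (.void 25 ⟨⟨0, 0, 0, 0, 0, 0, 0, 0, 0, ⟨0, 0⟩, 0⟩, 0, 100000⟩ 0 0)) (.void 26 ⟨⟨0, 0, 0, 0, 0, 0, 100000, 0, 0, ⟨0, 0⟩, 0⟩, 0, 0⟩ 0 0)) (.void 23 ⟨⟨0, 0, 0, 0, 0, 0, 0, 0, 0, ⟨0, 0⟩, 0⟩, 0, 100000⟩ 0 0)) (.void 24 ⟨⟨0, 0, 0, 0, 0, 0, 0, 0, 0, ⟨0, 0⟩, 0⟩, 15890, 84110⟩ 0 0)) (.void 22 ⟨⟨0, 0, 0, 0, 0, 0, 0, 0, 0, ⟨0, 0⟩, 0⟩, 0, 100000⟩ 0 0)))),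
    by decide +kernel⟩

def covers7 : cell.Covers Vale.Agent.P237.Petty.Cor.Grid.N19.table row7.1 :=
  ⟨(.cut .d 0 (.cut .v 16777216 (.cut .d (-8388608) (.void 1 ⟨⟨0, 0, 0, 0, 0, 100000, 0, 0, 0, ⟨0, 0⟩, 0⟩, 0, 0⟩ 0 0) (.cut .d (-4194304) (.void 1 ⟨⟨0, 0, 0, 0, 0, 100000, 0, 0, 0, ⟨0, 0⟩, 0⟩, 0, 0⟩ 0 0) (.cut .d (-2097152) (.void 1 ⟨⟨0, 0, 0, 0, 0, 100000, 0, 0, 0, ⟨0, 0⟩, 0⟩, 0, 0⟩ 0 0) (.cut .d (-1048576) (.void 1 ⟨⟨0, 0, 0, 0, 0, 100000, 0, 0, 0, ⟨0, 0⟩, 0⟩, 0, 0⟩ 0 0) (.cut .d (-524288) (.void 1 ⟨⟨0, 0, 0, 0, 0, 100000, 0, 0, 0, ⟨0, 0⟩, 0⟩, 0, 0⟩ 0 0) (.cut .d (-262144) (.void 1 ⟨⟨0, 0, 0, 0, 0, 100000, 0, 0, 0, ⟨0, 0⟩, 0⟩,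 0, 0⟩ 0 0) (.cut .d (-131072) (.void 1 ⟨⟨0, 0, 0, 0, 0, 100000, 0, 0, 0, ⟨0, 0⟩, 0⟩, 0, 0⟩ 0 0) (.cut .d (-65536) (.void 1 ⟨⟨0, 0, 0, 0, 0, 100000, 0, 0, 0, ⟨0, 0⟩, 0⟩, 0, 0⟩ 0 0) (.cut .v 8388608 (.cut .v 4194304 (.void 4 ⟨⟨0, 0, 100000, 0, 0, 0, 0, 0, 0, ⟨0, 0⟩, 0⟩, 0, 0⟩ 0 0) (.pos 5 .mm ⟨⟨0, 0, 0, 0, 0, 10224463, 0, 0, 0, ⟨0, 0⟩, 0⟩, 0, 0⟩ 0 0)) (.cut .v 12582912 (.pos 8 .mm ⟨⟨0, 0, 0, 0, 0, 13531434, 0, 0, 0, ⟨0, 0⟩, 0⟩, 0, 0⟩ 0 0) (.cut .v 14680064 (.pos 12 .mm ⟨⟨0, 0, 0, 0, 0, 15771155, 0, 0, 0, ⟨0, 0⟩, 0⟩, 0, 0⟩ 0 0) (.cut .v 15728640 (.pos 20 .mm ⟨⟨0, 0, 0, 0, 0, 17037573, 0, 0, 0, ⟨0, 0⟩, 0⟩, 0, 0⟩ 0 0) (.cut .v 16252928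 (.pos 37 .mm ⟨⟨0, 0, 0, 0, 0, 20356597, 0, 0, 0, ⟨0, 0⟩, 0⟩, 0, 0⟩ 0 0) (.cut .v 16515072 (.pos 41 .mm ⟨⟨0, 0, 0, 0, 0, 23894727, 0, 0, 0, ⟨0, 0⟩, 0⟩, 0, 0⟩ 0 0) (.cut .v 16646144 (.pos 43 .mm ⟨⟨0, 0, 0, 0, 0, 25732654, 0, 0, 0, ⟨0, 0⟩, 0⟩, 0, 0⟩ 0 0) (.cut .s 7176192 (.cut .d (-32768) (.pos 44 .mm ⟨⟨0, 0, 0, 0, 0, 25266470, 0, 0, 0, ⟨0, 0⟩, 0⟩, 0, 0⟩ 0 0) (.cut .l 97131 (.cut .d (-16384) (.pos 44 .mm ⟨⟨0, 0, 0, 0, 0, 25260208, 0, 0, 0, ⟨0, 0⟩, 0⟩, 0, 0⟩ 0 0) (.cut .s 6995968 (.pos 44 .mm ⟨⟨0, 0, 0, 0, 0, 20762445, 0, 0, 0, ⟨0, 0⟩, 0⟩, 0, 0⟩ 0 0) (.cut .s 7086080 (.pos 44 .mm ⟨⟨0, 0, 0, 0, 0, 23138110, 0, 0, 0, ⟨0, 0⟩, 0⟩, 0, 0⟩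 0 0) (.pos 44 .mm ⟨⟨0, 0, 0, 0, 0, 24743090, 0, 0, 0, ⟨0, 0⟩, 0⟩, 0, 0⟩ 0 0)))) (.pos 44 .mm ⟨⟨0, 0, 0, 0, 0, 20448038, 0, 0, 0, ⟨0, 0⟩, 0⟩, 0, 0⟩ 0 0))) (.cut .d (-32768) (.pos 44 .mm ⟨⟨0, 0, 0, 0, 0, 33276758, 0, 0, 0, ⟨0, 0⟩, 0⟩, 0, 0⟩ 0 0) (.cut .v 16711680 (.pos 49 .mm ⟨⟨0, 0, 0, 0, 0, 28231479, 0, 0, 0, ⟨0, 0⟩, 0⟩, 0, 0⟩ 0 0) (.cut .v 16744448 (.pos 53 .mm ⟨⟨0, 0, 0, 0, 0, 28637213, 0, 0, 0, ⟨0, 0⟩, 0⟩, 0, 0⟩ 0 0) (.cut .l 97131 (.cut .d (-16384) (.pos 54 .mm ⟨⟨0, 0, 0, 0, 0, 33272397, 0, 0, 0, ⟨0, 0⟩, 0⟩, 0, 0⟩ 0 0) (.cut .v 16760832 (.pos 55 .mm ⟨⟨0, 0, 0, 0, 0, 28607484, 0, 0, 0, ⟨0, 0⟩, 0⟩, 0, 0⟩ 0 0) (.cut .l 48565 (.cut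 .d (-8192) (.pos 56 .mm ⟨⟨0, 0, 0, 0, 0, 33270263, 0, 0, 0, ⟨0, 0⟩, 0⟩, 0, 0⟩ 0 0) (.cut .v 16769024 (.pos 57 .mm ⟨⟨0, 0, 0, 0, 0, 28592634, 0, 0, 0, ⟨0, 0⟩, 0⟩, 0, 0⟩ 0 0) (.cut .l 24282 (.cut .d (-4096) (.pos 58 .mm ⟨⟨0, 0, 0, 0, 0, 33269289, 0, 0, 0, ⟨0, 0⟩, 0⟩, 0, 0⟩ 0 0) (.cut .v 16773120 (.pos 59 .mm ⟨⟨0, 0, 0, 0, 0, 28585316, 0, 0, 0, ⟨0, 0⟩, 0⟩, 0, 0⟩ 0 0) (.cut .l 12141 (.cut .d (-2048) (.pos 60 .mm ⟨⟨0, 0, 0, 0, 0, 33268740, 0, 0, 0, ⟨0, 0⟩, 0⟩, 0, 0⟩ 0 0) (.cut .v 16775168 (.pos 61 .mm ⟨⟨0, 0, 0, 0, 0, 28581852, 0, 0, 0, ⟨0, 0⟩, 0⟩, 0, 0⟩ 0 0) (.cut .l 6070 (.cut .d (-1024) (.pos 62 .mm ⟨⟨0, 0, 0, 0, 0, 33268964, 0,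 0, 0, ⟨0, 0⟩, 0⟩, 0, 0⟩ 0 0) (.cut .v 16776192 (.pos 63 .mm ⟨⟨0, 0, 0, 0, 0, 28580605, 0, 0, 0, ⟨0, 0⟩, 0⟩, 0, 0⟩ 0 0) (.cut .l 3035 (.cut .d (-512) (.pos 64 .mm ⟨⟨0, 0, 0, 0, 0, 33268827, 0, 0, 0, ⟨0, 0⟩, 0⟩, 0, 0⟩ 0 0) (.cut .l 1517 (.cut .s 7356416 (.cut .s 7266304 (.pos 64 .mm ⟨⟨0, 0, 0, 0, 0, 26240895, 0, 0, 0, ⟨0, 0⟩, 0⟩, 0, 0⟩ 0 0) (.pos 64 .mm ⟨⟨0, 0, 0, 0, 0, 28101406, 0, 0, 0, ⟨0, 0⟩, 0⟩, 0, 0⟩ 0 0)) (.cut .s 7446528 (.pos 64 .mm ⟨⟨0, 0, 0, 0, 0, 30091515, 0, 0, 0, ⟨0, 0⟩, 0⟩, 0, 0⟩ 0 0) (.pos 64 .mm ⟨⟨0, 0, 0, 0, 0, 32211364, 0, 0, 0, ⟨0, 0⟩, 0⟩, 0, 0⟩ 0 0))) (.pos 64 .mm ⟨⟨0, 0, 0, 0, 0, 26577124, 0, 0, 0, ⟨0, 0⟩, 0⟩,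 0, 0⟩ 0 0))) (.pos 64 .mm ⟨⟨0, 0, 0, 0, 0, 26579341, 0, 0, 0, ⟨0, 0⟩, 0⟩, 0, 0⟩ 0 0)))) (.pos 62 .mm ⟨⟨0, 0, 0, 0, 0, 26586663, 0, 0, 0, ⟨0, 0⟩, 0⟩, 0, 0⟩ 0 0)))) (.pos 60 .mm ⟨⟨0, 0, 0, 0, 0, 26600946, 0, 0, 0, ⟨0, 0⟩, 0⟩, 0, 0⟩ 0 0)))) (.pos 58 .mm ⟨⟨0, 0, 0, 0, 0, 26630235, 0, 0, 0, ⟨0, 0⟩, 0⟩, 0, 0⟩ 0 0)))) (.pos 56 .mm ⟨⟨0, 0, 0, 0, 0, 26688722, 0, 0, 0, ⟨0, 0⟩, 0⟩, 0, 0⟩ 0 0)))) (.pos 54 .mm ⟨⟨0, 0, 0, 0, 0, 26805831, 0, 0, 0, ⟨0, 0⟩, 0⟩, 0, 0⟩ 0 0))))))))))))))))))))) (.cut .d (-8388608) (.void 22 ⟨⟨0, 0, 0, 0, 0, 100000, 0, 0, 0, ⟨0, 0⟩, 0⟩, 0, 0⟩ 0 0) (.cut .v 25165824 (.cut .d (-4194304) (.void 23 ⟨⟨0, 0, 0, 0, 0, 100000,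 0, 0, 0, ⟨0, 0⟩, 0⟩, 0, 0⟩ 0 0) (.cut .d (-2097152) (.void 23 ⟨⟨0, 0, 0, 0, 0, 100000, 0, 0, 0, ⟨0, 0⟩, 0⟩, 0, 0⟩ 0 0) (.cut .v 20971520 (.cut .d (-1048576) (.void 25 ⟨⟨0, 0, 0, 0, 0, 100000, 0, 0, 0, ⟨0, 0⟩, 0⟩, 0, 0⟩ 0 0) (.cut .d (-524288) (.void 25 ⟨⟨0, 0, 0, 0, 0, 100000, 0, 0, 0, ⟨0, 0⟩, 0⟩, 0, 0⟩ 0 0) (.cut .d (-262144) (.void 25 ⟨⟨0, 0, 0, 0, 0, 100000, 0, 0, 0, ⟨0, 0⟩, 0⟩, 0, 0⟩ 0 0) (.cut .d (-131072) (.void 25 ⟨⟨0, 0, 0, 0, 0, 100000, 0, 0, 0, ⟨0, 0⟩, 0⟩, 0, 0⟩ 0 0) (.cut .v 18874368 (.cut .d (-65536) (.void 27 ⟨⟨0, 0, 0, 0, 0, 100000, 0, 0, 0, ⟨0, 0⟩, 0⟩, 0, 0⟩ 0 0) (.cut .v 17825792 (.cut .v 17301504 (.cut .v 17039360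 (.cut .v 16908288 (.cut .s 7176192 (.cut .d (-32768) (.cut .v 16842752 (.cut .d (-49152) (.void 45 ⟨⟨0, 0, 0, 0, 0, 100000, 0, 0, 0, ⟨0, 0⟩, 0⟩, 0, 0⟩ 0 0) (.cut .d (-40960) (.pos 45 .mp ⟨⟨8245765, 0, 0, 0, 0, 22895427, 0, 0, 0, ⟨0, 0⟩, 0⟩, 0, 0⟩ 0 0) (.cut .l 97131 (.void 45 ⟨⟨0, 0, 0, 0, 0, 100000, 0, 0, 0, ⟨0, 0⟩, 0⟩, 0, 0⟩ 0 0) (.cut .l 145697 (.void 45 ⟨⟨0, 0, 0, 0, 0, 100000, 0, 0, 0, ⟨0, 0⟩, 0⟩, 0, 0⟩ 0 0) (.cut .s 6995968 (.cut .s 6905856 (.pos 45 .mp ⟨⟨8281360, 0, 0, 0, 0, 13048437, 0, 0, 0, ⟨0, 0⟩, 0⟩, 0, 0⟩ 0 0) (.pos 45 .mp ⟨⟨8906042, 0, 0, 0, 0, 13840005, 0, 0, 0, ⟨0, 0⟩, 0⟩, 0, 0⟩ 0 0)) (.cut .s 7086080 (.pos 45 .mp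 ⟨⟨9666540, 0, 0, 0, 0, 14547892, 0, 0, 0, ⟨0, 0⟩, 0⟩, 0, 0⟩ 0 0) (.cut .s 7131136 (.pos 45 .mp ⟨⟨10479523, 0, 0, 0, 0, 14609689, 0, 0, 0, ⟨0, 0⟩, 0⟩, 0, 0⟩ 0 0) (.pos 45 .mp ⟨⟨10906019, 0, 0, 0, 0, 14994292, 0, 0, 0, ⟨0, 0⟩, 0⟩, 0, 0⟩ 0 0)))))))) (.pos 46 .mp ⟨⟨28173075, 0, 0, 0, 0, 0, 0, 0, 0, ⟨0, 0⟩, 0⟩, 0, 0⟩ 0 0)) (.cut .v 16842752 (.cut .s 6995968 (.cut .s 6905856 (.cut .v 16809984 (.cut .s 6860800 (.cut .s 6838272 (.pos 47 .mp ⟨⟨9061469, 0, 0, 0, 0, 11151609, 0, 0, 0, ⟨0, 0⟩, 0⟩, 0, 0⟩ 0 0) (.pos 47 .mp ⟨⟨9117571, 0, 0, 0, 0, 11392797, 0, 0, 0, ⟨0, 0⟩, 0⟩, 0, 0⟩ 0 0)) (.cut .s 6883328 (.pos 47 .mp ⟨⟨9179990, 0, 0, 0, 0, 11635703,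 0, 0, 0, ⟨0, 0⟩, 0⟩, 0, 0⟩ 0 0) (.pos 47 .mp ⟨⟨9249161, 0, 0, 0, 0, 11879880, 0, 0, 0, ⟨0, 0⟩, 0⟩, 0, 0⟩ 0 0))) (.pos 48 .mp ⟨⟨14832958, 0, 0, 0, 0, 6166134, 0, 0, 0, ⟨0, 0⟩, 0⟩, 0, 0⟩ 0 0)) (.cut .v 16809984 (.cut .s 6950912 (.cut .s 6928384 (.pos 47 .mp ⟨⟨9325518, 0, 0, 0, 0, 12124876, 0, 0, 0, ⟨0, 0⟩, 0⟩, 0, 0⟩ 0 0) (.pos 47 .mp ⟨⟨9299500, 0, 0, 0, 0, 12494642, 0, 0, 0, ⟨0, 0⟩, 0⟩, 0, 0⟩ 0 0)) (.cut .l 97131 (.cut .d (-16384) (.pos 47 .mp ⟨⟨9253596, 0, 0, 0, 0, 13610845, 0, 0, 0, ⟨0, 0⟩, 0⟩, 0, 0⟩ 0 0) (.cut .s 6973440 (.pos 47 .mp ⟨⟨9727726, 0, 0, 0, 0, 12341388, 0, 0, 0, ⟨0, 0⟩, 0⟩, 0, 0⟩ 0 0) (.pos 47 .mp ⟨⟨9853522, 0, 0,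 0, 0, 12560888, 0, 0, 0, ⟨0, 0⟩, 0⟩, 0, 0⟩ 0 0))) (.pos 47 .mp ⟨⟨9150657, 0, 0, 0, 0, 12941758, 0, 0, 0, ⟨0, 0⟩, 0⟩, 0, 0⟩ 0 0))) (.pos 48 .mp ⟨⟨15462468, 0, 0, 0, 0, 6786435, 0, 0, 0, ⟨0, 0⟩, 0⟩, 0, 0⟩ 0 0))) (.cut .s 7086080 (.cut .s 7041024 (.cut .v 16809984 (.cut .s 7018496 (.cut .s 7007232 (.pos 47 .mp ⟨⟨10131774, 0, 0, 0, 0, 12619649, 0, 0, 0, ⟨0, 0⟩, 0⟩, 0, 0⟩ 0 0) (.pos 47 .mp ⟨⟨10194047, 0, 0, 0, 0, 12735713, 0, 0, 0, ⟨0, 0⟩, 0⟩, 0, 0⟩ 0 0)) (.cut .s 7029760 (.pos 47 .mp ⟨⟨10258693, 0, 0, 0, 0, 12851356, 0, 0, 0, ⟨0, 0⟩, 0⟩, 0, 0⟩ 0 0) (.pos 47 .mp ⟨⟨10325766, 0, 0, 0, 0, 12966517, 0, 0, 0, ⟨0, 0⟩, 0⟩, 0, 0⟩ 0 0))) (.pos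 48 .mp ⟨⟨13635866, 0, 0, 0, 0, 9547781, 0, 0, 0, ⟨0, 0⟩, 0⟩, 0, 0⟩ 0 0)) (.cut .v 16809984 (.cut .s 7063552 (.cut .s 7052288 (.pos 47 .mp ⟨⟨10395323, 0, 0, 0, 0, 13081135, 0, 0, 0, ⟨0, 0⟩, 0⟩, 0, 0⟩ 0 0) (.pos 47 .mp ⟨⟨10431995, 0, 0, 0, 0, 13235686, 0, 0, 0, ⟨0, 0⟩, 0⟩, 0, 0⟩ 0 0)) (.cut .s 7074816 (.pos 47 .mp ⟨⟨10465167, 0, 0, 0, 0, 13396647, 0, 0, 0, ⟨0, 0⟩, 0⟩, 0, 0⟩ 0 0) (.pos 47 .mp ⟨⟨10503766, 0, 0, 0, 0, 13553803, 0, 0, 0, ⟨0, 0⟩, 0⟩, 0, 0⟩ 0 0))) (.pos 48 .mp ⟨⟨13981558, 0, 0, 0, 0, 9926722, 0, 0, 0, ⟨0, 0⟩, 0⟩, 0, 0⟩ 0 0))) (.cut .s 7131136 (.cut .v 16809984 (.cut .s 7108608 (.cut .s 7097344 (.pos 47 .mp ⟨⟨10584853,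 0, 0, 0, 0, 13667293, 0, 0, 0, ⟨0, 0⟩, 0⟩, 0, 0⟩ 0 0) (.cut .s 7102976 (.pos 47 .mp ⟨⟨11007258, 0, 0, 0, 0, 13382062, 0, 0, 0, ⟨0, 0⟩, 0⟩, 0, 0⟩ 0 0) (.pos 47 .mp ⟨⟨11050662, 0, 0, 0, 0, 13435959, 0, 0, 0, ⟨0, 0⟩, 0⟩, 0, 0⟩ 0 0))) (.cut .d (-16384) (.pos 47 .mp ⟨⟨10518277, 0, 0, 0, 0, 14395682, 0, 0, 0, ⟨0, 0⟩, 0⟩, 0, 0⟩ 0 0) (.cut .s 7119872 (.pos 47 .mp ⟨⟨11131968, 0, 0, 0, 0, 13450087, 0, 0, 0, ⟨0, 0⟩, 0⟩, 0, 0⟩ 0 0) (.pos 47 .mp ⟨⟨11223909, 0, 0, 0, 0, 13554854, 0, 0, 0, ⟨0, 0⟩, 0⟩, 0, 0⟩ 0 0)))) (.pos 48 .mp ⟨⟨14383007, 0, 0, 0, 0, 10280418, 0, 0, 0, ⟨0, 0⟩, 0⟩, 0, 0⟩ 0 0)) (.cut .s 7153664 (.cut .v 16809984 (.cut .d (-16384)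 (.pos 47 .mp ⟨⟨10730468, 0, 0, 0, 0, 14584686, 0, 0, 0, ⟨0, 0⟩, 0⟩, 0, 0⟩ 0 0) (.cut .s 7142400 (.pos 47 .mp ⟨⟨11318433, 0, 0, 0, 0, 13658969, 0, 0, 0, ⟨0, 0⟩, 0⟩, 0, 0⟩ 0 0) (.pos 47 .mp ⟨⟨11415588, 0, 0, 0, 0, 13762379, 0, 0, 0, ⟨0, 0⟩, 0⟩, 0, 0⟩ 0 0))) (.pos 48 .mp ⟨⟨13357965, 0, 0, 0, 0, 11866314, 0, 0, 0, ⟨0, 0⟩, 0⟩, 0, 0⟩ 0 0)) (.cut .v 16809984 (.cut .d (-16384) (.pos 47 .mp ⟨⟨10945976, 0, 0, 0, 0, 14778125, 0, 0, 0, ⟨0, 0⟩, 0⟩, 0, 0⟩ 0 0) (.cut .s 7164928 (.pos 47 .mp ⟨⟨11515423, 0, 0, 0, 0, 13865027, 0, 0, 0, ⟨0, 0⟩, 0⟩, 0, 0⟩ 0 0) (.pos 47 .mp ⟨⟨11617988, 0, 0, 0, 0, 13966859, 0, 0, 0, ⟨0, 0⟩, 0⟩, 0, 0⟩ 0 0))) (.pos 48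 .mp ⟨⟨13581524, 0, 0, 0, 0, 12045523, 0, 0, 0, ⟨0, 0⟩, 0⟩, 0, 0⟩ 0 0)))))) (.pos 46 .mp ⟨⟨23794373, 0, 0, 0, 0, 0, 0, 0, 0, ⟨0, 0⟩, 0⟩, 0, 0⟩ 0 0))) (.cut .d (-32768) (.cut .v 16842752 (.cut .d (-49152) (.void 45 ⟨⟨0, 0, 0, 0, 0, 100000, 0, 0, 0, ⟨0, 0⟩, 0⟩, 0, 0⟩ 0 0) (.cut .d (-40960) (.void 45 ⟨⟨0, 0, 0, 0, 0, 100000, 0, 0, 0, ⟨0, 0⟩, 0⟩, 0, 0⟩ 0 0) (.cut .d (-36864) (.pos 45 .mp ⟨⟨11376410, 0, 0, 0, 0, 22718047, 0, 0, 0, ⟨0, 0⟩, 0⟩, 0, 0⟩ 0 0) (.cut .l 97131 (.void 45 ⟨⟨0, 0, 0, 0, 0, 100000, 0, 0, 0, ⟨0, 0⟩, 0⟩, 0, 0⟩ 0 0) (.cut .l 145697 (.void 45 ⟨⟨0, 0, 0, 0, 0, 100000, 0, 0, 0, ⟨0, 0⟩, 0⟩, 0, 0⟩ 0 0) (.cut .s 7356416 (.cut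 .s 7266304 (.cut .s 7221248 (.pos 45 .mp ⟨⟨11346031, 0, 0, 0, 0, 15358252, 0, 0, 0, ⟨0, 0⟩, 0⟩, 0, 0⟩ 0 0) (.pos 45 .mp ⟨⟨11799695, 0, 0, 0, 0, 15771624, 0, 0, 0, ⟨0, 0⟩, 0⟩, 0, 0⟩ 0 0)) (.pos 45 .mp ⟨⟨12267152, 0, 0, 0, 0, 16962638, 0, 0, 0, ⟨0, 0⟩, 0⟩, 0, 0⟩ 0 0)) (.pos 45 .mp ⟨⟨13244020, 0, 0, 0, 0, 19468566, 0, 0, 0, ⟨0, 0⟩, 0⟩, 0, 0⟩ 0 0))))))) (.void 46 ⟨⟨100000, 0, 0, 0, 0, 0, 0, 0, 0, ⟨0, 0⟩, 0⟩, 0, 0⟩ 0 0)) (.cut .v 16842752 (.cut .s 7356416 (.cut .s 7266304 (.cut .s 7221248 (.cut .s 7198720 (.cut .v 16809984 (.cut .d (-16384) (.pos 47 .mp ⟨⟨11164818, 0, 0, 0, 0, 14975992, 0, 0, 0, ⟨0, 0⟩, 0⟩, 0, 0⟩ 0 0) (.cut .s 7187456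 (.pos 47 .mp ⟨⟨11723332, 0, 0, 0, 0, 14067820, 0, 0, 0, ⟨0, 0⟩, 0⟩, 0, 0⟩ 0 0) (.pos 47 .mp ⟨⟨11831505, 0, 0, 0, 0, 14167852, 0, 0, 0, ⟨0, 0⟩, 0⟩, 0, 0⟩ 0 0))) (.pos 48 .mp ⟨⟨13822301, 0, 0, 0, 0, 12214900, 0, 0, 0, ⟨0, 0⟩, 0⟩, 0, 0⟩ 0 0)) (.cut .v 16809984 (.cut .d (-16384) (.pos 47 .mp ⟨⟨11387012, 0, 0, 0, 0, 15178281, 0, 0, 0, ⟨0, 0⟩, 0⟩, 0, 0⟩ 0 0) (.cut .s 7209984 (.pos 47 .mp ⟨⟨11942556, 0, 0, 0, 0, 14266900, 0, 0, 0, ⟨0, 0⟩, 0⟩, 0, 0⟩ 0 0) (.pos 47 .mp ⟨⟨12056535, 0, 0, 0, 0, 14364907, 0, 0, 0, ⟨0, 0⟩, 0⟩, 0, 0⟩ 0 0))) (.pos 48 .mp ⟨⟨14080969, 0, 0, 0, 0, 12373672, 0, 0, 0, ⟨0, 0⟩, 0⟩, 0, 0⟩ 0 0))) (.cut .s 7243776 (.cut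 .v 16809984 (.cut .d (-16384) (.pos 47 .mp ⟨⟨11612574, 0, 0, 0, 0, 15384982, 0, 0, 0, ⟨0, 0⟩, 0⟩, 0, 0⟩ 0 0) (.cut .s 7232512 (.pos 47 .mp ⟨⟨12173494, 0, 0, 0, 0, 14461816, 0, 0, 0, ⟨0, 0⟩, 0⟩, 0, 0⟩ 0 0) (.pos 47 .mp ⟨⟨12293480, 0, 0, 0, 0, 14557569, 0, 0, 0, ⟨0, 0⟩, 0⟩, 0, 0⟩ 0 0))) (.pos 48 .mp ⟨⟨14358204, 0, 0, 0, 0, 12521059, 0, 0, 0, ⟨0, 0⟩, 0⟩, 0, 0⟩ 0 0)) (.cut .v 16809984 (.cut .d (-16384) (.pos 47 .mp ⟨⟨11841521, 0, 0, 0, 0, 15596087, 0, 0, 0, ⟨0, 0⟩, 0⟩, 0, 0⟩ 0 0) (.cut .s 7255040 (.pos 47 .mp ⟨⟨12416546, 0, 0, 0, 0, 14652108, 0, 0, 0, ⟨0, 0⟩, 0⟩, 0, 0⟩ 0 0) (.pos 47 .mp ⟨⟨12542742, 0, 0, 0, 0, 14745376, 0, 0, 0, ⟨0,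 0⟩, 0⟩, 0, 0⟩ 0 0))) (.pos 48 .mp ⟨⟨14654684, 0, 0, 0, 0, 12656269, 0, 0, 0, ⟨0, 0⟩, 0⟩, 0, 0⟩ 0 0)))) (.cut .s 7311360 (.cut .s 7288832 (.cut .v 16809984 (.cut .d (-16384) (.pos 47 .mp ⟨⟨12073872, 0, 0, 0, 0, 15811588, 0, 0, 0, ⟨0, 0⟩, 0⟩, 0, 0⟩ 0 0) (.cut .s 7277568 (.pos 47 .mp ⟨⟨12672117, 0, 0, 0, 0, 14837313, 0, 0, 0, ⟨0, 0⟩, 0⟩, 0, 0⟩ 0 0) (.pos 47 .mp ⟨⟨12804724, 0, 0, 0, 0, 14927859, 0, 0, 0, ⟨0, 0⟩, 0⟩, 0, 0⟩ 0 0))) (.pos 48 .mp ⟨⟨14971088, 0, 0, 0, 0, 12778504, 0, 0, 0, ⟨0, 0⟩, 0⟩, 0, 0⟩ 0 0)) (.cut .v 16809984 (.cut .d (-16384) (.pos 47 .mp ⟨⟨12309644, 0, 0, 0, 0, 16031793, 0, 0, 0, ⟨0, 0⟩, 0⟩, 0, 0⟩ 0 0) (.cut .s 7300096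 (.pos 47 .mp ⟨⟨12940612, 0, 0, 0, 0, 15016957, 0, 0, 0, ⟨0, 0⟩, 0⟩, 0, 0⟩ 0 0) (.pos 47 .mp ⟨⟨13079834, 0, 0, 0, 0, 15104545, 0, 0, 0, ⟨0, 0⟩, 0⟩, 0, 0⟩ 0 0))) (.pos 48 .mp ⟨⟨15308100, 0, 0, 0, 0, 12886958, 0, 0, 0, ⟨0, 0⟩, 0⟩, 0, 0⟩ 0 0))) (.cut .v 16809984 (.cut .s 7333888 (.cut .d (-16384) (.pos 47 .mp ⟨⟨12548855, 0, 0, 0, 0, 16262205, 0, 0, 0, ⟨0, 0⟩, 0⟩, 0, 0⟩ 0 0) (.cut .s 7322624 (.pos 47 .mp ⟨⟨13222439, 0, 0, 0, 0, 15190565, 0, 0, 0, ⟨0, 0⟩, 0⟩, 0, 0⟩ 0 0) (.pos 47 .mp ⟨⟨13368481, 0, 0, 0, 0, 15274953, 0, 0, 0, ⟨0, 0⟩, 0⟩, 0, 0⟩ 0 0))) (.cut .s 7345152 (.pos 47 .mp ⟨⟨13126211, 0, 0, 0, 0, 15820851, 0, 0, 0, ⟨0, 0⟩, 0⟩,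 0, 0⟩ 0 0) (.pos 47 .mp ⟨⟨13296902, 0, 0, 0, 0, 15879528, 0, 0, 0, ⟨0, 0⟩, 0⟩, 0, 0⟩ 0 0))) (.pos 48 .mp ⟨⟨17411888, 0, 0, 0, 0, 11460968, 0, 0, 0, ⟨0, 0⟩, 0⟩, 0, 0⟩ 0 0)))) (.cut .s 7446528 (.cut .s 7401472 (.cut .v 16809984 (.cut .s 7378944 (.cut .s 7367680 (.pos 47 .mp ⟨⟨13500671, 0, 0, 0, 0, 15903572, 0, 0, 0, ⟨0, 0⟩, 0⟩, 0, 0⟩ 0 0) (.pos 47 .mp ⟨⟨13712176, 0, 0, 0, 0, 15920782, 0, 0, 0, ⟨0, 0⟩, 0⟩, 0, 0⟩ 0 0)) (.cut .s 7390208 (.pos 47 .mp ⟨⟨13914794, 0, 0, 0, 0, 15950793, 0, 0, 0, ⟨0, 0⟩, 0⟩, 0, 0⟩ 0 0) (.pos 47 .mp ⟨⟨14089287, 0, 0, 0, 0, 16016427, 0, 0, 0, ⟨0, 0⟩, 0⟩, 0, 0⟩ 0 0))) (.pos 48 .mp ⟨⟨18259458, 0, 0, 0, 0, 11535851,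 0, 0, 0, ⟨0, 0⟩, 0⟩, 0, 0⟩ 0 0)) (.cut .v 16809984 (.cut .s 7424000 (.cut .s 7412736 (.pos 47 .mp ⟨⟨14268086, 0, 0, 0, 0, 16079377, 0, 0, 0, ⟨0, 0⟩, 0⟩, 0, 0⟩ 0 0) (.pos 47 .mp ⟨⟨14451252, 0, 0, 0, 0, 16139568, 0, 0, 0, ⟨0, 0⟩, 0⟩, 0, 0⟩ 0 0)) (.cut .s 7435264 (.pos 47 .mp ⟨⟨14638842, 0, 0, 0, 0, 16196928, 0, 0, 0, ⟨0, 0⟩, 0⟩, 0, 0⟩ 0 0) (.pos 47 .mp ⟨⟨14830917, 0, 0, 0, 0, 16251382, 0, 0, 0, ⟨0, 0⟩, 0⟩, 0, 0⟩ 0 0))) (.pos 48 .mp ⟨⟨19200279, 0, 0, 0, 0, 11541817, 0, 0, 0, ⟨0, 0⟩, 0⟩, 0, 0⟩ 0 0))) (.cut .s 7491584 (.cut .v 16809984 (.cut .d (-16384) (.pos 47 .mp ⟨⟨14057363, 0, 0, 0, 0, 18034453, 0, 0, 0, ⟨0, 0⟩, 0⟩, 0, 0⟩ 0 0) (.cut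 .s 7469056 (.pos 47 .mp ⟨⟨14763830, 0, 0, 0, 0, 16625174, 0, 0, 0, ⟨0, 0⟩, 0⟩, 0, 0⟩ 0 0) (.pos 47 .mp ⟨⟨15145750, 0, 0, 0, 0, 16749751, 0, 0, 0, ⟨0, 0⟩, 0⟩, 0, 0⟩ 0 0))) (.pos 48 .mp ⟨⟨20239854, 0, 0, 0, 0, 11472077, 0, 0, 0, ⟨0, 0⟩, 0⟩, 0, 0⟩ 0 0)) (.cut .s 7514112 (.cut .s 7502848 (.pos 45 .mp ⟨⟨15615147, 0, 0, 0, 0, 16726662, 0, 0, 0, ⟨0, 0⟩, 0⟩, 0, 0⟩ 0 0) (.pos 45 .mp ⟨⟨15813870, 0, 0, 0, 0, 16784224, 0, 0, 0, ⟨0, 0⟩, 0⟩, 0, 0⟩ 0 0)) (.pos 45 .mp ⟨⟨15754709, 0, 0, 0, 0, 17218701, 0, 0, 0, ⟨0, 0⟩, 0⟩, 0, 0⟩ 0 0))))) (.pos 46 .mp ⟨⟨29954648, 0, 0, 0, 0, 0, 0, 0, 0, ⟨0, 0⟩, 0⟩, 0, 0⟩ 0 0)))) (.pos 36 .mp ⟨⟨31300782, 0, 0, 0,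 0, 0, 0, 0, 0, ⟨0, 0⟩, 0⟩, 0, 0⟩ 0 0)) (.void 34 ⟨⟨100000, 0, 0, 0, 0, 0, 0, 0, 0, ⟨0, 0⟩, 0⟩, 0, 0⟩ 0 0)) (.void 32 ⟨⟨100000, 0, 0, 0, 0, 0, 0, 0, 0, ⟨0, 0⟩, 0⟩, 0, 0⟩ 0 0)) (.void 30 ⟨⟨100000, 0, 0, 0, 0, 0, 0, 0, 0, ⟨0, 0⟩, 0⟩, 0, 0⟩ 0 0))) (.void 28 ⟨⟨100000, 0, 0, 0, 0, 0, 0, 0, 0, ⟨0, 0⟩, 0⟩, 0, 0⟩ 0 0)))))) (.void 26 ⟨⟨100000, 0, 0, 0, 0, 0, 0, 0, 0, ⟨0, 0⟩, 0⟩, 0, 0⟩ 0 0)))) (.void 24 ⟨⟨100000, 0, 0, 0, 0, 0, 0, 0, 0, ⟨0, 0⟩, 0⟩, 0, 0⟩ 0 0)))) (.cut .v 16777216 (.cut .d 6327635 (.cut .d 3163817 (.cut .d 1581908 (.cut .v 8388608 (.cut .v 4194304 (.void 4 ⟨⟨0, 0, 100000, 0, 0, 0, 0, 0, 0, ⟨0, 0⟩, 0⟩, 0, 0⟩ 0 0) (.pos 5 .pm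 ⟨⟨0, 0, 0, 0, 0, 0, 0, 0, 0, ⟨0, 0⟩, 0⟩, 0, 0⟩ 0 0)) (.cut .v 12582912 (.pos 8 .pm ⟨⟨0, 0, 0, 0, 0, 0, 0, 0, 0, ⟨0, 0⟩, 0⟩, 0, 0⟩ 0 0) (.pos 9 .pm ⟨⟨0, 0, 0, 0, 0, 0, 0, 0, 0, ⟨0, 0⟩, 0⟩, 0, 0⟩ 0 0))) (.void 1 ⟨⟨0, 0, 0, 0, 0, 0, 0, 0, 0, ⟨0, 0⟩, 0⟩, 0, 100000⟩ 0 0)) (.void 1 ⟨⟨0, 0, 0, 0, 0, 0, 0, 0, 0, ⟨0, 0⟩, 0⟩, 0, 100000⟩ 0 0)) (.void 1 ⟨⟨0, 0, 0, 0, 0, 0, 0, 0, 0, ⟨0, 0⟩, 0⟩, 0, 100000⟩ 0 0)) (.cut .d 6327635 (.cut .v 25165824 (.cut .d 3163817 (.cut .d 1581908 (.cut .v 20971520 (.cut .d 790954 (.cut .v 18874368 (.cut .d 395477 (.cut .s 7176192 (.pos 27 .pp ⟨⟨13854607, 0, 0, 0, 0, 0, 0, 0, 0, ⟨0, 0⟩, 0⟩, 300455, 0⟩ 0 0) (.pos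 27 .pp ⟨⟨16296199, 0, 0, 0, 0, 0, 0, 0, 0, ⟨0, 0⟩, 0⟩, 574065, 0⟩ 0 0)) (.pos 27 .pp ⟨⟨10028845, 0, 0, 0, 0, 0, 0, 0, 0, ⟨0, 0⟩, 0⟩, 0, 391532⟩ 0 0)) (.cut .d 395477 (.pos 28 .pp ⟨⟨55834600, 0, 0, 0, 0, 0, 0, 0, 0, ⟨0, 0⟩, 0⟩, 0, 0⟩ 0 0) (.pos 28 .pp ⟨⟨20697758, 0, 0, 0, 0, 0, 0, 0, 0, ⟨0, 0⟩, 0⟩, 0, 360023⟩ 0 0))) (.cut .v 18874368 (.pos 27 .pp ⟨⟨0, 0, 0, 0, 0, 0, 0, 0, 0, ⟨0, 0⟩, 0⟩, 0, 18273125⟩ 0 0) (.pos 28 .pp ⟨⟨1205177, 0, 0, 0, 0, 0, 16598686, 0, 0, ⟨0, 0⟩, 0⟩, 0, 0⟩ 0 0))) (.cut .d 790954 (.pos 26 .pp ⟨⟨57580635, 0, 0, 0, 0, 0, 0, 0, 0, ⟨0, 0⟩, 0⟩, 0, 0⟩ 0 0) (.cut .v 23068672 (.cut .d 1186431 (.pos 75 .pp ⟨⟨19313564,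 0, 0, 0, 0, 0, 22579792, 0, 0, ⟨0, 0⟩, 0⟩, 0, 0⟩ 0 0) (.void 75 ⟨⟨0, 0, 0, 0, 0, 0, 0, 0, 0, ⟨0, 0⟩, 0⟩, 0, 100000⟩ 0 0)) (.void 76 ⟨⟨0, 0, 0, 0, 0, 0, 100000, 0, 0, ⟨0, 0⟩, 0⟩, 0, 0⟩ 0 0)))) (.void 23 ⟨⟨0, 0, 0, 0, 0, 0, 0, 0, 0, ⟨0, 0⟩, 0⟩, 0, 100000⟩ 0 0)) (.void 23 ⟨⟨0, 0, 0, 0, 0, 0, 0, 0, 0, ⟨0, 0⟩, 0⟩, 0, 100000⟩ 0 0)) (.void 24 ⟨⟨0, 0, 0, 0, 0, 0, 0, 0, 0, ⟨0, 0⟩, 0⟩, 15140, 84860⟩ 0 0)) (.void 22 ⟨⟨0, 0, 0, 0, 0, 0, 0, 0, 0, ⟨0, 0⟩, 0⟩, 0, 100000⟩ 0 0)))),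
    by decide +kernel⟩

def covers8 : cell.Covers Vale.Agent.P237.Petty.Cor.Grid.N19.table row8.1 :=
  ⟨(.cut .d 0 (.cut .v 16777216 (.cut .d (-8388608) (.void 1 ⟨⟨0, 0, 0, 0, 0, 100000, 0, 0, 0, ⟨0, 0⟩, 0⟩, 0, 0⟩ 0 0) (.cut .d (-4194304) (.void 1 ⟨⟨0, 0, 0, 0, 0, 100000, 0, 0, 0, ⟨0, 0⟩, 0⟩, 0, 0⟩ 0 0) (.cut .d (-2097152) (.void 1 ⟨⟨0, 0, 0, 0, 0, 100000, 0, 0, 0, ⟨0, 0⟩, 0⟩, 0, 0⟩ 0 0) (.cut .d (-1048576) (.void 1 ⟨⟨0, 0, 0, 0, 0, 100000, 0, 0, 0, ⟨0, 0⟩, 0⟩, 0, 0⟩ 0 0) (.cut .d (-524288) (.void 1 ⟨⟨0, 0, 0, 0, 0, 100000, 0, 0, 0, ⟨0, 0⟩, 0⟩, 0, 0⟩ 0 0) (.cut .d (-262144) (.void 1 ⟨⟨0, 0, 0, 0, 0, 100000, 0, 0, 0, ⟨0, 0⟩, 0⟩,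 0, 0⟩ 0 0) (.cut .d (-131072) (.void 1 ⟨⟨0, 0, 0, 0, 0, 100000, 0, 0, 0, ⟨0, 0⟩, 0⟩, 0, 0⟩ 0 0) (.cut .d (-65536) (.void 1 ⟨⟨0, 0, 0, 0, 0, 100000, 0, 0, 0, ⟨0, 0⟩, 0⟩, 0, 0⟩ 0 0) (.cut .v 8388608 (.cut .v 4194304 (.void 4 ⟨⟨0, 0, 100000, 0, 0, 0, 0, 0, 0, ⟨0, 0⟩, 0⟩, 0, 0⟩ 0 0) (.pos 5 .mm ⟨⟨0, 0, 0, 0, 0, 17998857, 0, 0, 0, ⟨0, 0⟩, 0⟩, 0, 0⟩ 0 0)) (.cut .v 12582912 (.pos 8 .mm ⟨⟨0, 0, 0, 0, 0, 24186846, 0, 0, 0, ⟨0, 0⟩, 0⟩, 0, 0⟩ 0 0) (.cut .s 7798784 (.cut .s 7667712 (.pos 9 .mm ⟨⟨0, 0, 0, 0, 0, 35035330, 0, 0, 0, ⟨0, 0⟩, 0⟩, 0, 0⟩ 0 0) (.pos 9 .mm ⟨⟨0, 0, 0, 0, 0, 39593324, 0, 0, 0, ⟨0, 0⟩, 0⟩, 0, 0⟩ 0 0)) (.pos 9 .mm ⟨⟨0,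 0, 0, 0, 0, 46654932, 0, 0, 0, ⟨0, 0⟩, 0⟩, 0, 0⟩ 0 0)))))))))))) (.cut .v 25165824 (.cut .d (-8388608) (.void 23 ⟨⟨0, 0, 0, 0, 0, 100000, 0, 0, 0, ⟨0, 0⟩, 0⟩, 0, 0⟩ 0 0) (.cut .d (-4194304) (.void 23 ⟨⟨0, 0, 0, 0, 0, 100000, 0, 0, 0, ⟨0, 0⟩, 0⟩, 0, 0⟩ 0 0) (.cut .d (-2097152) (.void 23 ⟨⟨0, 0, 0, 0, 0, 100000, 0, 0, 0, ⟨0, 0⟩, 0⟩, 0, 0⟩ 0 0) (.cut .v 20971520 (.cut .d (-1048576) (.void 25 ⟨⟨0, 0, 0, 0, 0, 100000, 0, 0, 0, ⟨0, 0⟩, 0⟩, 0, 0⟩ 0 0) (.cut .d (-524288) (.void 25 ⟨⟨0, 0, 0, 0, 0, 100000, 0, 0, 0, ⟨0, 0⟩, 0⟩, 0, 0⟩ 0 0) (.cut .d (-262144) (.void 25 ⟨⟨0, 0, 0, 0, 0, 100000, 0, 0, 0, ⟨0, 0⟩, 0⟩, 0, 0⟩ 0 0) (.cut .v 18874368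 (.cut .d (-131072) (.void 27 ⟨⟨0, 0, 0, 0, 0, 100000, 0, 0, 0, ⟨0, 0⟩, 0⟩, 0, 0⟩ 0 0) (.cut .d (-65536) (.void 27 ⟨⟨0, 0, 0, 0, 0, 100000, 0, 0, 0, ⟨0, 0⟩, 0⟩, 0, 0⟩ 0 0) (.cut .v 17825792 (.cut .v 17301504 (.cut .v 17039360 (.cut .v 16908288 (.cut .d (-32768) (.pos 35 .mp ⟨⟨15524601, 0, 0, 0, 0, 36813460, 0, 0, 0, ⟨0, 0⟩, 0⟩, 0, 0⟩ 0 0) (.cut .s 7798784 (.cut .v 16842752 (.cut .s 7667712 (.cut .s 7602176 (.cut .s 7569408 (.cut .s 7553024 (.pos 45 .mp ⟨⟨16301913, 0, 0, 0, 0, 17128414, 0, 0, 0, ⟨0, 0⟩, 0⟩, 0, 0⟩ 0 0) (.pos 45 .mp ⟨⟨17072126, 0, 0, 0, 0, 16851548, 0, 0, 0, ⟨0, 0⟩, 0⟩, 0, 0⟩ 0 0)) (.pos 45 .mp ⟨⟨17251758, 0, 0, 0,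 0, 17357159, 0, 0, 0, ⟨0, 0⟩, 0⟩, 0, 0⟩ 0 0)) (.pos 45 .mp ⟨⟨17561316, 0, 0, 0, 0, 18460319, 0, 0, 0, ⟨0, 0⟩, 0⟩, 0, 0⟩ 0 0)) (.cut .s 7733248 (.pos 45 .mp ⟨⟨20634279, 0, 0, 0, 0, 17521754, 0, 0, 0, ⟨0, 0⟩, 0⟩, 0, 0⟩ 0 0) (.pos 45 .mp ⟨⟨23569254, 0, 0, 0, 0, 16866849, 0, 0, 0, ⟨0, 0⟩, 0⟩, 0, 0⟩ 0 0))) (.pos 46 .mp ⟨⟨36513048, 0, 0, 0, 0, 0, 0, 0, 0, ⟨0, 0⟩, 0⟩, 0, 0⟩ 0 0)) (.cut .s 7929856 (.pos 35 .mp ⟨⟨23169793, 0, 0, 0, 0, 20501748, 0, 0, 0, ⟨0, 0⟩, 0⟩, 0, 0⟩ 0 0) (.pos 35 .mp ⟨⟨28150661, 0, 0, 0, 0, 20640470, 0, 0, 0, ⟨0, 0⟩, 0⟩, 0, 0⟩ 0 0)))) (.pos 36 .mp ⟨⟨44275722, 0, 0, 0, 0, 0, 0, 0, 0, ⟨0, 0⟩, 0⟩, 0, 0⟩ 0 0)) (.void 34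 ⟨⟨100000, 0, 0, 0, 0, 0, 0, 0, 0, ⟨0, 0⟩, 0⟩, 0, 0⟩ 0 0)) (.void 32 ⟨⟨100000, 0, 0, 0, 0, 0, 0, 0, 0, ⟨0, 0⟩, 0⟩, 0, 0⟩ 0 0)) (.void 30 ⟨⟨100000, 0, 0, 0, 0, 0, 0, 0, 0, ⟨0, 0⟩, 0⟩, 0, 0⟩ 0 0)))) (.void 28 ⟨⟨100000, 0, 0, 0, 0, 0, 0, 0, 0, ⟨0, 0⟩, 0⟩, 0, 0⟩ 0 0))))) (.void 26 ⟨⟨100000, 0, 0, 0, 0, 0, 0, 0, 0, ⟨0, 0⟩, 0⟩, 0, 0⟩ 0 0))))) (.void 24 ⟨⟨100000, 0, 0, 0, 0, 0, 0, 0, 0, ⟨0, 0⟩, 0⟩, 0, 0⟩ 0 0))) (.cut .v 16777216 (.cut .d 7568137 (.cut .d 3784068 (.cut .d 1892034 (.cut .v 8388608 (.cut .v 4194304 (.void 4 ⟨⟨0, 0, 100000, 0, 0, 0, 0, 0, 0, ⟨0, 0⟩, 0⟩, 0, 0⟩ 0 0) (.pos 5 .pm ⟨⟨0, 0, 0, 0, 0, 0, 0, 0, 0, ⟨0, 0⟩, 0⟩, 0, 0⟩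 0 0)) (.cut .v 12582912 (.pos 8 .pm ⟨⟨0, 0, 0, 0, 0, 0, 0, 0, 0, ⟨0, 0⟩, 0⟩, 0, 0⟩ 0 0) (.pos 9 .pm ⟨⟨0, 0, 0, 0, 0, 0, 0, 0, 0, ⟨0, 0⟩, 0⟩, 0, 0⟩ 0 0))) (.void 1 ⟨⟨0, 0, 0, 0, 0, 0, 0, 0, 0, ⟨0, 0⟩, 0⟩, 0, 100000⟩ 0 0)) (.void 1 ⟨⟨0, 0, 0, 0, 0, 0, 0, 0, 0, ⟨0, 0⟩, 0⟩, 0, 100000⟩ 0 0)) (.void 1 ⟨⟨0, 0, 0, 0, 0, 0, 0, 0, 0, ⟨0, 0⟩, 0⟩, 0, 100000⟩ 0 0)) (.cut .d 7568137 (.cut .v 25165824 (.cut .d 3784068 (.cut .d 1892034 (.cut .v 20971520 (.cut .d 946017 (.cut .d 473008 (.cut .v 18874368 (.cut .s 7798784 (.pos 27 .pp ⟨⟨14382590, 0, 0, 0, 0, 0, 0, 0, 0, ⟨0, 0⟩, 0⟩, 1242072, 0⟩ 0 0) (.pos 27 .pp ⟨⟨19853224, 0, 0, 0, 0, 0, 0, 0, 0,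 ⟨0, 0⟩, 0⟩, 1277548, 0⟩ 0 0)) (.pos 28 .pp ⟨⟨46352496, 0, 0, 0, 0, 0, 0, 0, 0, ⟨0, 0⟩, 0⟩, 0, 0⟩ 0 0)) (.pos 25 .pp ⟨⟨25590039, 0, 0, 0, 0, 0, 0, 0, 0, ⟨0, 0⟩, 0⟩, 0, 411247⟩ 0 0)) (.pos 25 .pp ⟨⟨0, 0, 0, 0, 0, 0, 0, 0, 0, ⟨0, 0⟩, 0⟩, 0, 740732⟩ 0 0)) (.cut .l 97131 (.void 26 ⟨⟨0, 0, 0, 0, 0, 0, 100000, 0, 0, ⟨0, 0⟩, 0⟩, 0, 0⟩ 0 0) (.cut .d 946017 (.cut .v 23068672 (.pos 75 .pp ⟨⟨51689640, 0, 0, 0, 0, 0, 0, 0, 0, ⟨0, 0⟩, 0⟩, 0, 0⟩ 0 0) (.void 76 ⟨⟨0, 0, 0, 0, 0, 0, 0, 0, 0, ⟨0, 0⟩, 0⟩, 100000, 0⟩ 0 0)) (.cut .d 1419025 (.cut .v 23068672 (.pos 75 .pp ⟨⟨0, 0, 0, 0, 0, 0, 10631929, 0, 0, ⟨0, 0⟩, 0⟩, 1864062, 0⟩ 0 0) (.cut .s 7798784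 (.pos 76 .pp ⟨⟨0, 0, 0, 0, 0, 0, 27694466, 0, 0, ⟨0, 0⟩, 0⟩, 2403280, 0⟩ 0 0) (.cut .v 24117248 (.pos 79 .pp ⟨⟨0, 0, 0, 0, 0, 0, 9760293, 0, 0, ⟨0, 0⟩, 0⟩, 2735217, 0⟩ 0 0) (.cut .d 1182521 (.pos 80 .pp ⟨⟨0, 0, 0, 0, 0, 0, 0, 0, 0, ⟨0, 0⟩, 0⟩, 8168055, 0⟩ 0 0) (.pos 80 .pp ⟨⟨0, 0, 0, 0, 0, 0, 26755199, 0, 0, ⟨0, 0⟩, 0⟩, 3185997, 0⟩ 0 0))))) (.pos 26 .pp ⟨⟨0, 0, 0, 0, 0, 0, 55686658, 0, 0, ⟨0, 0⟩, 0⟩, 0, 0⟩ 0 0))))) (.void 23 ⟨⟨0, 0, 0, 0, 0, 0, 0, 0, 0, ⟨0, 0⟩, 0⟩, 0, 100000⟩ 0 0)) (.void 23 ⟨⟨0, 0, 0, 0, 0, 0, 0, 0, 0, ⟨0, 0⟩, 0⟩, 0, 100000⟩ 0 0)) (.void 24 ⟨⟨0, 0, 0, 0, 0, 0, 100000, 0, 0, ⟨0, 0⟩, 0⟩, 0, 0⟩ 0 0)) (.void 22 ⟨⟨0,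 0, 0, 0, 0, 0, 0, 0, 0, ⟨0, 0⟩, 0⟩, 0, 100000⟩ 0 0)))),
    by decide +kernel⟩

def covers9 : cell.Covers Vale.Agent.P237.Petty.Cor.Grid.N19.table row9.1 :=
  ⟨(.cut .d 0 (.cut .v 16777216 (.cut .d (-8388608) (.void 1 ⟨⟨0, 0, 0, 0, 0, 100000, 0, 0, 0, ⟨0, 0⟩, 0⟩, 0, 0⟩ 0 0) (.cut .d (-4194304) (.void 1 ⟨⟨0, 0, 0, 0, 0, 100000, 0, 0, 0, ⟨0, 0⟩, 0⟩, 0, 0⟩ 0 0) (.cut .d (-2097152) (.void 1 ⟨⟨0, 0, 0, 0, 0, 100000, 0, 0, 0, ⟨0, 0⟩, 0⟩, 0, 0⟩ 0 0) (.cut .d (-1048576) (.void 1 ⟨⟨0, 0, 0, 0, 0, 100000, 0, 0, 0, ⟨0, 0⟩, 0⟩, 0, 0⟩ 0 0) (.cut .d (-524288) (.void 1 ⟨⟨0, 0, 0, 0, 0, 100000, 0, 0, 0, ⟨0, 0⟩, 0⟩, 0, 0⟩ 0 0) (.cut .d (-262144)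 (.void 1 ⟨⟨0, 0, 0, 0, 0, 100000, 0, 0, 0, ⟨0, 0⟩, 0⟩, 0, 0⟩ 0 0) (.cut .d (-131072) (.void 1 ⟨⟨0, 0, 0, 0, 0, 100000, 0, 0, 0, ⟨0, 0⟩, 0⟩, 0, 0⟩ 0 0) (.cut .d (-65536) (.void 1 ⟨⟨0, 0, 0, 0, 0, 100000, 0, 0, 0, ⟨0, 0⟩, 0⟩, 0, 0⟩ 0 0) (.cut .d (-32768) (.void 1 ⟨⟨0, 0, 0, 0, 0, 100000, 0, 0, 0, ⟨0, 0⟩, 0⟩, 0, 0⟩ 0 0) (.cut .v 8388608 (.cut .v 4194304 (.void 4 ⟨⟨0, 0, 100000, 0, 0, 0, 0, 0, 0, ⟨0, 0⟩, 0⟩, 0, 0⟩ 0 0) (.pos 5 .mm ⟨⟨0, 0, 0, 0, 0, 25473983, 0, 0, 0, ⟨0, 0⟩, 0⟩, 0, 0⟩ 0 0)) (.cut .s 8323072 (.pos 3 .mm ⟨⟨0, 0, 0, 0, 0, 59803740, 0, 0, 0, ⟨0, 0⟩, 0⟩, 0, 0⟩ 0 0) (.pos 3 .mm ⟨⟨0, 0, 0, 0, 0, 70266696, 0, 0, 0, ⟨0, 0⟩,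 0⟩, 0, 0⟩ 0 0)))))))))))) (.cut .v 25165824 (.cut .d (-8388608) (.void 23 ⟨⟨0, 0, 0, 0, 0, 100000, 0, 0, 0, ⟨0, 0⟩, 0⟩, 0, 0⟩ 0 0) (.cut .d (-4194304) (.void 23 ⟨⟨0, 0, 0, 0, 0, 100000, 0, 0, 0, ⟨0, 0⟩, 0⟩, 0, 0⟩ 0 0) (.cut .v 20971520 (.cut .d (-2097152) (.void 25 ⟨⟨0, 0, 0, 0, 0, 100000, 0, 0, 0, ⟨0, 0⟩, 0⟩, 0, 0⟩ 0 0) (.cut .d (-1048576) (.void 25 ⟨⟨0, 0, 0, 0, 0, 100000, 0, 0, 0, ⟨0, 0⟩, 0⟩, 0, 0⟩ 0 0) (.cut .d (-524288) (.void 25 ⟨⟨0, 0, 0, 0, 0, 100000, 0, 0, 0, ⟨0, 0⟩, 0⟩, 0, 0⟩ 0 0) (.cut .d (-262144) (.void 25 ⟨⟨0, 0, 0, 0, 0, 100000, 0, 0, 0, ⟨0, 0⟩, 0⟩, 0, 0⟩ 0 0) (.cut .v 18874368 (.cut .d (-131072) (.void 27 ⟨⟨0, 0,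 0, 0, 0, 100000, 0, 0, 0, ⟨0, 0⟩, 0⟩, 0, 0⟩ 0 0) (.cut .d (-65536) (.void 27 ⟨⟨0, 0, 0, 0, 0, 100000, 0, 0, 0, ⟨0, 0⟩, 0⟩, 0, 0⟩ 0 0) (.cut .d (-32768) (.void 27 ⟨⟨0, 0, 0, 0, 0, 100000, 0, 0, 0, ⟨0, 0⟩, 0⟩, 0, 0⟩ 0 0) (.cut .s 8323072 (.pos 27 .mp ⟨⟨38925138, 0, 0, 0, 0, 16237777, 0, 0, 0, ⟨0, 0⟩, 0⟩, 0, 0⟩ 0 0) (.cut .s 8454144 (.pos 27 .mp ⟨⟨42484462, 0, 0, 0, 0, 19670500, 0, 0, 0, ⟨0, 0⟩, 0⟩, 0, 0⟩ 0 0) (.pos 27 .mp ⟨⟨46458724, 0, 0, 0, 0, 20429622, 0, 0, 0, ⟨0, 0⟩, 0⟩, 0, 0⟩ 0 0)))))) (.void 28 ⟨⟨100000, 0, 0, 0, 0, 0, 0, 0, 0, ⟨0, 0⟩, 0⟩, 0, 0⟩ 0 0)))))) (.void 26 ⟨⟨100000, 0, 0, 0, 0, 0, 0, 0, 0, ⟨0, 0⟩, 0⟩, 0, 0⟩ 0 0))))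 (.void 24 ⟨⟨100000, 0, 0, 0, 0, 0, 0, 0, 0, ⟨0, 0⟩, 0⟩, 0, 0⟩ 0 0))) (.cut .v 16777216 (.cut .d 9070610 (.cut .d 4535305 (.cut .v 8388608 (.cut .v 4194304 (.void 4 ⟨⟨0, 0, 66667, 0, 0, 0, 0, 0, 0, ⟨0, 0⟩, 0⟩, 0, 33333⟩ 0 0) (.pos 5 .pm ⟨⟨0, 0, 0, 0, 0, 0, 0, 0, 0, ⟨0, 0⟩, 0⟩, 0, 0⟩ 0 0)) (.pos 3 .pm ⟨⟨0, 0, 0, 0, 0, 0, 0, 0, 0, ⟨0, 0⟩, 0⟩, 0, 0⟩ 0 0)) (.void 1 ⟨⟨0, 0, 0, 0, 0, 0, 0, 0, 0, ⟨0, 0⟩, 0⟩, 0, 100000⟩ 0 0)) (.void 1 ⟨⟨0, 0, 0, 0, 0, 0, 0, 0, 0, ⟨0, 0⟩, 0⟩, 0, 100000⟩ 0 0)) (.cut .d 9070610 (.cut .d 4535305 (.cut .v 25165824 (.cut .d 2267652 (.cut .v 20971520 (.cut .d 1133826 (.cut .d 566913 (.cut .v 18874368 (.cut .s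 8323072 (.pos 27 .pp ⟨⟨30068898, 0, 0, 0, 0, 0, 0, 0, 0, ⟨0, 0⟩, 0⟩, 941926, 0⟩ 0 0) (.pos 27 .pp ⟨⟨34177358, 0, 0, 0, 0, 0, 0, 0, 0, ⟨0, 0⟩, 0⟩, 1273330, 0⟩ 0 0)) (.pos 28 .pp ⟨⟨61819831, 0, 0, 0, 0, 0, 0, 0, 0, ⟨0, 0⟩, 0⟩, 0, 0⟩ 0 0)) (.pos 25 .pp ⟨⟨33468007, 0, 0, 0, 0, 0, 935447, 0, 0, ⟨0, 0⟩, 0⟩, 0, 0⟩ 0 0)) (.pos 25 .pp ⟨⟨0, 0, 0, 0, 0, 0, 0, 0, 0, ⟨0, 0⟩, 0⟩, 0, 844855⟩ 0 0)) (.cut .d 1133826 (.cut .d 566913 (.pos 26 .pp ⟨⟨106275781, 0, 0, 0, 0, 0, 0, 0, 0, ⟨0, 0⟩, 0⟩, 0, 0⟩ 0 0) (.cut .v 23068672 (.pos 75 .pp ⟨⟨0, 0, 0, 0, 0, 0, 756108, 0, 0, ⟨0, 0⟩, 0⟩, 3991896, 0⟩ 0 0) (.pos 76 .pp ⟨⟨0, 0, 0, 0, 0, 0, 118990, 0, 0, ⟨0,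 0⟩, 0⟩, 5513448, 0⟩ 0 0))) (.cut .d 1700739 (.cut .d 1417282 (.pos 26 .pp ⟨⟨0, 0, 0, 0, 0, 0, 5882073, 0, 0, ⟨0, 0⟩, 0⟩, 3568343, 0⟩ 0 0) (.pos 26 .pp ⟨⟨0, 0, 0, 0, 0, 0, 38461732, 0, 0, ⟨0, 0⟩, 0⟩, 0, 0⟩ 0 0)) (.pos 26 .pp ⟨⟨0, 0, 0, 0, 0, 0, 0, 0, 0, ⟨0, 0⟩, 0⟩, 0, 34353957⟩ 0 0)))) (.void 23 ⟨⟨0, 0, 0, 0, 0, 0, 0, 0, 0, ⟨0, 0⟩, 0⟩, 0, 100000⟩ 0 0)) (.cut .d 2267652 (.cut .d 1133826 (.void 24 ⟨⟨0, 0, 0, 0, 0, 0, 0, 0, 0, ⟨0, 0⟩, 0⟩, 100000, 0⟩ 0 0) (.cut .l 97131 (.void 24 ⟨⟨0, 0, 0, 0, 0, 0, 100000, 0, 0, ⟨0, 0⟩, 0⟩, 0, 0⟩ 0 0) (.cut .v 29360128 (.cut .d 1700739 (.cut .l 145697 (.pos 83 .pp ⟨⟨0, 0, 0, 0, 0, 0, 44976127, 0, 0,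 ⟨0, 0⟩, 0⟩, 5302273, 0⟩ 0 0) (.cut .v 27262976 (.cut .d 1417282 (.cut .v 26214400 (.pos 87 .pp ⟨⟨0, 0, 0, 0, 0, 0, 10281769, 0, 0, ⟨0, 0⟩, 0⟩, 4670231, 0⟩ 0 0) (.pos 88 .pp ⟨⟨0, 0, 0, 0, 0, 0, 0, 0, 0, ⟨0, 0⟩, 0⟩, 13975854, 0⟩ 0 0)) (.cut .l 169980 (.pos 85 .pp ⟨⟨0, 0, 0, 0, 0, 0, 32757139, 0, 0, ⟨0, 0⟩, 0⟩, 4018932, 0⟩ 0 0) (.cut .s 8323072 (.cut .l 182121 (.pos 85 .pp ⟨⟨0, 0, 0, 0, 0, 0, 37991980, 0, 0, ⟨0, 0⟩, 0⟩, 3828316, 0⟩ 0 0) (.cut .v 26214400 (.cut .s 8192000 (.pos 87 .pp ⟨⟨0, 0, 0, 0, 0, 0, 34381075, 0, 0, ⟨0, 0⟩, 0⟩, 3401691, 0⟩ 0 0) (.pos 87 .pp ⟨⟨0, 0, 0, 0, 0, 0, 21829138, 0, 0, ⟨0, 0⟩, 0⟩, 3795268, 0⟩ 0 0)) (.cut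 .s 8192000 (.void 88 ⟨⟨0, 0, 0, 0, 0, 0, 100000, 0, 0, ⟨0, 0⟩, 0⟩, 0, 0⟩ 0 0) (.cut .l 188192 (.pos 88 .pp ⟨⟨0, 0, 0, 0, 0, 0, 35135269, 0, 0, ⟨0, 0⟩, 0⟩, 4343527, 0⟩ 0 0) (.cut .d 1559010 (.cut .s 8257536 (.pos 88 .pp ⟨⟨0, 0, 0, 0, 0, 0, 28852733, 0, 0, ⟨0, 0⟩, 0⟩, 4434825, 0⟩ 0 0) (.pos 88 .pp ⟨⟨0, 0, 0, 0, 0, 0, 23628255, 0, 0, ⟨0, 0⟩, 0⟩, 4759199, 0⟩ 0 0)) (.cut .v 26738688 (.pos 91 .pp ⟨⟨0, 0, 0, 0, 0, 0, 31388841, 0, 0, ⟨0, 0⟩, 0⟩, 3917859, 0⟩ 0 0) (.cut .d 1629874 (.pos 92 .pp ⟨⟨0, 0, 0, 0, 0, 0, 32638663, 0, 0, ⟨0, 0⟩, 0⟩, 4500123, 0⟩ 0 0) (.pos 92 .pp ⟨⟨0, 0, 0, 0, 0, 0, 103808496, 0, 0, ⟨0, 0⟩, 0⟩, 0, 0⟩ 0 0)))))))) (.cut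 .d 1559010 (.pos 85 .pp ⟨⟨0, 0, 0, 0, 0, 0, 206877, 0, 0, ⟨0, 0⟩, 0⟩, 6057694, 0⟩ 0 0) (.cut .v 26214400 (.pos 87 .pp ⟨⟨0, 0, 0, 0, 0, 0, 2163897, 0, 0, ⟨0, 0⟩, 0⟩, 0, 0⟩ 0 0) (.pos 88 .pp ⟨⟨0, 0, 0, 0, 0, 0, 26629586, 0, 0, ⟨0, 0⟩, 0⟩, 4536605, 0⟩ 0 0)))))) (.cut .s 8323072 (.void 86 ⟨⟨0, 0, 0, 0, 0, 0, 100000, 0, 0, ⟨0, 0⟩, 0⟩, 0, 0⟩ 0 0) (.cut .s 8454144 (.cut .v 28311552 (.cut .d 1417282 (.void 95 ⟨⟨0, 0, 0, 0, 0, 0, 0, 0, 0, ⟨0, 0⟩, 0⟩, 100000, 0⟩ 0 0) (.cut .d 1559010 (.void 95 ⟨⟨0, 0, 0, 0, 0, 0, 0, 0, 0, ⟨0, 0⟩, 0⟩, 100000, 0⟩ 0 0) (.cut .v 27787264 (.cut .s 8388608 (.cut .d 1629874 (.pos 97 .pp ⟨⟨0, 0, 0, 0, 0, 0, 0, 0,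 0, ⟨0, 0⟩, 0⟩, 11580839, 0⟩ 0 0) (.cut .v 27525120 (.pos 99 .pp ⟨⟨0, 0, 0, 0, 0, 0, 31517491, 0, 0, ⟨0, 0⟩, 0⟩, 4666381, 0⟩ 0 0) (.pos 100 .pp ⟨⟨0, 0, 0, 0, 0, 0, 34197547, 0, 0, ⟨0, 0⟩, 0⟩, 4900555, 0⟩ 0 0))) (.pos 97 .pp ⟨⟨0, 0, 0, 0, 0, 0, 27836, 0, 0, ⟨0, 0⟩, 0⟩, 6823062, 0⟩ 0 0)) (.pos 98 .pp ⟨⟨0, 0, 0, 0, 0, 0, 0, 0, 0, ⟨0, 0⟩, 0⟩, 13506916, 0⟩ 0 0)))) (.void 96 ⟨⟨0, 0, 0, 0, 0, 0, 0, 0, 0, ⟨0, 0⟩, 0⟩, 100000, 0⟩ 0 0)) (.pos 86 .pp ⟨⟨0, 0, 0, 0, 0, 0, 0, 0, 0, ⟨0, 0⟩, 0⟩, 7455424, 0⟩ 0 0))))) (.cut .v 27262976 (.pos 85 .pp ⟨⟨0, 0, 0, 0, 0, 0, 61163465, 0, 0, ⟨0, 0⟩, 0⟩, 0, 0⟩ 0 0) (.cut .d 1984195 (.cut .s 8323072 (.void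 86 ⟨⟨0, 0, 0, 0, 0, 0, 100000, 0, 0, ⟨0, 0⟩, 0⟩, 0, 0⟩ 0 0) (.cut .l 145697 (.void 86 ⟨⟨0, 0, 0, 0, 0, 0, 36601, 0, 0, ⟨0, 0⟩, 0⟩, 0, 63399⟩ 0 0) (.cut .l 169980 (.pos 86 .pp ⟨⟨0, 0, 0, 0, 0, 0, 49571606, 0, 0, ⟨0, 0⟩, 0⟩, 4827114, 0⟩ 0 0) (.cut .l 182121 (.pos 86 .pp ⟨⟨0, 0, 0, 0, 0, 0, 47598890, 0, 0, ⟨0, 0⟩, 0⟩, 4941946, 0⟩ 0 0) (.cut .v 28311552 (.cut .s 8454144 (.cut .d 1842467 (.cut .l 188192 (.pos 95 .pp ⟨⟨0, 0, 0, 0, 0, 0, 41069458, 0, 0, ⟨0, 0⟩, 0⟩, 4648767, 0⟩ 0 0) (.cut .l 191227 (.pos 95 .pp ⟨⟨0, 0, 0, 0, 0, 0, 40686964, 0, 0, ⟨0, 0⟩, 0⟩, 4671530, 0⟩ 0 0) (.cut .v 27787264 (.cut .s 8388608 (.pos 97 .pp ⟨⟨0, 0, 0, 0,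 0, 0, 39239399, 0, 0, ⟨0, 0⟩, 0⟩, 4429616, 0⟩ 0 0) (.pos 97 .pp ⟨⟨0, 0, 0, 0, 0, 0, 34123815, 0, 0, ⟨0, 0⟩, 0⟩, 4679498, 0⟩ 0 0)) (.cut .s 8388608 (.void 98 ⟨⟨0, 0, 0, 0, 0, 0, 100000, 0, 0, ⟨0, 0⟩, 0⟩, 0, 0⟩ 0 0) (.cut .l 192745 (.pos 98 .pp ⟨⟨0, 0, 0, 0, 0, 0, 38704329, 0, 0, ⟨0, 0⟩, 0⟩, 4966769, 0⟩ 0 0) (.cut .d 1771603 (.cut .l 193504 (.pos 98 .pp ⟨⟨0, 0, 0, 0, 0, 0, 36227775, 0, 0, ⟨0, 0⟩, 0⟩, 5094825, 0⟩ 0 0) (.cut .v 28049408 (.cut .s 8421376 (.cut .d 1736171 (.cut .s 8404992 (.pos 101 .pp ⟨⟨0, 0, 0, 0, 0, 0, 35556463, 0, 0, ⟨0, 0⟩, 0⟩, 4949645, 0⟩ 0 0) (.pos 101 .pp ⟨⟨0, 0, 0, 0, 0, 0, 33304586, 0, 0, ⟨0, 0⟩, 0⟩, 5044541,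 0⟩ 0 0)) (.pos 101 .pp ⟨⟨0, 0, 0, 0, 0, 0, 35621707, 0, 0, ⟨0, 0⟩, 0⟩, 4860861, 0⟩ 0 0)) (.pos 101 .pp ⟨⟨0, 0, 0, 0, 0, 0, 629433, 0, 0, ⟨0, 0⟩, 0⟩, 5070740, 0⟩ 0 0)) (.cut .s 8421376 (.pos 102 .pp ⟨⟨0, 0, 0, 0, 0, 0, 37098857, 0, 0, ⟨0, 0⟩, 0⟩, 5070740, 0⟩ 0 0) (.cut .s 8437760 (.cut .d 1736171 (.pos 102 .pp ⟨⟨0, 0, 0, 0, 0, 0, 0, 0, 0, ⟨0, 0⟩, 0⟩, 13119818, 0⟩ 0 0) (.cut .s 8429568 (.pos 102 .pp ⟨⟨0, 0, 0, 0, 0, 0, 36540952, 0, 0, ⟨0, 0⟩, 0⟩, 5080268, 0⟩ 0 0) (.pos 102 .pp ⟨⟨0, 0, 0, 0, 0, 0, 34453511, 0, 0, ⟨0, 0⟩, 0⟩, 5161935, 0⟩ 0 0))) (.pos 102 .pp ⟨⟨0, 0, 0, 0, 0, 0, 33114358, 0, 0, ⟨0, 0⟩, 0⟩, 5261012, 0⟩ 0 0))))) (.cut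 .s 8421376 (.pos 98 .pp ⟨⟨0, 0, 0, 0, 0, 0, 118522325, 0, 0, ⟨0, 0⟩, 0⟩, 0, 0⟩ 0 0) (.pos 98 .pp ⟨⟨0, 0, 0, 0, 0, 0, 37891571, 0, 0, ⟨0, 0⟩, 0⟩, 4876292, 0⟩ 0 0)))))))) (.pos 95 .pp ⟨⟨0, 0, 0, 0, 0, 0, 63495325, 0, 0, ⟨0, 0⟩, 0⟩, 0, 0⟩ 0 0)) (.pos 95 .pp ⟨⟨0, 0, 0, 0, 0, 0, 641340, 0, 0, ⟨0, 0⟩, 0⟩, 5126584, 0⟩ 0 0)) (.cut .l 188192 (.pos 96 .pp ⟨⟨0, 0, 0, 0, 0, 0, 44680633, 0, 0, ⟨0, 0⟩, 0⟩, 5482193, 0⟩ 0 0) (.cut .s 8454144 (.cut .d 1842467 (.cut .d 1771603 (.pos 96 .pp ⟨⟨0, 0, 0, 0, 0, 0, 0, 0, 0, ⟨0, 0⟩, 0⟩, 13654776, 0⟩ 0 0) (.cut .s 8388608 (.void 96 ⟨⟨0, 0, 0, 0, 0, 0, 100000, 0, 0, ⟨0, 0⟩, 0⟩, 0, 0⟩ 0 0) (.cut .v 28835840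 (.cut .s 8421376 (.void 107 ⟨⟨0, 0, 0, 0, 0, 0, 100000, 0, 0, ⟨0, 0⟩, 0⟩, 0, 0⟩ 0 0) (.cut .s 8437760 (.void 107 ⟨⟨0, 0, 0, 0, 0, 0, 100000, 0, 0, ⟨0, 0⟩, 0⟩, 0, 0⟩ 0 0) (.cut .s 8445952 (.pos 107 .pp ⟨⟨0, 0, 0, 0, 0, 0, 39853195, 0, 0, ⟨0, 0⟩, 0⟩, 5140314, 0⟩ 0 0) (.cut .v 28573696 (.pos 109 .pp ⟨⟨0, 0, 0, 0, 0, 0, 38243923, 0, 0, ⟨0, 0⟩, 0⟩, 5167553, 0⟩ 0 0) (.void 110 ⟨⟨0, 0, 0, 0, 0, 0, 100000, 0, 0, ⟨0, 0⟩, 0⟩, 0, 0⟩ 0 0))))) (.void 108 ⟨⟨0, 0, 0, 0, 0, 0, 0, 0, 0, ⟨0, 0⟩, 0⟩, 100000, 0⟩ 0 0)))) (.pos 96 .pp ⟨⟨0, 0, 0, 0, 0, 0, 128832587, 0, 0, ⟨0, 0⟩, 0⟩, 0, 0⟩ 0 0)) (.cut .d 1842467 (.cut .v 28835840 (.cut .d 1771603 (.pos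 107 .pp ⟨⟨0, 0, 0, 0, 0, 0, 0, 0, 0, ⟨0, 0⟩, 0⟩, 7523467, 0⟩ 0 0) (.cut .s 8519680 (.cut .s 8486912 (.cut .v 28573696 (.cut .d 1807035 (.pos 109 .pp ⟨⟨0, 0, 0, 0, 0, 0, 35254942, 0, 0, ⟨0, 0⟩, 0⟩, 5300788, 0⟩ 0 0) (.pos 109 .pp ⟨⟨0, 0, 0, 0, 0, 0, 37661496, 0, 0, ⟨0, 0⟩, 0⟩, 5157680, 0⟩ 0 0)) (.pos 110 .pp ⟨⟨0, 0, 0, 0, 0, 0, 38305885, 0, 0, ⟨0, 0⟩, 0⟩, 5418770, 0⟩ 0 0)) (.pos 107 .pp ⟨⟨0, 0, 0, 0, 0, 0, 33365601, 0, 0, ⟨0, 0⟩, 0⟩, 5529594, 0⟩ 0 0)) (.pos 107 .pp ⟨⟨0, 0, 0, 0, 0, 0, 511528, 0, 0, ⟨0, 0⟩, 0⟩, 5746260, 0⟩ 0 0))) (.pos 108 .pp ⟨⟨0, 0, 0, 0, 0, 0, 0, 0, 0, ⟨0, 0⟩, 0⟩, 13808191, 0⟩ 0 0)) (.cut .v 28835840 (.pos 107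 .pp ⟨⟨0, 0, 0, 0, 0, 0, 39197248, 0, 0, ⟨0, 0⟩, 0⟩, 5038008, 0⟩ 0 0) (.cut .s 8519680 (.cut .d 1913331 (.pos 108 .pp ⟨⟨0, 0, 0, 0, 0, 0, 41698895, 0, 0, ⟨0, 0⟩, 0⟩, 5471311, 0⟩ 0 0) (.pos 108 .pp ⟨⟨0, 0, 0, 0, 0, 0, 133887553, 0, 0, ⟨0, 0⟩, 0⟩, 0, 0⟩ 0 0)) (.pos 108 .pp ⟨⟨0, 0, 0, 0, 0, 0, 37680533, 0, 0, ⟨0, 0⟩, 0⟩, 5605902, 0⟩ 0 0))))))))))) (.pos 86 .pp ⟨⟨0, 0, 0, 0, 0, 0, 73778649, 0, 0, ⟨0, 0⟩, 0⟩, 0, 0⟩ 0 0)))) (.cut .d 1700739 (.void 84 ⟨⟨0, 0, 0, 0, 0, 0, 0, 0, 0, ⟨0, 0⟩, 0⟩, 100000, 0⟩ 0 0) (.cut .v 31457280 (.cut .v 30408704 (.cut .d 1984195 (.cut .d 1842467 (.void 117 ⟨⟨0, 0, 0, 0, 0, 0, 0, 0, 0, ⟨0, 0⟩, 0⟩, 100000,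 0⟩ 0 0) (.cut .d 1913331 (.pos 117 .pp ⟨⟨0, 0, 0, 0, 0, 0, 0, 0, 0, ⟨0, 0⟩, 0⟩, 15894718, 0⟩ 0 0) (.cut .d 1948763 (.pos 117 .pp ⟨⟨0, 0, 0, 0, 0, 0, 45354292, 0, 0, ⟨0, 0⟩, 0⟩, 5862896, 0⟩ 0 0) (.pos 117 .pp ⟨⟨0, 0, 0, 0, 0, 0, 48217692, 0, 0, ⟨0, 0⟩, 0⟩, 5647859, 0⟩ 0 0)))) (.pos 117 .pp ⟨⟨0, 0, 0, 0, 0, 0, 61578461, 0, 0, ⟨0, 0⟩, 0⟩, 4834124, 0⟩ 0 0)) (.void 118 ⟨⟨0, 0, 0, 0, 0, 0, 100000, 0, 0, ⟨0, 0⟩, 0⟩, 0, 0⟩ 0 0)) (.void 116 ⟨⟨0, 0, 0, 0, 0, 0, 100000, 0, 0, ⟨0, 0⟩, 0⟩, 0, 0⟩ 0 0)))))) (.pos 24 .pp ⟨⟨0, 0, 0, 0, 0, 0, 132932635, 0, 0, ⟨0, 0⟩, 0⟩, 0, 0⟩ 0 0))) (.void 22 ⟨⟨0, 0, 0, 0, 0, 0, 0, 0, 0, ⟨0, 0⟩, 0⟩, 0, 100000⟩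 0 0)) (.void 22 ⟨⟨0, 0, 0, 0, 0, 0, 0, 0, 0, ⟨0, 0⟩, 0⟩, 0, 100000⟩ 0 0)))),
    by decide +kernel⟩

def covers10 : cell.Covers Vale.Agent.P237.Petty.Cor.Grid.N19.table row10.1 :=
  ⟨(.cut .d 0 (.cut .v 16777216 (.cut .d (-8388608) (.void 1 ⟨⟨0, 0, 0, 0, 0, 100000, 0, 0, 0, ⟨0, 0⟩, 0⟩, 0, 0⟩ 0 0) (.cut .d (-4194304) (.void 1 ⟨⟨0, 0, 0, 0, 0, 100000, 0, 0, 0, ⟨0, 0⟩, 0⟩, 0, 0⟩ 0 0) (.cut .d (-2097152) (.void 1 ⟨⟨0, 0, 0, 0, 0, 100000, 0, 0, 0, ⟨0, 0⟩, 0⟩, 0, 0⟩ 0 0) (.cut .d (-1048576) (.void 1 ⟨⟨0, 0, 0, 0, 0, 100000, 0, 0, 0, ⟨0, 0⟩, 0⟩, 0, 0⟩ 0 0) (.cut .d (-524288) (.void 1 ⟨⟨0, 0, 0, 0, 0, 100000, 0, 0, 0, ⟨0, 0⟩, 0⟩, 0, 0⟩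 0 0) (.cut .d (-262144) (.void 1 ⟨⟨0, 0, 0, 0, 0, 100000, 0, 0, 0, ⟨0, 0⟩, 0⟩, 0, 0⟩ 0 0) (.cut .d (-131072) (.void 1 ⟨⟨0, 0, 0, 0, 0, 100000, 0, 0, 0, ⟨0, 0⟩, 0⟩, 0, 0⟩ 0 0) (.cut .d (-65536) (.void 1 ⟨⟨0, 0, 0, 0, 0, 100000, 0, 0, 0, ⟨0, 0⟩, 0⟩, 0, 0⟩ 0 0) (.cut .d (-32768) (.void 1 ⟨⟨0, 0, 0, 0, 0, 100000, 0, 0, 0, ⟨0, 0⟩, 0⟩, 0, 0⟩ 0 0) (.cut .v 8388608 (.cut .v 4194304 (.void 4 ⟨⟨0, 0, 100000, 0, 0, 0, 0, 0, 0, ⟨0, 0⟩, 0⟩, 0, 0⟩ 0 0) (.pos 5 .mm ⟨⟨0, 0, 0, 0, 0, 35198599, 0, 0, 0, ⟨0, 0⟩, 0⟩, 0, 0⟩ 0 0)) (.cut .s 8814592 (.pos 3 .mm ⟨⟨0, 0, 0, 0, 0, 82554970, 0, 0, 0, ⟨0, 0⟩, 0⟩, 0, 0⟩ 0 0) (.pos 3 .mm ⟨⟨0, 0, 0, 0, 0, 90953879,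 0, 0, 0, ⟨0, 0⟩, 0⟩, 0, 0⟩ 0 0)))))))))))) (.cut .v 33554432 (.cut .v 25165824 (.cut .d (-8388608) (.void 23 ⟨⟨0, 0, 0, 0, 0, 100000, 0, 0, 0, ⟨0, 0⟩, 0⟩, 0, 0⟩ 0 0) (.cut .v 20971520 (.cut .d (-4194304) (.void 25 ⟨⟨0, 0, 0, 0, 0, 100000, 0, 0, 0, ⟨0, 0⟩, 0⟩, 0, 0⟩ 0 0) (.cut .d (-2097152) (.void 25 ⟨⟨0, 0, 0, 0, 0, 100000, 0, 0, 0, ⟨0, 0⟩, 0⟩, 0, 0⟩ 0 0) (.cut .d (-1048576) (.void 25 ⟨⟨0, 0, 0, 0, 0, 100000, 0, 0, 0, ⟨0, 0⟩, 0⟩, 0, 0⟩ 0 0) (.cut .d (-524288) (.void 25 ⟨⟨0, 0, 0, 0, 0, 100000, 0, 0, 0, ⟨0, 0⟩, 0⟩, 0, 0⟩ 0 0) (.cut .v 18874368 (.cut .d (-262144) (.void 27 ⟨⟨0, 0, 0, 0, 0, 100000, 0, 0, 0, ⟨0, 0⟩, 0⟩, 0, 0⟩ 0 0)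 (.cut .d (-131072) (.void 27 ⟨⟨0, 0, 0, 0, 0, 100000, 0, 0, 0, ⟨0, 0⟩, 0⟩, 0, 0⟩ 0 0) (.cut .d (-65536) (.void 27 ⟨⟨0, 0, 0, 0, 0, 100000, 0, 0, 0, ⟨0, 0⟩, 0⟩, 0, 0⟩ 0 0) (.cut .d (-32768) (.void 27 ⟨⟨0, 0, 0, 0, 0, 100000, 0, 0, 0, ⟨0, 0⟩, 0⟩, 0, 0⟩ 0 0) (.cut .v 17825792 (.cut .s 8814592 (.pos 29 .mp ⟨⟨47034963, 0, 0, 0, 0, 27436348, 0, 0, 0, ⟨0, 0⟩, 0⟩, 0, 0⟩ 0 0) (.cut .v 17301504 (.cut .v 17039360 (.cut .s 8929280 (.pos 33 .mp ⟨⟨45827735, 0, 0, 0, 0, 33793027, 0, 0, 0, ⟨0, 0⟩, 0⟩, 0, 0⟩ 0 0) (.cut .d (-16384) (.pos 33 .mp ⟨⟨49580975, 0, 0, 0, 0, 35816076, 0, 0, 0, ⟨0, 0⟩, 0⟩, 0, 0⟩ 0 0) (.cut .s 8986624 (.pos 33 .mp ⟨⟨47088785,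 0, 0, 0, 0, 35268213, 0, 0, 0, ⟨0, 0⟩, 0⟩, 0, 0⟩ 0 0) (.cut .s 9015296 (.pos 33 .mp ⟨⟨48021709, 0, 0, 0, 0, 35806867, 0, 0, 0, ⟨0, 0⟩, 0⟩, 0, 0⟩ 0 0) (.cut .s 9029632 (.pos 33 .mp ⟨⟨48481706, 0, 0, 0, 0, 36131697, 0, 0, 0, ⟨0, 0⟩, 0⟩, 0, 0⟩ 0 0) (.cut .s 9036800 (.pos 33 .mp ⟨⟨48711158, 0, 0, 0, 0, 36305727, 0, 0, 0, ⟨0, 0⟩, 0⟩, 0, 0⟩ 0 0) (.pos 33 .mp ⟨⟨48980727, 0, 0, 0, 0, 36255011, 0, 0, 0, ⟨0, 0⟩, 0⟩, 0, 0⟩ 0 0))))))) (.void 34 ⟨⟨100000, 0, 0, 0, 0, 0, 0, 0, 0, ⟨0, 0⟩, 0⟩, 0, 0⟩ 0 0)) (.void 32 ⟨⟨100000, 0, 0, 0, 0, 0, 0, 0, 0, ⟨0, 0⟩, 0⟩, 0, 0⟩ 0 0))) (.void 30 ⟨⟨100000, 0, 0, 0, 0, 0, 0, 0, 0, ⟨0, 0⟩, 0⟩, 0, 0⟩ 0 0))))))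 (.void 28 ⟨⟨100000, 0, 0, 0, 0, 0, 0, 0, 0, ⟨0, 0⟩, 0⟩, 0, 0⟩ 0 0)))))) (.void 26 ⟨⟨100000, 0, 0, 0, 0, 0, 0, 0, 0, ⟨0, 0⟩, 0⟩, 0, 0⟩ 0 0))) (.void 24 ⟨⟨100000, 0, 0, 0, 0, 0, 0, 0, 0, ⟨0, 0⟩, 0⟩, 0, 0⟩ 0 0)) (.void 123 ⟨⟨100000, 0, 0, 0, 0, 0, 0, 0, 0, ⟨0, 0⟩, 0⟩, 0, 0⟩ 0 0))) (.cut .v 16777216 (.cut .d 8004398 (.cut .v 8388608 (.cut .v 4194304 (.void 4 ⟨⟨0, 0, 66667, 0, 0, 0, 0, 0, 0, ⟨0, 0⟩, 0⟩, 0, 33333⟩ 0 0) (.pos 5 .pm ⟨⟨0, 0, 0, 0, 0, 0, 0, 0, 0, ⟨0, 0⟩, 0⟩, 0, 0⟩ 0 0)) (.pos 3 .pm ⟨⟨0, 0, 0, 0, 0, 0, 0, 0, 0, ⟨0, 0⟩, 0⟩, 0, 0⟩ 0 0)) (.void 1 ⟨⟨0, 0, 0, 0, 0, 0, 0, 0, 0, ⟨0, 0⟩, 0⟩, 0, 100000⟩ 0 0)) (.cut .d 8004398 (.cut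 .d 4002199 (.cut .v 33554432 (.cut .v 25165824 (.cut .d 2001099 (.cut .v 20971520 (.cut .d 1000549 (.cut .d 500274 (.cut .v 18874368 (.cut .s 8814592 (.pos 27 .pp ⟨⟨31601291, 0, 0, 0, 0, 0, 0, 0, 0, ⟨0, 0⟩, 0⟩, 2294463, 0⟩ 0 0) (.pos 27 .pp ⟨⟨31877113, 0, 0, 0, 0, 0, 0, 0, 0, ⟨0, 0⟩, 0⟩, 3076087, 0⟩ 0 0)) (.pos 28 .pp ⟨⟨83570253, 0, 0, 0, 0, 0, 0, 0, 0, ⟨0, 0⟩, 0⟩, 0, 0⟩ 0 0)) (.pos 25 .pp ⟨⟨46568520, 0, 0, 0, 0, 0, 769878, 0, 0, ⟨0, 0⟩, 0⟩, 0, 0⟩ 0 0)) (.pos 25 .pp ⟨⟨0, 0, 0, 0, 0, 0, 0, 0, 0, ⟨0, 0⟩, 0⟩, 0, 730390⟩ 0 0)) (.cut .d 1000549 (.cut .d 500274 (.pos 26 .pp ⟨⟨135935016, 0, 0, 0, 0, 0, 0, 0, 0, ⟨0, 0⟩, 0⟩, 0, 0⟩ 0 0)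 (.pos 26 .pp ⟨⟨0, 0, 0, 0, 0, 0, 176979, 0, 0, ⟨0, 0⟩, 0⟩, 6862456, 0⟩ 0 0)) (.pos 26 .pp ⟨⟨0, 0, 0, 0, 0, 0, 683616, 0, 0, ⟨0, 0⟩, 0⟩, 4993468, 0⟩ 0 0))) (.pos 23 .pp ⟨⟨0, 0, 0, 0, 0, 0, 0, 0, 0, ⟨0, 0⟩, 0⟩, 0, 788821⟩ 0 0)) (.cut .d 2001099 (.cut .d 1000549 (.void 24 ⟨⟨0, 0, 0, 0, 0, 0, 0, 0, 0, ⟨0, 0⟩, 0⟩, 100000, 0⟩ 0 0) (.cut .l 97131 (.pos 24 .pp ⟨⟨0, 0, 0, 0, 0, 0, 70713506, 0, 0, ⟨0, 0⟩, 0⟩, 7612857, 0⟩ 0 0) (.cut .v 29360128 (.cut .d 1500824 (.pos 83 .pp ⟨⟨0, 0, 0, 0, 0, 0, 0, 0, 0, ⟨0, 0⟩, 0⟩, 7771133, 0⟩ 0 0) (.pos 83 .pp ⟨⟨0, 0, 0, 0, 0, 0, 371574, 0, 0, ⟨0, 0⟩, 0⟩, 6441586, 0⟩ 0 0)) (.cut .v 31457280 (.cut .v 30408704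 (.pos 117 .pp ⟨⟨0, 0, 0, 0, 0, 0, 2048912, 0, 0, ⟨0, 0⟩, 0⟩, 8207461, 0⟩ 0 0) (.pos 118 .pp ⟨⟨0, 0, 0, 0, 0, 0, 0, 0, 0, ⟨0, 0⟩, 0⟩, 15596033, 0⟩ 0 0)) (.void 116 ⟨⟨0, 0, 0, 0, 0, 0, 0, 0, 0, ⟨0, 0⟩, 0⟩, 100000, 0⟩ 0 0))))) (.cut .v 29360128 (.pos 83 .pp ⟨⟨0, 0, 0, 0, 0, 0, 2266431, 0, 0, ⟨0, 0⟩, 0⟩, 0, 0⟩ 0 0) (.cut .d 3001649 (.cut .d 2501374 (.cut .s 8814592 (.cut .l 97131 (.void 84 ⟨⟨0, 0, 0, 0, 0, 0, 0, 0, 0, ⟨0, 0⟩, 0⟩, 2526, 97474⟩ 0 0) (.cut .l 145697 (.void 84 ⟨⟨0, 0, 0, 0, 0, 0, 41773, 0, 0, ⟨0, 0⟩, 0⟩, 0, 58227⟩ 0 0) (.cut .l 169980 (.pos 84 .pp ⟨⟨0, 0, 0, 0, 0, 0, 69748122, 0, 0, ⟨0, 0⟩, 0⟩, 6064935, 0⟩ 0 0) (.cut .l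 182121 (.pos 84 .pp ⟨⟨0, 0, 0, 0, 0, 0, 67475818, 0, 0, ⟨0, 0⟩, 0⟩, 6187526, 0⟩ 0 0) (.cut .v 31457280 (.cut .v 30408704 (.pos 117 .pp ⟨⟨0, 0, 0, 0, 0, 0, 45858759, 0, 0, ⟨0, 0⟩, 0⟩, 5527500, 0⟩ 0 0) (.cut .d 2251236 (.pos 118 .pp ⟨⟨0, 0, 0, 0, 0, 0, 50444302, 0, 0, ⟨0, 0⟩, 0⟩, 6473880, 0⟩ 0 0) (.pos 118 .pp ⟨⟨0, 0, 0, 0, 0, 0, 94301841, 0, 0, ⟨0, 0⟩, 0⟩, 0, 0⟩ 0 0))) (.cut .d 2251236 (.pos 116 .pp ⟨⟨0, 0, 0, 0, 0, 0, 54572046, 0, 0, ⟨0, 0⟩, 0⟩, 7670168, 0⟩ 0 0) (.pos 116 .pp ⟨⟨0, 0, 0, 0, 0, 0, 66967668, 0, 0, ⟨0, 0⟩, 0⟩, 6523937, 0⟩ 0 0))))))) (.pos 84 .pp ⟨⟨0, 0, 0, 0, 0, 0, 5150467, 0, 0, ⟨0, 0⟩, 0⟩, 8635270, 0⟩ 0 0)) (.pos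 84 .pp ⟨⟨0, 0, 0, 0, 0, 0, 117880288, 0, 0, ⟨0, 0⟩, 0⟩, 0, 0⟩ 0 0)) (.pos 84 .pp ⟨⟨0, 0, 0, 0, 0, 0, 0, 0, 0, ⟨0, 0⟩, 0⟩, 0, 71106607⟩ 0 0))))) (.cut .d 2001099 (.void 123 ⟨⟨0, 0, 0, 0, 0, 0, 0, 0, 0, ⟨0, 0⟩, 0⟩, 100000, 0⟩ 0 0) (.cut .v 50331648 (.cut .v 41943040 (.cut .d 3001649 (.cut .d 2501374 (.pos 130 .pp ⟨⟨0, 0, 0, 0, 0, 0, 71707881, 0, 0, ⟨0, 0⟩, 0⟩, 11442783, 0⟩ 0 0) (.cut .v 37748736 (.pos 132 .pp ⟨⟨0, 0, 0, 0, 0, 0, 90624446, 0, 0, ⟨0, 0⟩, 0⟩, 7602536, 0⟩ 0 0) (.void 133 ⟨⟨0, 0, 0, 0, 0, 0, 0, 0, 0, ⟨0, 0⟩, 0⟩, 100000, 0⟩ 0 0))) (.pos 130 .pp ⟨⟨0, 0, 0, 0, 0, 0, 256760605, 0, 0, ⟨0, 0⟩, 0⟩, 0, 0⟩ 0 0)) (.void 131 ⟨⟨0,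 0, 0, 0, 0, 0, 100000, 0, 0, ⟨0, 0⟩, 0⟩, 0, 0⟩ 0 0)) (.void 129 ⟨⟨0, 0, 0, 0, 0, 0, 0, 0, 0, ⟨0, 0⟩, 0⟩, 100000, 0⟩ 0 0)))) (.void 122 ⟨⟨0, 0, 0, 0, 0, 0, 54513, 0, 0, ⟨0, 0⟩, 0⟩, 0, 45487⟩ 0 0)) (.void 122 ⟨⟨0, 0, 0, 0, 0, 0, 0, 0, 0, ⟨0, 0⟩, 0⟩, 3917, 96083⟩ 0 0)))),
    by decide +kernel⟩

def covers11 : cell.Covers Vale.Agent.P237.Petty.Cor.Grid.N19.table row11.1 :=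
  ⟨(.cut .d 0 (.cut .v 16777216 (.cut .d (-8388608) (.void 1 ⟨⟨0, 0, 0, 0, 0, 100000, 0, 0, 0, ⟨0, 0⟩, 0⟩, 0, 0⟩ 0 0) (.cut .d (-4194304) (.void 1 ⟨⟨0, 0, 0, 0, 0, 100000, 0, 0, 0, ⟨0, 0⟩, 0⟩, 0, 0⟩ 0 0) (.cut .d (-2097152) (.void 1 ⟨⟨0, 0, 0, 0, 0, 100000, 0, 0, 0, ⟨0, 0⟩, 0⟩, 0, 0⟩ 0 0) (.cut .d (-1048576) (.void 1 ⟨⟨0, 0, 0, 0, 0, 100000, 0, 0, 0, ⟨0, 0⟩, 0⟩, 0, 0⟩ 0 0) (.cut .d (-524288) (.void 1 ⟨⟨0, 0, 0, 0, 0, 100000, 0, 0, 0, ⟨0, 0⟩, 0⟩, 0, 0⟩ 0 0) (.cut .d (-262144) (.void 1 ⟨⟨0, 0, 0, 0, 0, 100000, 0, 0, 0, ⟨0, 0⟩, 0⟩, 0, 0⟩ 0 0) (.cut .d (-131072) (.void 1 ⟨⟨0, 0, 0, 0, 0, 100000, 0, 0, 0, ⟨0, 0⟩, 0⟩, 0, 0⟩ 0 0) (.cut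 .d (-65536) (.void 1 ⟨⟨0, 0, 0, 0, 0, 100000, 0, 0, 0, ⟨0, 0⟩, 0⟩, 0, 0⟩ 0 0) (.cut .d (-32768) (.void 1 ⟨⟨0, 0, 0, 0, 0, 100000, 0, 0, 0, ⟨0, 0⟩, 0⟩, 0, 0⟩ 0 0) (.cut .v 8388608 (.cut .v 4194304 (.void 4 ⟨⟨0, 0, 100000, 0, 0, 0, 0, 0, 0, ⟨0, 0⟩, 0⟩, 0, 0⟩ 0 0) (.pos 5 .mm ⟨⟨0, 0, 175388, 0, 0, 45890685, 0, 0, 0, ⟨0, 0⟩, 0⟩, 0, 0⟩ 0 0)) (.cut .d (-16384) (.pos 3 .mm ⟨⟨0, 0, 0, 0, 0, 128131895, 0, 0, 0, ⟨0, 0⟩, 0⟩, 0, 0⟩ 0 0) (.cut .v 12582912 (.pos 8 .mm ⟨⟨0, 0, 0, 0, 0, 66488397, 0, 0, 0, ⟨0, 0⟩, 0⟩, 0, 0⟩ 0 0) (.cut .v 14680064 (.pos 12 .mm ⟨⟨0, 0, 0, 0, 0, 77466336, 0, 0, 0, ⟨0, 0⟩, 0⟩, 0, 0⟩ 0 0) (.cut .v 15728640 (.pos 20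 .mm ⟨⟨0, 0, 0, 0, 0, 83141685, 0, 0, 0, ⟨0, 0⟩, 0⟩, 0, 0⟩ 0 0) (.cut .v 16252928 (.pos 37 .mm ⟨⟨0, 0, 0, 0, 0, 86025954, 0, 0, 0, ⟨0, 0⟩, 0⟩, 0, 0⟩ 0 0) (.cut .v 16515072 (.pos 41 .mm ⟨⟨0, 0, 0, 0, 0, 87718710, 0, 0, 0, ⟨0, 0⟩, 0⟩, 0, 0⟩ 0 0) (.cut .v 16646144 (.pos 43 .mm ⟨⟨0, 0, 0, 0, 0, 102759690, 0, 0, 0, ⟨0, 0⟩, 0⟩, 0, 0⟩ 0 0) (.cut .v 16711680 (.pos 49 .mm ⟨⟨0, 0, 0, 0, 0, 107214627, 0, 0, 0, ⟨0, 0⟩, 0⟩, 0, 0⟩ 0 0) (.cut .v 16744448 (.pos 53 .mm ⟨⟨0, 0, 0, 0, 0, 109458202, 0, 0, 0, ⟨0, 0⟩, 0⟩, 0, 0⟩ 0 0) (.cut .s 9306112 (.cut .s 9175040 (.pos 54 .mm ⟨⟨0, 0, 0, 0, 0, 99526228, 0, 0, 0, ⟨0, 0⟩, 0⟩, 0, 0⟩ 0 0) (.pos 54 .mm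 ⟨⟨0, 0, 0, 0, 0, 108191537, 0, 0, 0, ⟨0, 0⟩, 0⟩, 0, 0⟩ 0 0)) (.cut .s 9437184 (.pos 54 .mm ⟨⟨0, 0, 0, 0, 0, 117967831, 0, 0, 0, ⟨0, 0⟩, 0⟩, 0, 0⟩ 0 0) (.pos 54 .mm ⟨⟨0, 0, 0, 0, 0, 128891421, 0, 0, 0, ⟨0, 0⟩, 0⟩, 0, 0⟩ 0 0)))))))))))))))))))))) (.cut .v 33554432 (.cut .v 25165824 (.cut .d (-8388608) (.void 23 ⟨⟨0, 0, 0, 0, 0, 100000, 0, 0, 0, ⟨0, 0⟩, 0⟩, 0, 0⟩ 0 0) (.cut .v 20971520 (.cut .d (-4194304) (.void 25 ⟨⟨0, 0, 0, 0, 0, 100000, 0, 0, 0, ⟨0, 0⟩, 0⟩, 0, 0⟩ 0 0) (.cut .v 18874368 (.cut .d (-2097152) (.void 27 ⟨⟨100000, 0, 0, 0, 0, 0, 0, 0, 0, ⟨0, 0⟩, 0⟩, 0, 0⟩ 0 0) (.cut .d (-1048576) (.void 27 ⟨⟨100000, 0, 0, 0, 0, 0, 0,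 0, 0, ⟨0, 0⟩, 0⟩, 0, 0⟩ 0 0) (.cut .d (-524288) (.void 27 ⟨⟨100000, 0, 0, 0, 0, 0, 0, 0, 0, ⟨0, 0⟩, 0⟩, 0, 0⟩ 0 0) (.cut .d (-262144) (.void 27 ⟨⟨100000, 0, 0, 0, 0, 0, 0, 0, 0, ⟨0, 0⟩, 0⟩, 0, 0⟩ 0 0) (.cut .d (-131072) (.void 27 ⟨⟨100000, 0, 0, 0, 0, 0, 0, 0, 0, ⟨0, 0⟩, 0⟩, 0, 0⟩ 0 0) (.cut .d (-65536) (.void 27 ⟨⟨0, 0, 0, 0, 0, 100000, 0, 0, 0, ⟨0, 0⟩, 0⟩, 0, 0⟩ 0 0) (.cut .d (-32768) (.void 27 ⟨⟨0, 0, 0, 0, 0, 100000, 0, 0, 0, ⟨0, 0⟩, 0⟩, 0, 0⟩ 0 0) (.cut .v 17825792 (.cut .v 17301504 (.cut .v 17039360 (.cut .v 16908288 (.cut .s 9306112 (.cut .v 16842752 (.cut .s 9175040 (.cut .d (-16384) (.cut .d (-24576) (.void 45 ⟨⟨0, 0,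 0, 0, 0, 100000, 0, 0, 0, ⟨0, 0⟩, 0⟩, 0, 0⟩ 0 0) (.cut .l 97131 (.void 45 ⟨⟨0, 0, 0, 0, 0, 100000, 0, 0, 0, ⟨0, 0⟩, 0⟩, 0, 0⟩ 0 0) (.cut .l 145697 (.void 45 ⟨⟨0, 0, 0, 0, 0, 100000, 0, 0, 0, ⟨0, 0⟩, 0⟩, 0, 0⟩ 0 0) (.cut .s 9109504 (.cut .s 9076736 (.pos 45 .mp ⟨⟨47062171, 0, 0, 0, 0, 40541905, 0, 0, 0, ⟨0, 0⟩, 0⟩, 0, 0⟩ 0 0) (.pos 45 .mp ⟨⟨48055641, 0, 0, 0, 0, 41276513, 0, 0, 0, ⟨0, 0⟩, 0⟩, 0, 0⟩ 0 0)) (.cut .s 9142272 (.pos 45 .mp ⟨⟨49081749, 0, 0, 0, 0, 42018880, 0, 0, 0, ⟨0, 0⟩, 0⟩, 0, 0⟩ 0 0) (.pos 45 .mp ⟨⟨50141521, 0, 0, 0, 0, 42766954, 0, 0, 0, ⟨0, 0⟩, 0⟩, 0, 0⟩ 0 0)))))) (.cut .v 16809984 (.cut .s 9109504 (.cut .s 9076736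 (.cut .l 97131 (.cut .d (-8192) (.pos 47 .mp ⟨⟨46730972, 0, 0, 0, 0, 41518193, 0, 0, 0, ⟨0, 0⟩, 0⟩, 0, 0⟩ 0 0) (.cut .v 16793600 (.cut .l 48565 (.cut .d (-4096) (.pos 51 .mp ⟨⟨46710396, 0, 0, 0, 0, 41438049, 0, 0, 0, ⟨0, 0⟩, 0⟩, 0, 0⟩ 0 0) (.cut .v 16785408 (.cut .s 9060352 (.pos 65 .mp ⟨⟨47425950, 0, 0, 0, 0, 38614049, 0, 0, 0, ⟨0, 0⟩, 0⟩, 0, 0⟩ 0 0) (.cut .s 9068544 (.pos 65 .mp ⟨⟨48523606, 0, 0, 0, 0, 38031858, 0, 0, 0, ⟨0, 0⟩, 0⟩, 0, 0⟩ 0 0) (.pos 65 .mp ⟨⟨48723968, 0, 0, 0, 0, 38243313, 0, 0, 0, ⟨0, 0⟩, 0⟩, 0, 0⟩ 0 0))) (.pos 66 .mp ⟨⟨78193511, 0, 0, 0, 0, 0, 0, 0, 0, ⟨0, 0⟩, 0⟩, 0, 0⟩ 0 0))) (.pos 51 .mp ⟨⟨47931385, 0, 0,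 0, 0, 37747568, 0, 0, 0, ⟨0, 0⟩, 0⟩, 0, 0⟩ 0 0)) (.pos 52 .mp ⟨⟨78236247, 0, 0, 0, 0, 0, 0, 0, 0, ⟨0, 0⟩, 0⟩, 0, 0⟩ 0 0))) (.pos 47 .mp ⟨⟨48116926, 0, 0, 0, 0, 37609292, 0, 0, 0, ⟨0, 0⟩, 0⟩, 0, 0⟩ 0 0)) (.cut .s 9093120 (.cut .s 9084928 (.pos 47 .mp ⟨⟨48876167, 0, 0, 0, 0, 38533290, 0, 0, 0, ⟨0, 0⟩, 0⟩, 0, 0⟩ 0 0) (.pos 47 .mp ⟨⟨49151538, 0, 0, 0, 0, 38664045, 0, 0, 0, ⟨0, 0⟩, 0⟩, 0, 0⟩ 0 0)) (.cut .s 9101312 (.pos 47 .mp ⟨⟨49428407, 0, 0, 0, 0, 38796525, 0, 0, 0, ⟨0, 0⟩, 0⟩, 0, 0⟩ 0 0) (.pos 47 .mp ⟨⟨49706777, 0, 0, 0, 0, 38930727, 0, 0, 0, ⟨0, 0⟩, 0⟩, 0, 0⟩ 0 0)))) (.cut .s 9142272 (.cut .s 9125888 (.cut .s 9117696 (.pos 47 .mp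 ⟨⟨49986653, 0, 0, 0, 0, 39066646, 0, 0, 0, ⟨0, 0⟩, 0⟩, 0, 0⟩ 0 0) (.cut .s 9121792 (.pos 47 .mp ⟨⟨50375271, 0, 0, 0, 0, 38974104, 0, 0, 0, ⟨0, 0⟩, 0⟩, 0, 0⟩ 0 0) (.pos 47 .mp ⟨⟨50484011, 0, 0, 0, 0, 39082667, 0, 0, 0, ⟨0, 0⟩, 0⟩, 0, 0⟩ 0 0))) (.cut .l 97131 (.cut .d (-8192) (.pos 47 .mp ⟨⟨49429695, 0, 0, 0, 0, 41980188, 0, 0, 0, ⟨0, 0⟩, 0⟩, 0, 0⟩ 0 0) (.cut .s 9134080 (.pos 47 .mp ⟨⟨50208310, 0, 0, 0, 0, 39732962, 0, 0, 0, ⟨0, 0⟩, 0⟩, 0, 0⟩ 0 0) (.pos 47 .mp ⟨⟨50489978, 0, 0, 0, 0, 39877565, 0, 0, 0, ⟨0, 0⟩, 0⟩, 0, 0⟩ 0 0))) (.pos 47 .mp ⟨⟨50332109, 0, 0, 0, 0, 39418307, 0, 0, 0, ⟨0, 0⟩, 0⟩, 0, 0⟩ 0 0))) (.cut .s 9158656 (.cut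 .l 97131 (.cut .d (-8192) (.pos 47 .mp ⟨⟨49986958, 0, 0, 0, 0, 42280004, 0, 0, 0, ⟨0, 0⟩, 0⟩, 0, 0⟩ 0 0) (.cut .s 9150464 (.pos 47 .mp ⟨⟨50773143, 0, 0, 0, 0, 40023900, 0, 0, 0, ⟨0, 0⟩, 0⟩, 0, 0⟩ 0 0) (.pos 47 .mp ⟨⟨51057809, 0, 0, 0, 0, 40171963, 0, 0, 0, ⟨0, 0⟩, 0⟩, 0, 0⟩ 0 0))) (.pos 47 .mp ⟨⟨50900848, 0, 0, 0, 0, 39728131, 0, 0, 0, ⟨0, 0⟩, 0⟩, 0, 0⟩ 0 0)) (.cut .l 97131 (.cut .d (-8192) (.pos 47 .mp ⟨⟨50550132, 0, 0, 0, 0, 42589272, 0, 0, 0, ⟨0, 0⟩, 0⟩, 0, 0⟩ 0 0) (.cut .s 9166848 (.pos 47 .mp ⟨⟨51343980, 0, 0, 0, 0, 40321749, 0, 0, 0, ⟨0, 0⟩, 0⟩, 0, 0⟩ 0 0) (.cut .s 9170944 (.pos 47 .mp ⟨⟨51549413, 0, 0, 0, 0, 40490056, 0,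 0, 0, ⟨0, 0⟩, 0⟩, 0, 0⟩ 0 0) (.pos 47 .mp ⟨⟨51682040, 0, 0, 0, 0, 40579646, 0, 0, 0, ⟨0, 0⟩, 0⟩, 0, 0⟩ 0 0)))) (.pos 47 .mp ⟨⟨51475629, 0, 0, 0, 0, 40041601, 0, 0, 0, ⟨0, 0⟩, 0⟩, 0, 0⟩ 0 0))))) (.pos 48 .mp ⟨⟨81947509, 0, 0, 0, 0, 0, 0, 0, 0, ⟨0, 0⟩, 0⟩, 0, 0⟩ 0 0))) (.cut .d (-16384) (.cut .l 97131 (.void 45 ⟨⟨0, 0, 0, 0, 0, 100000, 0, 0, 0, ⟨0, 0⟩, 0⟩, 0, 0⟩ 0 0) (.cut .d (-24576) (.void 45 ⟨⟨0, 0, 0, 0, 0, 100000, 0, 0, 0, ⟨0, 0⟩, 0⟩, 0, 0⟩ 0 0) (.cut .l 145697 (.void 45 ⟨⟨0, 0, 0, 0, 0, 100000, 0, 0, 0, ⟨0, 0⟩, 0⟩, 0, 0⟩ 0 0) (.cut .s 9240576 (.cut .d (-20480) (.pos 45 .mp ⟨⟨52403434, 0, 0, 0, 0, 44844819, 0, 0, 0, ⟨0, 0⟩,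 0⟩, 0, 0⟩ 0 0) (.cut .s 9207808 (.pos 45 .mp ⟨⟨52793064, 0, 0, 0, 0, 40078287, 0, 0, 0, ⟨0, 0⟩, 0⟩, 0, 0⟩ 0 0) (.cut .s 9224192 (.pos 45 .mp ⟨⟨53388902, 0, 0, 0, 0, 41093507, 0, 0, 0, ⟨0, 0⟩, 0⟩, 0, 0⟩ 0 0) (.pos 45 .mp ⟨⟨53990945, 0, 0, 0, 0, 41409719, 0, 0, 0, ⟨0, 0⟩, 0⟩, 0, 0⟩ 0 0)))) (.cut .d (-20480) (.pos 45 .mp ⟨⟨53724783, 0, 0, 0, 0, 71753272, 0, 0, 0, ⟨0, 0⟩, 0⟩, 0, 0⟩ 0 0) (.cut .v 16809984 (.cut .s 9273344 (.pos 47 .mp ⟨⟨53304127, 0, 0, 0, 0, 44470409, 0, 0, 0, ⟨0, 0⟩, 0⟩, 0, 0⟩ 0 0) (.pos 47 .mp ⟨⟨54511000, 0, 0, 0, 0, 45195334, 0, 0, 0, ⟨0, 0⟩, 0⟩, 0, 0⟩ 0 0)) (.pos 48 .mp ⟨⟨74579434, 0, 0, 0, 0, 19583865, 0, 0, 0,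 ⟨0, 0⟩, 0⟩, 0, 0⟩ 0 0))))))) (.cut .v 16809984 (.cut .s 9240576 (.cut .s 9207808 (.cut .s 9191424 (.cut .l 97131 (.cut .d (-8192) (.pos 47 .mp ⟨⟨51119249, 0, 0, 0, 0, 42908071, 0, 0, 0, ⟨0, 0⟩, 0⟩, 0, 0⟩ 0 0) (.cut .v 16793600 (.cut .l 48565 (.cut .d (-4096) (.pos 51 .mp ⟨⟨51086864, 0, 0, 0, 0, 42835615, 0, 0, 0, ⟨0, 0⟩, 0⟩, 0, 0⟩ 0 0) (.cut .s 9183232 (.pos 51 .mp ⟨⟨51621123, 0, 0, 0, 0, 40980890, 0, 0, 0, ⟨0, 0⟩, 0⟩, 0, 0⟩ 0 0) (.pos 51 .mp ⟨⟨51918853, 0, 0, 0, 0, 41125200, 0, 0, 0, ⟨0, 0⟩, 0⟩, 0, 0⟩ 0 0))) (.pos 51 .mp ⟨⟨51841240, 0, 0, 0, 0, 40531012, 0, 0, 0, ⟨0, 0⟩, 0⟩, 0, 0⟩ 0 0)) (.pos 52 .mp ⟨⟨83415100, 0, 0, 0, 0, 0,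 0, 0, 0, ⟨0, 0⟩, 0⟩, 0, 0⟩ 0 0))) (.pos 47 .mp ⟨⟨52056483, 0, 0, 0, 0, 40358578, 0, 0, 0, ⟨0, 0⟩, 0⟩, 0, 0⟩ 0 0)) (.cut .l 97131 (.cut .d (-8192) (.pos 47 .mp ⟨⟨51694341, 0, 0, 0, 0, 43236480, 0, 0, 0, ⟨0, 0⟩, 0⟩, 0, 0⟩ 0 0) (.cut .v 16793600 (.cut .l 48565 (.cut .d (-4096) (.pos 51 .mp ⟨⟨51660387, 0, 0, 0, 0, 43164903, 0, 0, 0, ⟨0, 0⟩, 0⟩, 0, 0⟩ 0 0) (.cut .s 9199616 (.pos 51 .mp ⟨⟨52209073, 0, 0, 0, 0, 41284494, 0, 0, 0, ⟨0, 0⟩, 0⟩, 0, 0⟩ 0 0) (.pos 51 .mp ⟨⟨52500804, 0, 0, 0, 0, 41445510, 0, 0, 0, ⟨0, 0⟩, 0⟩, 0, 0⟩ 0 0))) (.pos 51 .mp ⟨⟨52423678, 0, 0, 0, 0, 40856565, 0, 0, 0, ⟨0, 0⟩, 0⟩, 0, 0⟩ 0 0)) (.pos 52 .mp ⟨⟨84190932,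 0, 0, 0, 0, 0, 0, 0, 0, ⟨0, 0⟩, 0⟩, 0, 0⟩ 0 0))) (.pos 47 .mp ⟨⟨52643443, 0, 0, 0, 0, 40678925, 0, 0, 0, ⟨0, 0⟩, 0⟩, 0, 0⟩ 0 0))) (.cut .s 9224192 (.cut .l 97131 (.cut .d (-8192) (.pos 47 .mp ⟨⟨52275440, 0, 0, 0, 0, 43574577, 0, 0, 0, ⟨0, 0⟩, 0⟩, 0, 0⟩ 0 0) (.cut .v 16793600 (.cut .l 48565 (.cut .d (-4096) (.pos 51 .mp ⟨⟨52239896, 0, 0, 0, 0, 43503893, 0, 0, 0, ⟨0, 0⟩, 0⟩, 0, 0⟩ 0 0) (.cut .s 9216000 (.pos 51 .mp ⟨⟨52794049, 0, 0, 0, 0, 41608243, 0, 0, 0, ⟨0, 0⟩, 0⟩, 0, 0⟩ 0 0) (.pos 51 .mp ⟨⟨53088813, 0, 0, 0, 0, 41772687, 0, 0, 0, ⟨0, 0⟩, 0⟩, 0, 0⟩ 0 0))) (.pos 51 .mp ⟨⟨53012183, 0, 0, 0, 0, 41185435, 0, 0, 0, ⟨0, 0⟩, 0⟩, 0,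 0⟩ 0 0)) (.pos 52 .mp ⟨⟨84979484, 0, 0, 0, 0, 0, 0, 0, 0, ⟨0, 0⟩, 0⟩, 0, 0⟩ 0 0))) (.pos 47 .mp ⟨⟨53236542, 0, 0, 0, 0, 41002506, 0, 0, 0, ⟨0, 0⟩, 0⟩, 0, 0⟩ 0 0)) (.cut .l 97131 (.cut .d (-8192) (.pos 47 .mp ⟨⟨52862579, 0, 0, 0, 0, 43922444, 0, 0, 0, ⟨0, 0⟩, 0⟩, 0, 0⟩ 0 0) (.cut .v 16793600 (.cut .l 48565 (.cut .d (-4096) (.pos 51 .mp ⟨⟨52825423, 0, 0, 0, 0, 43852666, 0, 0, 0, ⟨0, 0⟩, 0⟩, 0, 0⟩ 0 0) (.cut .s 9232384 (.pos 51 .mp ⟨⟨53385099, 0, 0, 0, 0, 41938838, 0, 0, 0, ⟨0, 0⟩, 0⟩, 0, 0⟩ 0 0) (.cut .s 9236480 (.pos 51 .mp ⟨⟨53757501, 0, 0, 0, 0, 41931949, 0, 0, 0, ⟨0, 0⟩, 0⟩, 0, 0⟩ 0 0) (.pos 51 .mp ⟨⟨53904382, 0, 0, 0, 0, 42019165,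 0, 0, 0, ⟨0, 0⟩, 0⟩, 0, 0⟩ 0 0)))) (.pos 51 .mp ⟨⟨53606790, 0, 0, 0, 0, 41517486, 0, 0, 0, ⟨0, 0⟩, 0⟩, 0, 0⟩ 0 0)) (.pos 52 .mp ⟨⟨85780819, 0, 0, 0, 0, 0, 0, 0, 0, ⟨0, 0⟩, 0⟩, 0, 0⟩ 0 0))) (.pos 47 .mp ⟨⟨53835813, 0, 0, 0, 0, 41329182, 0, 0, 0, ⟨0, 0⟩, 0⟩, 0, 0⟩ 0 0)))) (.cut .s 9273344 (.cut .s 9256960 (.cut .l 97131 (.cut .d (-8192) (.pos 47 .mp ⟨⟨53455790, 0, 0, 0, 0, 44280160, 0, 0, 0, ⟨0, 0⟩, 0⟩, 0, 0⟩ 0 0) (.cut .v 16793600 (.cut .l 48565 (.cut .d (-4096) (.pos 51 .mp ⟨⟨53417001, 0, 0, 0, 0, 44211302, 0, 0, 0, ⟨0, 0⟩, 0⟩, 0, 0⟩ 0 0) (.cut .v 16785408 (.cut .s 9248768 (.pos 65 .mp ⟨⟨53924553, 0, 0, 0, 0, 42347090, 0, 0, 0,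 ⟨0, 0⟩, 0⟩, 0, 0⟩ 0 0) (.pos 65 .mp ⟨⟨54225146, 0, 0, 0, 0, 42518731, 0, 0, 0, ⟨0, 0⟩, 0⟩, 0, 0⟩ 0 0)) (.pos 66 .mp ⟨⟨86547837, 0, 0, 0, 0, 0, 0, 0, 0, ⟨0, 0⟩, 0⟩, 0, 0⟩ 0 0))) (.pos 51 .mp ⟨⟨54207530, 0, 0, 0, 0, 41852581, 0, 0, 0, ⟨0, 0⟩, 0⟩, 0, 0⟩ 0 0)) (.pos 52 .mp ⟨⟨86595004, 0, 0, 0, 0, 0, 0, 0, 0, ⟨0, 0⟩, 0⟩, 0, 0⟩ 0 0))) (.pos 47 .mp ⟨⟨54441290, 0, 0, 0, 0, 41658816, 0, 0, 0, ⟨0, 0⟩, 0⟩, 0, 0⟩ 0 0)) (.cut .l 97131 (.cut .d (-8192) (.pos 47 .mp ⟨⟨54055107, 0, 0, 0, 0, 44647808, 0, 0, 0, ⟨0, 0⟩, 0⟩, 0, 0⟩ 0 0) (.cut .v 16793600 (.cut .l 48565 (.cut .d (-4096) (.pos 51 .mp ⟨⟨54014663, 0, 0, 0, 0, 44579883, 0, 0, 0, ⟨0, 0⟩,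 0⟩, 0, 0⟩ 0 0) (.cut .v 16785408 (.cut .s 9265152 (.pos 65 .mp ⟨⟨54527278, 0, 0, 0, 0, 42692060, 0, 0, 0, ⟨0, 0⟩, 0⟩, 0, 0⟩ 0 0) (.pos 65 .mp ⟨⟨54830952, 0, 0, 0, 0, 42867075, 0, 0, 0, ⟨0, 0⟩, 0⟩, 0, 0⟩ 0 0)) (.pos 66 .mp ⟨⟨87374482, 0, 0, 0, 0, 0, 0, 0, 0, ⟨0, 0⟩, 0⟩, 0, 0⟩ 0 0))) (.pos 51 .mp ⟨⟨54814438, 0, 0, 0, 0, 42190582, 0, 0, 0, ⟨0, 0⟩, 0⟩, 0, 0⟩ 0 0)) (.pos 52 .mp ⟨⟨87422103, 0, 0, 0, 0, 0, 0, 0, 0, ⟨0, 0⟩, 0⟩, 0, 0⟩ 0 0))) (.pos 47 .mp ⟨⟨55053006, 0, 0, 0, 0, 41991269, 0, 0, 0, ⟨0, 0⟩, 0⟩, 0, 0⟩ 0 0))) (.cut .s 9289728 (.cut .l 97131 (.cut .d (-8192) (.pos 47 .mp ⟨⟨54660562, 0, 0, 0, 0, 45025470, 0, 0, 0, ⟨0, 0⟩, 0⟩,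 0, 0⟩ 0 0) (.cut .v 16793600 (.cut .l 48565 (.cut .d (-4096) (.pos 51 .mp ⟨⟨54618442, 0, 0, 0, 0, 44958492, 0, 0, 0, ⟨0, 0⟩, 0⟩, 0, 0⟩ 0 0) (.cut .s 9281536 (.cut .s 9277440 (.pos 51 .mp ⟨⟨55269372, 0, 0, 0, 0, 42793645, 0, 0, 0, ⟨0, 0⟩, 0⟩, 0, 0⟩ 0 0) (.pos 51 .mp ⟨⟨55425927, 0, 0, 0, 0, 42878401, 0, 0, 0, ⟨0, 0⟩, 0⟩, 0, 0⟩ 0 0)) (.pos 51 .mp ⟨⟨55502081, 0, 0, 0, 0, 43149285, 0, 0, 0, ⟨0, 0⟩, 0⟩, 0, 0⟩ 0 0))) (.pos 51 .mp ⟨⟨55427548, 0, 0, 0, 0, 42531353, 0, 0, 0, ⟨0, 0⟩, 0⟩, 0, 0⟩ 0 0)) (.pos 52 .mp ⟨⟨88262184, 0, 0, 0, 0, 0, 0, 0, 0, ⟨0, 0⟩, 0⟩, 0, 0⟩ 0 0))) (.pos 47 .mp ⟨⟨55670997, 0, 0, 0, 0, 42326404, 0, 0, 0, ⟨0, 0⟩, 0⟩,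 0, 0⟩ 0 0)) (.cut .l 97131 (.cut .d (-8192) (.pos 47 .mp ⟨⟨55272189, 0, 0, 0, 0, 45413229, 0, 0, 0, ⟨0, 0⟩, 0⟩, 0, 0⟩ 0 0) (.cut .v 16793600 (.cut .l 48565 (.cut .d (-4096) (.pos 51 .mp ⟨⟨55228372, 0, 0, 0, 0, 45347211, 0, 0, 0, ⟨0, 0⟩, 0⟩, 0, 0⟩ 0 0) (.cut .s 9297920 (.pos 51 .mp ⟨⟨55810697, 0, 0, 0, 0, 43328915, 0, 0, 0, ⟨0, 0⟩, 0⟩, 0, 0⟩ 0 0) (.pos 51 .mp ⟨⟨56120874, 0, 0, 0, 0, 43510208, 0, 0, 0, ⟨0, 0⟩, 0⟩, 0, 0⟩ 0 0))) (.pos 51 .mp ⟨⟨56046893, 0, 0, 0, 0, 42874757, 0, 0, 0, ⟨0, 0⟩, 0⟩, 0, 0⟩ 0 0)) (.pos 52 .mp ⟨⟨89115314, 0, 0, 0, 0, 0, 0, 0, 0, ⟨0, 0⟩, 0⟩, 0, 0⟩ 0 0))) (.pos 47 .mp ⟨⟨56295296, 0, 0, 0, 0, 42664083, 0, 0,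 0, ⟨0, 0⟩, 0⟩, 0, 0⟩ 0 0))))) (.pos 48 .mp ⟨⟨88227580, 0, 0, 0, 0, 0, 0, 0, 0, ⟨0, 0⟩, 0⟩, 0, 0⟩ 0 0)))) (.pos 46 .mp ⟨⟨89379633, 0, 0, 0, 0, 0, 0, 0, 0, ⟨0, 0⟩, 0⟩, 0, 0⟩ 0 0)) (.cut .v 16842752 (.cut .s 9437184 (.cut .d (-16384) (.cut .d (-24576) (.void 45 ⟨⟨0, 0, 0, 0, 0, 100000, 0, 0, 0, ⟨0, 0⟩, 0⟩, 0, 0⟩ 0 0) (.cut .d (-20480) (.void 45 ⟨⟨0, 0, 0, 0, 0, 100000, 0, 0, 0, ⟨0, 0⟩, 0⟩, 0, 0⟩ 0 0) (.cut .v 16809984 (.cut .v 16793600 (.pos 51 .mp ⟨⟨0, 0, 0, 0, 0, 127328765, 0, 0, 0, ⟨0, 0⟩, 0⟩, 0, 0⟩ 0 0) (.cut .l 97131 (.void 52 ⟨⟨100000, 0, 0, 0, 0, 0, 0, 0, 0, ⟨0, 0⟩, 0⟩, 0, 0⟩ 0 0) (.cut .v 16801792 (.pos 134 .mp ⟨⟨0, 0, 0,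 0, 0, 124994326, 0, 0, 0, ⟨0, 0⟩, 0⟩, 0, 0⟩ 0 0) (.cut .l 145697 (.void 135 ⟨⟨100000, 0, 0, 0, 0, 0, 0, 0, 0, ⟨0, 0⟩, 0⟩, 0, 0⟩ 0 0) (.cut .s 9371648 (.cut .s 9338880 (.pos 135 .mp ⟨⟨55921361, 0, 0, 0, 0, 45725415, 0, 0, 0, ⟨0, 0⟩, 0⟩, 0, 0⟩ 0 0) (.pos 135 .mp ⟨⟨57181616, 0, 0, 0, 0, 46497018, 0, 0, 0, ⟨0, 0⟩, 0⟩, 0, 0⟩ 0 0)) (.pos 135 .mp ⟨⟨58467268, 0, 0, 0, 0, 48620272, 0, 0, 0, ⟨0, 0⟩, 0⟩, 0, 0⟩ 0 0)))))) (.pos 48 .mp ⟨⟨96442295, 0, 0, 0, 0, 0, 0, 0, 0, ⟨0, 0⟩, 0⟩, 0, 0⟩ 0 0)))) (.cut .v 16809984 (.cut .s 9371648 (.cut .s 9338880 (.cut .s 9322496 (.cut .l 97131 (.cut .d (-8192) (.pos 47 .mp ⟨⟨55890023, 0, 0, 0, 0, 45811168,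 0, 0, 0, ⟨0, 0⟩, 0⟩, 0, 0⟩ 0 0) (.cut .v 16793600 (.cut .l 48565 (.cut .d (-4096) (.pos 51 .mp ⟨⟨55844487, 0, 0, 0, 0, 45746125, 0, 0, 0, ⟨0, 0⟩, 0⟩, 0, 0⟩ 0 0) (.cut .s 9314304 (.pos 51 .mp ⟨⟨56432616, 0, 0, 0, 0, 43693157, 0, 0, 0, ⟨0, 0⟩, 0⟩, 0, 0⟩ 0 0) (.pos 51 .mp ⟨⟨56745926, 0, 0, 0, 0, 43877758, 0, 0, 0, ⟨0, 0⟩, 0⟩, 0, 0⟩ 0 0))) (.pos 51 .mp ⟨⟨56672507, 0, 0, 0, 0, 43220655, 0, 0, 0, ⟨0, 0⟩, 0⟩, 0, 0⟩ 0 0)) (.pos 52 .mp ⟨⟨89981561, 0, 0, 0, 0, 0, 0, 0, 0, ⟨0, 0⟩, 0⟩, 0, 0⟩ 0 0))) (.pos 47 .mp ⟨⟨56925937, 0, 0, 0, 0, 43004166, 0, 0, 0, ⟨0, 0⟩, 0⟩, 0, 0⟩ 0 0)) (.cut .l 97131 (.cut .d (-8192) (.pos 47 .mp ⟨⟨56514097, 0, 0,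 0, 0, 46219370, 0, 0, 0, ⟨0, 0⟩, 0⟩, 0, 0⟩ 0 0) (.cut .v 16793600 (.cut .l 48565 (.cut .d (-4096) (.pos 51 .mp ⟨⟨56466820, 0, 0, 0, 0, 46155316, 0, 0, 0, ⟨0, 0⟩, 0⟩, 0, 0⟩ 0 0) (.cut .s 9330688 (.pos 51 .mp ⟨⟨57060810, 0, 0, 0, 0, 44064005, 0, 0, 0, ⟨0, 0⟩, 0⟩, 0, 0⟩ 0 0) (.pos 51 .mp ⟨⟨57368859, 0, 0, 0, 0, 44264383, 0, 0, 0, ⟨0, 0⟩, 0⟩, 0, 0⟩ 0 0))) (.pos 51 .mp ⟨⟨57304427, 0, 0, 0, 0, 43568910, 0, 0, 0, ⟨0, 0⟩, 0⟩, 0, 0⟩ 0 0)) (.pos 52 .mp ⟨⟨90860993, 0, 0, 0, 0, 0, 0, 0, 0, ⟨0, 0⟩, 0⟩, 0, 0⟩ 0 0))) (.pos 47 .mp ⟨⟨57562957, 0, 0, 0, 0, 43346516, 0, 0, 0, ⟨0, 0⟩, 0⟩, 0, 0⟩ 0 0))) (.cut .s 9355264 (.cut .l 97131 (.cut .d (-8192)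 (.pos 47 .mp ⟨⟨57144446, 0, 0, 0, 0, 46637922, 0, 0, 0, ⟨0, 0⟩, 0⟩, 0, 0⟩ 0 0) (.cut .s 9347072 (.cut .s 9342976 (.pos 47 .mp ⟨⟨57918199, 0, 0, 0, 0, 44084671, 0, 0, 0, ⟨0, 0⟩, 0⟩, 0, 0⟩ 0 0) (.pos 47 .mp ⟨⟨58091508, 0, 0, 0, 0, 44163841, 0, 0, 0, ⟨0, 0⟩, 0⟩, 0, 0⟩ 0 0)) (.pos 47 .mp ⟨⟨58350765, 0, 0, 0, 0, 44231467, 0, 0, 0, ⟨0, 0⟩, 0⟩, 0, 0⟩ 0 0))) (.pos 47 .mp ⟨⟨58206391, 0, 0, 0, 0, 43690994, 0, 0, 0, ⟨0, 0⟩, 0⟩, 0, 0⟩ 0 0)) (.cut .l 97131 (.cut .d (-8192) (.pos 47 .mp ⟨⟨57781105, 0, 0, 0, 0, 47066909, 0, 0, 0, ⟨0, 0⟩, 0⟩, 0, 0⟩ 0 0) (.cut .s 9363456 (.pos 47 .mp ⟨⟨58674304, 0, 0, 0, 0, 44421147, 0, 0, 0, ⟨0, 0⟩, 0⟩, 0, 0⟩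 0 0) (.pos 47 .mp ⟨⟨58999455, 0, 0, 0, 0, 44612424, 0, 0, 0, ⟨0, 0⟩, 0⟩, 0, 0⟩ 0 0))) (.pos 47 .mp ⟨⟨58856274, 0, 0, 0, 0, 44037460, 0, 0, 0, ⟨0, 0⟩, 0⟩, 0, 0⟩ 0 0)))) (.cut .s 9404416 (.cut .s 9388032 (.cut .l 97131 (.cut .d (-8192) (.pos 47 .mp ⟨⟨58424109, 0, 0, 0, 0, 47506416, 0, 0, 0, ⟨0, 0⟩, 0⟩, 0, 0⟩ 0 0) (.cut .s 9379840 (.pos 47 .mp ⟨⟨59326222, 0, 0, 0, 0, 44805291, 0, 0, 0, ⟨0, 0⟩, 0⟩, 0, 0⟩ 0 0) (.pos 47 .mp ⟨⟨59654608, 0, 0, 0, 0, 44999743, 0, 0, 0, ⟨0, 0⟩, 0⟩, 0, 0⟩ 0 0))) (.pos 47 .mp ⟨⟨59512643, 0, 0, 0, 0, 44385775, 0, 0, 0, ⟨0, 0⟩, 0⟩, 0, 0⟩ 0 0)) (.cut .l 97131 (.cut .d (-8192) (.pos 47 .mp ⟨⟨59073494, 0, 0, 0,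 0, 47956531, 0, 0, 0, ⟨0, 0⟩, 0⟩, 0, 0⟩ 0 0) (.cut .s 9396224 (.pos 47 .mp ⟨⟨59976320, 0, 0, 0, 0, 45208136, 0, 0, 0, ⟨0, 0⟩, 0⟩, 0, 0⟩ 0 0) (.pos 47 .mp ⟨⟨60283365, 0, 0, 0, 0, 45442399, 0, 0, 0, ⟨0, 0⟩, 0⟩, 0, 0⟩ 0 0))) (.pos 47 .mp ⟨⟨60175534, 0, 0, 0, 0, 44735800, 0, 0, 0, ⟨0, 0⟩, 0⟩, 0, 0⟩ 0 0))) (.cut .s 9420800 (.cut .s 9412608 (.pos 47 .mp ⟨⟨61099648, 0, 0, 0, 0, 45062937, 0, 0, 0, ⟨0, 0⟩, 0⟩, 0, 0⟩ 0 0) (.pos 47 .mp ⟨⟨61438174, 0, 0, 0, 0, 45258914, 0, 0, 0, ⟨0, 0⟩, 0⟩, 0, 0⟩ 0 0)) (.cut .s 9428992 (.pos 47 .mp ⟨⟨61778371, 0, 0, 0, 0, 45456408, 0, 0, 0, ⟨0, 0⟩, 0⟩, 0, 0⟩ 0 0) (.pos 47 .mp ⟨⟨62120242, 0, 0, 0, 0, 45655413,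 0, 0, 0, ⟨0, 0⟩, 0⟩, 0, 0⟩ 0 0))))) (.pos 48 .mp ⟨⟨95317539, 0, 0, 0, 0, 0, 0, 0, 0, ⟨0, 0⟩, 0⟩, 0, 0⟩ 0 0))) (.cut .d (-16384) (.cut .s 9502720 (.cut .s 9469952 (.pos 45 .mp ⟨⟨61181683, 0, 0, 0, 0, 50758811, 0, 0, 0, ⟨0, 0⟩, 0⟩, 0, 0⟩ 0 0) (.pos 45 .mp ⟨⟨62546536, 0, 0, 0, 0, 51784866, 0, 0, 0, ⟨0, 0⟩, 0⟩, 0, 0⟩ 0 0)) (.pos 45 .mp ⟨⟨63937979, 0, 0, 0, 0, 55570804, 0, 0, 0, ⟨0, 0⟩, 0⟩, 0, 0⟩ 0 0)) (.cut .v 16809984 (.cut .s 9502720 (.cut .s 9469952 (.cut .l 97131 (.cut .d (-8192) (.pos 47 .mp ⟨⟨61060295, 0, 0, 0, 0, 50643504, 0, 0, 0, ⟨0, 0⟩, 0⟩, 0, 0⟩ 0 0) (.cut .v 16793600 (.cut .l 48565 (.cut .d (-4096) (.pos 51 .mp ⟨⟨61000209,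 0, 0, 0, 0, 50585062, 0, 0, 0, ⟨0, 0⟩, 0⟩, 0, 0⟩ 0 0) (.cut .v 16785408 (.cut .l 24282 (.cut .d (-2048) (.pos 65 .mp ⟨⟨60970294, 0, 0, 0, 0, 50555711, 0, 0, 0, ⟨0, 0⟩, 0⟩, 0, 0⟩ 0 0) (.cut .v 16781312 (.cut .l 12141 (.cut .d (-1024) (.pos 71 .mp ⟨⟨60955374, 0, 0, 0, 0, 50540960, 0, 0, 0, ⟨0, 0⟩, 0⟩, 0, 0⟩ 0 0) (.cut .s 9453568 (.cut .s 9445376 (.pos 71 .mp ⟨⟨62086411, 0, 0, 0, 0, 46331053, 0, 0, 0, ⟨0, 0⟩, 0⟩, 0, 0⟩ 0 0) (.pos 71 .mp ⟨⟨62488566, 0, 0, 0, 0, 46467440, 0, 0, 0, ⟨0, 0⟩, 0⟩, 0, 0⟩ 0 0)) (.pos 71 .mp ⟨⟨62382043, 0, 0, 0, 0, 47432220, 0, 0, 0, ⟨0, 0⟩, 0⟩, 0, 0⟩ 0 0))) (.pos 71 .mp ⟨⟨62365068, 0, 0, 0, 0, 45813180, 0,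 0, 0, ⟨0, 0⟩, 0⟩, 0, 0⟩ 0 0)) (.pos 72 .mp ⟨⟨98111677, 0, 0, 0, 0, 0, 0, 0, 0, ⟨0, 0⟩, 0⟩, 0, 0⟩ 0 0))) (.pos 65 .mp ⟨⟨62440331, 0, 0, 0, 0, 45745185, 0, 0, 0, ⟨0, 0⟩, 0⟩, 0, 0⟩ 0 0)) (.pos 66 .mp ⟨⟨98138987, 0, 0, 0, 0, 0, 0, 0, 0, ⟨0, 0⟩, 0⟩, 0, 0⟩ 0 0))) (.pos 51 .mp ⟨⟨62591026, 0, 0, 0, 0, 45608998, 0, 0, 0, ⟨0, 0⟩, 0⟩, 0, 0⟩ 0 0)) (.pos 52 .mp ⟨⟨98192846, 0, 0, 0, 0, 0, 0, 0, 0, ⟨0, 0⟩, 0⟩, 0, 0⟩ 0 0))) (.pos 47 .mp ⟨⟨62893058, 0, 0, 0, 0, 45336079, 0, 0, 0, ⟨0, 0⟩, 0⟩, 0, 0⟩ 0 0)) (.cut .l 97131 (.cut .d (-8192) (.pos 47 .mp ⟨⟨62417400, 0, 0, 0, 0, 51673934, 0, 0, 0, ⟨0, 0⟩, 0⟩, 0, 0⟩ 0 0) (.cut .s 9486336 (.cut .s 9478144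 (.pos 47 .mp ⟨⟨63765123, 0, 0, 0, 0, 46810191, 0, 0, 0, ⟨0, 0⟩, 0⟩, 0, 0⟩ 0 0) (.pos 47 .mp ⟨⟨64187850, 0, 0, 0, 0, 46935919, 0, 0, 0, ⟨0, 0⟩, 0⟩, 0, 0⟩ 0 0)) (.pos 47 .mp ⟨⟨64424740, 0, 0, 0, 0, 47496783, 0, 0, 0, ⟨0, 0⟩, 0⟩, 0, 0⟩ 0 0))) (.pos 47 .mp ⟨⟨64291926, 0, 0, 0, 0, 46033228, 0, 0, 0, ⟨0, 0⟩, 0⟩, 0, 0⟩ 0 0))) (.cut .s 9535488 (.cut .s 9519104 (.cut .s 9510912 (.pos 47 .mp ⟨⟨66235147, 0, 0, 0, 0, 46331624, 0, 0, 0, ⟨0, 0⟩, 0⟩, 0, 0⟩ 0 0) (.pos 47 .mp ⟨⟨66728564, 0, 0, 0, 0, 46381335, 0, 0, 0, ⟨0, 0⟩, 0⟩, 0, 0⟩ 0 0)) (.pos 47 .mp ⟨⟨66355068, 0, 0, 0, 0, 47761069, 0, 0, 0, ⟨0, 0⟩, 0⟩, 0, 0⟩ 0 0)) (.cut .s 9551872 (.pos 47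 .mp ⟨⟨67137690, 0, 0, 0, 0, 48127389, 0, 0, 0, ⟨0, 0⟩, 0⟩, 0, 0⟩ 0 0) (.pos 47 .mp ⟨⟨68238724, 0, 0, 0, 0, 48109678, 0, 0, 0, ⟨0, 0⟩, 0⟩, 0, 0⟩ 0 0)))) (.pos 48 .mp ⟨⟨103096187, 0, 0, 0, 0, 0, 0, 0, 0, ⟨0, 0⟩, 0⟩, 0, 0⟩ 0 0)))) (.pos 46 .mp ⟨⟨103738913, 0, 0, 0, 0, 0, 0, 0, 0, ⟨0, 0⟩, 0⟩, 0, 0⟩ 0 0))) (.pos 36 .mp ⟨⟨103445203, 0, 0, 0, 0, 0, 0, 0, 0, ⟨0, 0⟩, 0⟩, 0, 0⟩ 0 0)) (.void 34 ⟨⟨100000, 0, 0, 0, 0, 0, 0, 0, 0, ⟨0, 0⟩, 0⟩, 0, 0⟩ 0 0)) (.void 32 ⟨⟨100000, 0, 0, 0, 0, 0, 0, 0, 0, ⟨0, 0⟩, 0⟩, 0, 0⟩ 0 0)) (.void 30 ⟨⟨100000, 0, 0, 0, 0, 0, 0, 0, 0, ⟨0, 0⟩, 0⟩, 0, 0⟩ 0 0))))))))) (.void 28 ⟨⟨100000, 0, 0, 0, 0, 0, 0, 0, 0, ⟨0,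 0⟩, 0⟩, 0, 0⟩ 0 0))) (.void 26 ⟨⟨100000, 0, 0, 0, 0, 0, 0, 0, 0, ⟨0, 0⟩, 0⟩, 0, 0⟩ 0 0))) (.void 24 ⟨⟨100000, 0, 0, 0, 0, 0, 0, 0, 0, ⟨0, 0⟩, 0⟩, 0, 0⟩ 0 0)) (.void 123 ⟨⟨100000, 0, 0, 0, 0, 0, 0, 0, 0, ⟨0, 0⟩, 0⟩, 0, 0⟩ 0 0))) (.cut .v 16777216 (.cut .v 8388608 (.cut .v 4194304 (.void 4 ⟨⟨0, 0, 66667, 0, 0, 0, 0, 0, 0, ⟨0, 0⟩, 0⟩, 0, 33333⟩ 0 0) (.pos 5 .pm ⟨⟨0, 0, 129858, 0, 0, 0, 0, 0, 0, ⟨0, 0⟩, 0⟩, 0, 0⟩ 0 0)) (.pos 3 .pm ⟨⟨0, 0, 0, 0, 0, 0, 0, 0, 0, ⟨0, 0⟩, 0⟩, 0, 0⟩ 0 0)) (.cut .d 7172869 (.cut .v 33554432 (.cut .d 3586434 (.cut .v 25165824 (.cut .d 1793217 (.cut .v 20971520 (.cut .d 896608 (.cut .d 448304 (.cut .v 18874368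 (.cut .s 9306112 (.pos 27 .pp ⟨⟨42999608, 0, 0, 0, 0, 0, 0, 0, 0, ⟨0, 0⟩, 0⟩, 3051667, 0⟩ 0 0) (.pos 27 .pp ⟨⟨57248252, 0, 0, 0, 0, 0, 0, 0, 0, ⟨0, 0⟩, 0⟩, 2960861, 0⟩ 0 0)) (.pos 28 .pp ⟨⟨112873764, 0, 0, 0, 0, 0, 0, 0, 0, ⟨0, 0⟩, 0⟩, 0, 0⟩ 0 0)) (.pos 25 .pp ⟨⟨60983960, 0, 0, 0, 0, 0, 461560, 0, 0, ⟨0, 0⟩, 0⟩, 0, 0⟩ 0 0)) (.pos 25 .pp ⟨⟨0, 0, 0, 0, 0, 0, 0, 0, 0, ⟨0, 0⟩, 0⟩, 0, 542284⟩ 0 0)) (.cut .d 896608 (.cut .d 448304 (.pos 26 .pp ⟨⟨175635142, 0, 0, 0, 0, 0, 0, 0, 0, ⟨0, 0⟩, 0⟩, 0, 0⟩ 0 0) (.pos 26 .pp ⟨⟨0, 0, 0, 0, 0, 0, 0, 0, 0, ⟨0, 0⟩, 0⟩, 9167528, 0⟩ 0 0)) (.pos 26 .pp ⟨⟨0, 0, 0, 0, 0, 0, 294239, 0, 0, ⟨0, 0⟩, 0⟩, 6824404,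 0⟩ 0 0))) (.pos 23 .pp ⟨⟨0, 0, 0, 0, 0, 0, 0, 0, 0, ⟨0, 0⟩, 0⟩, 0, 585667⟩ 0 0)) (.cut .d 1793217 (.cut .d 896608 (.pos 24 .pp ⟨⟨0, 0, 0, 0, 0, 0, 0, 0, 0, ⟨0, 0⟩, 0⟩, 23239103, 0⟩ 0 0) (.cut .v 29360128 (.pos 83 .pp ⟨⟨0, 0, 0, 0, 0, 0, 6384, 0, 0, ⟨0, 0⟩, 0⟩, 9724744, 0⟩ 0 0) (.pos 84 .pp ⟨⟨0, 0, 0, 0, 0, 0, 0, 0, 0, ⟨0, 0⟩, 0⟩, 13576089, 0⟩ 0 0))) (.pos 24 .pp ⟨⟨0, 0, 0, 0, 0, 0, 144110, 0, 0, ⟨0, 0⟩, 0⟩, 7923518, 0⟩ 0 0))) (.pos 22 .pp ⟨⟨0, 0, 0, 0, 0, 0, 0, 0, 0, ⟨0, 0⟩, 0⟩, 0, 82010323⟩ 0 0)) (.cut .v 50331648 (.cut .d 3586434 (.cut .d 1793217 (.void 128 ⟨⟨0, 0, 0, 0, 0, 0, 0, 0, 0, ⟨0, 0⟩, 0⟩, 100000, 0⟩ 0 0) (.cut .v 41943040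 (.cut .v 37748736 (.pos 132 .pp ⟨⟨0, 0, 0, 0, 0, 0, 0, 0, 0, ⟨0, 0⟩, 0⟩, 11254830, 0⟩ 0 0) (.pos 133 .pp ⟨⟨0, 0, 0, 0, 0, 0, 29286035, 0, 0, ⟨0, 0⟩, 0⟩, 13903442, 0⟩ 0 0)) (.pos 131 .pp ⟨⟨0, 0, 0, 0, 0, 0, 0, 0, 0, ⟨0, 0⟩, 0⟩, 60099742, 0⟩ 0 0))) (.pos 128 .pp ⟨⟨0, 0, 0, 0, 0, 0, 190257843, 0, 0, ⟨0, 0⟩, 0⟩, 4979021, 0⟩ 0 0)) (.pos 129 .pp ⟨⟨0, 0, 0, 0, 0, 0, 506398963, 0, 0, ⟨0, 0⟩, 0⟩, 27633795, 0⟩ 0 0))) (.void 122 ⟨⟨0, 0, 0, 0, 0, 0, 67506, 0, 0, ⟨0, 0⟩, 0⟩, 0, 32494⟩ 0 0)))),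
    by decide +kernel⟩

def covers12 : cell.Covers Vale.Agent.P237.Petty.Cor.Grid.N19.table row12.1 :=
  ⟨(.cut .d 0 (.cut .v 16777216 (.cut .d (-8388608) (.void 1 ⟨⟨0, 0, 0, 0, 0, 100000, 0, 0, 0, ⟨0, 0⟩, 0⟩, 0, 0⟩ 0 0) (.cut .d (-4194304) (.void 1 ⟨⟨0, 0, 0, 0, 0, 100000, 0, 0, 0, ⟨0, 0⟩, 0⟩, 0, 0⟩ 0 0) (.cut .d (-2097152) (.void 1 ⟨⟨0, 0, 0, 0, 0, 100000, 0, 0, 0, ⟨0, 0⟩, 0⟩, 0, 0⟩ 0 0) (.cut .d (-1048576) (.void 1 ⟨⟨0, 0, 0, 0, 0, 100000, 0, 0, 0, ⟨0, 0⟩, 0⟩, 0, 0⟩ 0 0) (.cut .d (-524288) (.void 1 ⟨⟨0, 0, 0, 0, 0, 100000, 0, 0, 0, ⟨0, 0⟩, 0⟩, 0, 0⟩ 0 0) (.cut .d (-262144) (.void 1 ⟨⟨0, 0, 0, 0, 0, 100000, 0, 0, 0, ⟨0, 0⟩, 0⟩,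 0, 0⟩ 0 0) (.cut .d (-131072) (.void 1 ⟨⟨0, 0, 0, 0, 0, 100000, 0, 0, 0, ⟨0, 0⟩, 0⟩, 0, 0⟩ 0 0) (.cut .d (-65536) (.void 1 ⟨⟨0, 0, 0, 0, 0, 100000, 0, 0, 0, ⟨0, 0⟩, 0⟩, 0, 0⟩ 0 0) (.cut .d (-32768) (.void 1 ⟨⟨0, 0, 0, 0, 0, 100000, 0, 0, 0, ⟨0, 0⟩, 0⟩, 0, 0⟩ 0 0) (.cut .v 8388608 (.cut .v 4194304 (.void 4 ⟨⟨0, 0, 100000, 0, 0, 0, 0, 0, 0, ⟨0, 0⟩, 0⟩, 0, 0⟩ 0 0) (.pos 5 .mm ⟨⟨0, 0, 759612, 0, 0, 61390443, 0, 0, 0, ⟨0, 0⟩, 0⟩, 0, 0⟩ 0 0)) (.cut .d (-16384) (.pos 3 .mm ⟨⟨0, 0, 0, 0, 0, 187403240, 0, 0, 0, ⟨0, 0⟩, 0⟩, 0, 0⟩ 0 0) (.cut .v 12582912 (.pos 8 .mm ⟨⟨0, 0, 0, 0, 0, 92284777, 0, 0, 0, ⟨0, 0⟩, 0⟩, 0, 0⟩ 0 0) (.cut .v 14680064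 (.pos 12 .mm ⟨⟨0, 0, 0, 0, 0, 108617708, 0, 0, 0, ⟨0, 0⟩, 0⟩, 0, 0⟩ 0 0) (.cut .v 15728640 (.pos 20 .mm ⟨⟨0, 0, 0, 0, 0, 117095098, 0, 0, 0, ⟨0, 0⟩, 0⟩, 0, 0⟩ 0 0) (.cut .v 16252928 (.pos 37 .mm ⟨⟨0, 0, 0, 0, 0, 121411525, 0, 0, 0, ⟨0, 0⟩, 0⟩, 0, 0⟩ 0 0) (.cut .v 16515072 (.pos 41 .mm ⟨⟨0, 0, 0, 0, 0, 130432414, 0, 0, 0, ⟨0, 0⟩, 0⟩, 0, 0⟩ 0 0) (.cut .v 16646144 (.pos 43 .mm ⟨⟨0, 0, 0, 0, 0, 147450217, 0, 0, 0, ⟨0, 0⟩, 0⟩, 0, 0⟩ 0 0) (.cut .v 16711680 (.pos 49 .mm ⟨⟨0, 0, 0, 0, 0, 153377765, 0, 0, 0, ⟨0, 0⟩, 0⟩, 0, 0⟩ 0 0) (.cut .v 16744448 (.pos 53 .mm ⟨⟨0, 0, 0, 0, 0, 156361978, 0, 0, 0, ⟨0, 0⟩, 0⟩, 0, 0⟩ 0 0) (.cut .s 9830400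 (.cut .s 9699328 (.pos 54 .mm ⟨⟨0, 0, 0, 0, 0, 141056545, 0, 0, 0, ⟨0, 0⟩, 0⟩, 0, 0⟩ 0 0) (.pos 54 .mm ⟨⟨0, 0, 0, 0, 0, 152791901, 0, 0, 0, ⟨0, 0⟩, 0⟩, 0, 0⟩ 0 0)) (.cut .s 9961472 (.pos 54 .mm ⟨⟨0, 0, 0, 0, 0, 166065061, 0, 0, 0, ⟨0, 0⟩, 0⟩, 0, 0⟩ 0 0) (.pos 54 .mm ⟨⟨0, 0, 0, 0, 0, 180925687, 0, 0, 0, ⟨0, 0⟩, 0⟩, 0, 0⟩ 0 0)))))))))))))))))))))) (.cut .v 67108864 (.cut .v 33554432 (.cut .v 25165824 (.cut .d (-8388608) (.void 23 ⟨⟨0, 0, 0, 0, 0, 100000, 0, 0, 0, ⟨0, 0⟩, 0⟩, 0, 0⟩ 0 0) (.cut .v 20971520 (.cut .d (-4194304) (.void 25 ⟨⟨0, 0, 0, 0, 0, 100000, 0, 0, 0, ⟨0, 0⟩, 0⟩, 0, 0⟩ 0 0) (.cut .v 18874368 (.cut .d (-2097152) (.void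 27 ⟨⟨100000, 0, 0, 0, 0, 0, 0, 0, 0, ⟨0, 0⟩, 0⟩, 0, 0⟩ 0 0) (.cut .v 17825792 (.cut .d (-1048576) (.void 29 ⟨⟨100000, 0, 0, 0, 0, 0, 0, 0, 0, ⟨0, 0⟩, 0⟩, 0, 0⟩ 0 0) (.cut .d (-524288) (.void 29 ⟨⟨100000, 0, 0, 0, 0, 0, 0, 0, 0, ⟨0, 0⟩, 0⟩, 0, 0⟩ 0 0) (.cut .d (-262144) (.void 29 ⟨⟨100000, 0, 0, 0, 0, 0, 0, 0, 0, ⟨0, 0⟩, 0⟩, 0, 0⟩ 0 0) (.cut .d (-131072) (.void 29 ⟨⟨100000, 0, 0, 0, 0, 0, 0, 0, 0, ⟨0, 0⟩, 0⟩, 0, 0⟩ 0 0) (.cut .d (-65536) (.void 29 ⟨⟨100000, 0, 0, 0, 0, 0, 0, 0, 0, ⟨0, 0⟩, 0⟩, 0, 0⟩ 0 0) (.cut .d (-32768) (.void 29 ⟨⟨0, 0, 0, 0, 0, 100000, 0, 0, 0, ⟨0, 0⟩, 0⟩, 0, 0⟩ 0 0) (.cut .v 17301504 (.cut .v 17039360 (.cut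 .v 16908288 (.cut .d (-16384) (.cut .d (-24576) (.void 35 ⟨⟨0, 0, 0, 0, 0, 100000, 0, 0, 0, ⟨0, 0⟩, 0⟩, 0, 0⟩ 0 0) (.cut .d (-20480) (.void 35 ⟨⟨0, 0, 0, 0, 0, 100000, 0, 0, 0, ⟨0, 0⟩, 0⟩, 0, 0⟩ 0 0) (.cut .v 16842752 (.cut .d (-18432) (.pos 45 .mp ⟨⟨66935582, 0, 0, 0, 0, 139286237, 0, 0, 0, ⟨0, 0⟩, 0⟩, 0, 0⟩ 0 0) (.cut .l 97131 (.void 45 ⟨⟨0, 0, 0, 0, 0, 100000, 0, 0, 0, ⟨0, 0⟩, 0⟩, 0, 0⟩ 0 0) (.cut .l 145697 (.void 45 ⟨⟨0, 0, 0, 0, 0, 100000, 0, 0, 0, ⟨0, 0⟩, 0⟩, 0, 0⟩ 0 0) (.cut .l 169980 (.void 45 ⟨⟨0, 0, 0, 0, 0, 100000, 0, 0, 0, ⟨0, 0⟩, 0⟩, 0, 0⟩ 0 0) (.cut .s 9830400 (.cut .s 9699328 (.pos 45 .mp ⟨⟨73242858, 0, 0, 0, 0,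 46901982, 0, 0, 0, ⟨0, 0⟩, 0⟩, 0, 0⟩ 0 0) (.cut .v 16809984 (.pos 47 .mp ⟨⟨72617536, 0, 0, 0, 0, 64003314, 0, 0, 0, ⟨0, 0⟩, 0⟩, 0, 0⟩ 0 0) (.pos 48 .mp ⟨⟨124935554, 0, 0, 0, 0, 0, 0, 0, 0, ⟨0, 0⟩, 0⟩, 0, 0⟩ 0 0))) (.cut .s 9961472 (.cut .v 16809984 (.pos 47 .mp ⟨⟨79246574, 0, 0, 0, 0, 67543058, 0, 0, 0, ⟨0, 0⟩, 0⟩, 0, 0⟩ 0 0) (.pos 48 .mp ⟨⟨133008999, 0, 0, 0, 0, 0, 0, 0, 0, ⟨0, 0⟩, 0⟩, 0, 0⟩ 0 0)) (.pos 45 .mp ⟨⟨88070143, 0, 0, 0, 0, 75328031, 0, 0, 0, ⟨0, 0⟩, 0⟩, 0, 0⟩ 0 0))))))) (.void 46 ⟨⟨100000, 0, 0, 0, 0, 0, 0, 0, 0, ⟨0, 0⟩, 0⟩, 0, 0⟩ 0 0)))) (.cut .s 9830400 (.cut .v 16842752 (.cut .s 9699328 (.cut .v 16809984 (.cut .s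 9633792 (.cut .s 9601024 (.cut .s 9584640 (.pos 47 .mp ⟨⟨69249106, 0, 0, 0, 0, 48233610, 0, 0, 0, ⟨0, 0⟩, 0⟩, 0, 0⟩ 0 0) (.pos 47 .mp ⟨⟨69635326, 0, 0, 0, 0, 48953606, 0, 0, 0, ⟨0, 0⟩, 0⟩, 0, 0⟩ 0 0)) (.cut .s 9617408 (.pos 47 .mp ⟨⟨70081035, 0, 0, 0, 0, 49632621, 0, 0, 0, ⟨0, 0⟩, 0⟩, 0, 0⟩ 0 0) (.pos 47 .mp ⟨⟨70849806, 0, 0, 0, 0, 49923371, 0, 0, 0, ⟨0, 0⟩, 0⟩, 0, 0⟩ 0 0))) (.cut .s 9666560 (.cut .l 97131 (.cut .d (-8192) (.pos 47 .mp ⟨⟨70297718, 0, 0, 0, 0, 54974416, 0, 0, 0, ⟨0, 0⟩, 0⟩, 0, 0⟩ 0 0) (.cut .s 9650176 (.pos 47 .mp ⟨⟨71060518, 0, 0, 0, 0, 50906808, 0, 0, 0, ⟨0, 0⟩, 0⟩, 0, 0⟩ 0 0) (.cut .s 9658368 (.pos 47 .mp ⟨⟨71915401,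 0, 0, 0, 0, 50890579, 0, 0, 0, ⟨0, 0⟩, 0⟩, 0, 0⟩ 0 0) (.pos 47 .mp ⟨⟨72214848, 0, 0, 0, 0, 51161690, 0, 0, 0, ⟨0, 0⟩, 0⟩, 0, 0⟩ 0 0)))) (.pos 47 .mp ⟨⟨71728344, 0, 0, 0, 0, 49983729, 0, 0, 0, ⟨0, 0⟩, 0⟩, 0, 0⟩ 0 0)) (.cut .s 9682944 (.cut .s 9674752 (.pos 47 .mp ⟨⟨73084396, 0, 0, 0, 0, 50694718, 0, 0, 0, ⟨0, 0⟩, 0⟩, 0, 0⟩ 0 0) (.pos 47 .mp ⟨⟨73321862, 0, 0, 0, 0, 51061510, 0, 0, 0, ⟨0, 0⟩, 0⟩, 0, 0⟩ 0 0)) (.cut .s 9691136 (.pos 47 .mp ⟨⟨73606841, 0, 0, 0, 0, 51373058, 0, 0, 0, ⟨0, 0⟩, 0⟩, 0, 0⟩ 0 0) (.pos 47 .mp ⟨⟨74009209, 0, 0, 0, 0, 51540315, 0, 0, 0, ⟨0, 0⟩, 0⟩, 0, 0⟩ 0 0))))) (.pos 48 .mp ⟨⟨111505142, 0, 0, 0, 0, 0, 0, 0,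 0, ⟨0, 0⟩, 0⟩, 0, 0⟩ 0 0)) (.cut .v 16809984 (.cut .s 9764864 (.cut .s 9732096 (.cut .s 9715712 (.cut .s 9707520 (.pos 47 .mp ⟨⟨74413723, 0, 0, 0, 0, 51709766, 0, 0, 0, ⟨0, 0⟩, 0⟩, 0, 0⟩ 0 0) (.pos 47 .mp ⟨⟨74820389, 0, 0, 0, 0, 51881404, 0, 0, 0, ⟨0, 0⟩, 0⟩, 0, 0⟩ 0 0)) (.cut .d (-8192) (.pos 47 .mp ⟨⟨74136331, 0, 0, 0, 0, 54388597, 0, 0, 0, ⟨0, 0⟩, 0⟩, 0, 0⟩ 0 0) (.cut .s 9723904 (.pos 47 .mp ⟨⟨74524655, 0, 0, 0, 0, 52970782, 0, 0, 0, ⟨0, 0⟩, 0⟩, 0, 0⟩ 0 0) (.pos 47 .mp ⟨⟨74977460, 0, 0, 0, 0, 53076872, 0, 0, 0, ⟨0, 0⟩, 0⟩, 0, 0⟩ 0 0)))) (.cut .s 9748480 (.cut .l 97131 (.cut .d (-8192) (.pos 47 .mp ⟨⟨74650332, 0, 0, 0, 0, 56114385,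 0, 0, 0, ⟨0, 0⟩, 0⟩, 0, 0⟩ 0 0) (.cut .s 9740288 (.pos 47 .mp ⟨⟨75435213, 0, 0, 0, 0, 53162357, 0, 0, 0, ⟨0, 0⟩, 0⟩, 0, 0⟩ 0 0) (.pos 47 .mp ⟨⟨75845612, 0, 0, 0, 0, 53349274, 0, 0, 0, ⟨0, 0⟩, 0⟩, 0, 0⟩ 0 0))) (.pos 47 .mp ⟨⟨75753511, 0, 0, 0, 0, 52694810, 0, 0, 0, ⟨0, 0⟩, 0⟩, 0, 0⟩ 0 0)) (.cut .s 9756672 (.cut .s 9752576 (.pos 47 .mp ⟨⟨76677182, 0, 0, 0, 0, 52873642, 0, 0, 0, ⟨0, 0⟩, 0⟩, 0, 0⟩ 0 0) (.pos 47 .mp ⟨⟨76886215, 0, 0, 0, 0, 52965881, 0, 0, 0, ⟨0, 0⟩, 0⟩, 0, 0⟩ 0 0)) (.cut .s 9760768 (.pos 47 .mp ⟨⟨77095796, 0, 0, 0, 0, 53058655, 0, 0, 0, ⟨0, 0⟩, 0⟩, 0, 0⟩ 0 0) (.pos 47 .mp ⟨⟨77305925, 0, 0, 0, 0, 53151963, 0, 0, 0, ⟨0,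 0⟩, 0⟩, 0, 0⟩ 0 0))))) (.cut .s 9797632 (.cut .s 9781248 (.cut .s 9773056 (.cut .s 9768960 (.pos 47 .mp ⟨⟨77516604, 0, 0, 0, 0, 53245803, 0, 0, 0, ⟨0, 0⟩, 0⟩, 0, 0⟩ 0 0) (.pos 47 .mp ⟨⟨77727833, 0, 0, 0, 0, 53340175, 0, 0, 0, ⟨0, 0⟩, 0⟩, 0, 0⟩ 0 0)) (.cut .s 9777152 (.pos 47 .mp ⟨⟨77939612, 0, 0, 0, 0, 53435078, 0, 0, 0, ⟨0, 0⟩, 0⟩, 0, 0⟩ 0 0) (.pos 47 .mp ⟨⟨78151944, 0, 0, 0, 0, 53530509, 0, 0, 0, ⟨0, 0⟩, 0⟩, 0, 0⟩ 0 0))) (.cut .s 9789440 (.cut .s 9785344 (.pos 47 .mp ⟨⟨78364827, 0, 0, 0, 0, 53626469, 0, 0, 0, ⟨0, 0⟩, 0⟩, 0, 0⟩ 0 0) (.pos 47 .mp ⟨⟨78578264, 0, 0, 0, 0, 53722956, 0, 0, 0, ⟨0, 0⟩, 0⟩, 0, 0⟩ 0 0)) (.cut .s 9793536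 (.pos 47 .mp ⟨⟨78792256, 0, 0, 0, 0, 53819968, 0, 0, 0, ⟨0, 0⟩, 0⟩, 0, 0⟩ 0 0) (.pos 47 .mp ⟨⟨79006802, 0, 0, 0, 0, 53917506, 0, 0, 0, ⟨0, 0⟩, 0⟩, 0, 0⟩ 0 0)))) (.cut .s 9814016 (.cut .s 9805824 (.cut .s 9801728 (.pos 47 .mp ⟨⟨79221905, 0, 0, 0, 0, 54015567, 0, 0, 0, ⟨0, 0⟩, 0⟩, 0, 0⟩ 0 0) (.pos 47 .mp ⟨⟨79437564, 0, 0, 0, 0, 54114151, 0, 0, 0, ⟨0, 0⟩, 0⟩, 0, 0⟩ 0 0)) (.cut .d (-8192) (.pos 47 .mp ⟨⟨78451307, 0, 0, 0, 0, 56394516, 0, 0, 0, ⟨0, 0⟩, 0⟩, 0, 0⟩ 0 0) (.cut .s 9809920 (.pos 47 .mp ⟨⟨78894393, 0, 0, 0, 0, 55204831, 0, 0, 0, ⟨0, 0⟩, 0⟩, 0, 0⟩ 0 0) (.pos 47 .mp ⟨⟨79119045, 0, 0, 0, 0, 55290773, 0, 0, 0, ⟨0, 0⟩, 0⟩, 0, 0⟩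 0 0)))) (.cut .s 9822208 (.cut .d (-8192) (.pos 47 .mp ⟨⟨78832273, 0, 0, 0, 0, 56673149, 0, 0, 0, ⟨0, 0⟩, 0⟩, 0, 0⟩ 0 0) (.cut .s 9818112 (.pos 47 .mp ⟨⟨79343644, 0, 0, 0, 0, 55378232, 0, 0, 0, ⟨0, 0⟩, 0⟩, 0, 0⟩ 0 0) (.pos 47 .mp ⟨⟨79568186, 0, 0, 0, 0, 55467220, 0, 0, 0, ⟨0, 0⟩, 0⟩, 0, 0⟩ 0 0))) (.cut .d (-8192) (.pos 47 .mp ⟨⟨79220941, 0, 0, 0, 0, 56946260, 0, 0, 0, ⟨0, 0⟩, 0⟩, 0, 0⟩ 0 0) (.cut .s 9826304 (.pos 47 .mp ⟨⟨79792665, 0, 0, 0, 0, 55557745, 0, 0, 0, ⟨0, 0⟩, 0⟩, 0, 0⟩ 0 0) (.pos 47 .mp ⟨⟨80017074, 0, 0, 0, 0, 55649817, 0, 0, 0, ⟨0, 0⟩, 0⟩, 0, 0⟩ 0 0))))))) (.pos 48 .mp ⟨⟨119686578, 0, 0, 0, 0, 0, 0, 0, 0, ⟨0, 0⟩, 0⟩,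 0, 0⟩ 0 0))) (.pos 46 .mp ⟨⟨117726539, 0, 0, 0, 0, 0, 0, 0, 0, ⟨0, 0⟩, 0⟩, 0, 0⟩ 0 0)) (.cut .v 16842752 (.cut .s 9961472 (.cut .s 9895936 (.cut .v 16809984 (.cut .s 9863168 (.cut .s 9846784 (.cut .s 9838592 (.cut .d (-8192) (.pos 47 .mp ⟨⟨79617398, 0, 0, 0, 0, 57213712, 0, 0, 0, ⟨0, 0⟩, 0⟩, 0, 0⟩ 0 0) (.cut .s 9834496 (.pos 47 .mp ⟨⟨80241410, 0, 0, 0, 0, 55743447, 0, 0, 0, ⟨0, 0⟩, 0⟩, 0, 0⟩ 0 0) (.pos 47 .mp ⟨⟨80465666, 0, 0, 0, 0, 55838644, 0, 0, 0, ⟨0, 0⟩, 0⟩, 0, 0⟩ 0 0))) (.cut .d (-8192) (.pos 47 .mp ⟨⟨80021735, 0, 0, 0, 0, 57475365, 0, 0, 0, ⟨0, 0⟩, 0⟩, 0, 0⟩ 0 0) (.cut .s 9842688 (.pos 47 .mp ⟨⟨80689837, 0, 0, 0, 0, 55935418,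 0, 0, 0, ⟨0, 0⟩, 0⟩, 0, 0⟩ 0 0) (.pos 47 .mp ⟨⟨80913917, 0, 0, 0, 0, 56033780, 0, 0, 0, ⟨0, 0⟩, 0⟩, 0, 0⟩ 0 0)))) (.cut .s 9854976 (.cut .d (-8192) (.pos 47 .mp ⟨⟨80434039, 0, 0, 0, 0, 57731083, 0, 0, 0, ⟨0, 0⟩, 0⟩, 0, 0⟩ 0 0) (.cut .s 9850880 (.pos 47 .mp ⟨⟨81137901, 0, 0, 0, 0, 56133739, 0, 0, 0, ⟨0, 0⟩, 0⟩, 0, 0⟩ 0 0) (.pos 47 .mp ⟨⟨81361783, 0, 0, 0, 0, 56235305, 0, 0, 0, ⟨0, 0⟩, 0⟩, 0, 0⟩ 0 0))) (.cut .d (-8192) (.pos 47 .mp ⟨⟨80854399, 0, 0, 0, 0, 57980727, 0, 0, 0, ⟨0, 0⟩, 0⟩, 0, 0⟩ 0 0) (.cut .s 9859072 (.pos 47 .mp ⟨⟨81585558, 0, 0, 0, 0, 56338488, 0, 0, 0, ⟨0, 0⟩, 0⟩, 0, 0⟩ 0 0) (.pos 47 .mp ⟨⟨81809219, 0, 0, 0, 0, 56443299,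 0, 0, 0, ⟨0, 0⟩, 0⟩, 0, 0⟩ 0 0))))) (.cut .s 9879552 (.cut .s 9871360 (.cut .d (-8192) (.pos 47 .mp ⟨⟨81282907, 0, 0, 0, 0, 58224158, 0, 0, 0, ⟨0, 0⟩, 0⟩, 0, 0⟩ 0 0) (.cut .s 9867264 (.pos 47 .mp ⟨⟨82032762, 0, 0, 0, 0, 56549748, 0, 0, 0, ⟨0, 0⟩, 0⟩, 0, 0⟩ 0 0) (.pos 47 .mp ⟨⟨82256180, 0, 0, 0, 0, 56657846, 0, 0, 0, ⟨0, 0⟩, 0⟩, 0, 0⟩ 0 0))) (.cut .d (-8192) (.pos 47 .mp ⟨⟨81719650, 0, 0, 0, 0, 58461236, 0, 0, 0, ⟨0, 0⟩, 0⟩, 0, 0⟩ 0 0) (.cut .s 9875456 (.pos 47 .mp ⟨⟨82479469, 0, 0, 0, 0, 56767601, 0, 0, 0, ⟨0, 0⟩, 0⟩, 0, 0⟩ 0 0) (.pos 47 .mp ⟨⟨82702622, 0, 0, 0, 0, 56879025, 0, 0, 0, ⟨0, 0⟩, 0⟩, 0, 0⟩ 0 0)))) (.cut .s 9887744 (.cut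 .d (-8192) (.pos 47 .mp ⟨⟨82164719, 0, 0, 0, 0, 58691820, 0, 0, 0, ⟨0, 0⟩, 0⟩, 0, 0⟩ 0 0) (.cut .s 9883648 (.pos 47 .mp ⟨⟨82925633, 0, 0, 0, 0, 56992129, 0, 0, 0, ⟨0, 0⟩, 0⟩, 0, 0⟩ 0 0) (.pos 47 .mp ⟨⟨83148497, 0, 0, 0, 0, 57106921, 0, 0, 0, ⟨0, 0⟩, 0⟩, 0, 0⟩ 0 0))) (.cut .d (-8192) (.pos 47 .mp ⟨⟨82618203, 0, 0, 0, 0, 58915771, 0, 0, 0, ⟨0, 0⟩, 0⟩, 0, 0⟩ 0 0) (.cut .s 9891840 (.pos 47 .mp ⟨⟨83371208, 0, 0, 0, 0, 57223414, 0, 0, 0, ⟨0, 0⟩, 0⟩, 0, 0⟩ 0 0) (.pos 47 .mp ⟨⟨83593760, 0, 0, 0, 0, 57341617, 0, 0, 0, ⟨0, 0⟩, 0⟩, 0, 0⟩ 0 0)))))) (.pos 48 .mp ⟨⟨124978805, 0, 0, 0, 0, 0, 0, 0, 0, ⟨0, 0⟩, 0⟩, 0, 0⟩ 0 0)) (.cut .v 16809984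 (.cut .s 9928704 (.cut .s 9912320 (.cut .s 9904128 (.cut .d (-8192) (.pos 47 .mp ⟨⟨83080193, 0, 0, 0, 0, 59132948, 0, 0, 0, ⟨0, 0⟩, 0⟩, 0, 0⟩ 0 0) (.cut .s 9900032 (.pos 47 .mp ⟨⟨83816148, 0, 0, 0, 0, 57461542, 0, 0, 0, ⟨0, 0⟩, 0⟩, 0, 0⟩ 0 0) (.pos 47 .mp ⟨⟨84038365, 0, 0, 0, 0, 57583198, 0, 0, 0, ⟨0, 0⟩, 0⟩, 0, 0⟩ 0 0))) (.cut .d (-8192) (.pos 47 .mp ⟨⟨83550778, 0, 0, 0, 0, 59343208, 0, 0, 0, ⟨0, 0⟩, 0⟩, 0, 0⟩ 0 0) (.cut .s 9908224 (.pos 47 .mp ⟨⟨84260406, 0, 0, 0, 0, 57706596, 0, 0, 0, ⟨0, 0⟩, 0⟩, 0, 0⟩ 0 0) (.pos 47 .mp ⟨⟨84482265, 0, 0, 0, 0, 57831747, 0, 0, 0, ⟨0, 0⟩, 0⟩, 0, 0⟩ 0 0)))) (.cut .s 9920512 (.cut .d (-8192) (.pos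 47 .mp ⟨⟨84030049, 0, 0, 0, 0, 59546409, 0, 0, 0, ⟨0, 0⟩, 0⟩, 0, 0⟩ 0 0) (.cut .s 9916416 (.pos 47 .mp ⟨⟨84703936, 0, 0, 0, 0, 57958661, 0, 0, 0, ⟨0, 0⟩, 0⟩, 0, 0⟩ 0 0) (.pos 47 .mp ⟨⟨84925413, 0, 0, 0, 0, 58087350, 0, 0, 0, ⟨0, 0⟩, 0⟩, 0, 0⟩ 0 0))) (.cut .d (-8192) (.pos 47 .mp ⟨⟨84518096, 0, 0, 0, 0, 59742409, 0, 0, 0, ⟨0, 0⟩, 0⟩, 0, 0⟩ 0 0) (.cut .s 9924608 (.pos 47 .mp ⟨⟨85146690, 0, 0, 0, 0, 58217825, 0, 0, 0, ⟨0, 0⟩, 0⟩, 0, 0⟩ 0 0) (.pos 47 .mp ⟨⟨85367760, 0, 0, 0, 0, 58350095, 0, 0, 0, ⟨0, 0⟩, 0⟩, 0, 0⟩ 0 0))))) (.cut .s 9945088 (.cut .s 9936896 (.cut .d (-8192) (.pos 47 .mp ⟨⟨85015011, 0, 0, 0, 0, 59931065, 0, 0, 0, ⟨0,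 0⟩, 0⟩, 0, 0⟩ 0 0) (.cut .s 9932800 (.pos 47 .mp ⟨⟨85588619, 0, 0, 0, 0, 58484172, 0, 0, 0, ⟨0, 0⟩, 0⟩, 0, 0⟩ 0 0) (.pos 47 .mp ⟨⟨85809261, 0, 0, 0, 0, 58620067, 0, 0, 0, ⟨0, 0⟩, 0⟩, 0, 0⟩ 0 0))) (.cut .d (-8192) (.pos 47 .mp ⟨⟨85520883, 0, 0, 0, 0, 60112233, 0, 0, 0, ⟨0, 0⟩, 0⟩, 0, 0⟩ 0 0) (.cut .s 9940992 (.pos 47 .mp ⟨⟨86029678, 0, 0, 0, 0, 58757791, 0, 0, 0, ⟨0, 0⟩, 0⟩, 0, 0⟩ 0 0) (.pos 47 .mp ⟨⟨86249865, 0, 0, 0, 0, 58897355, 0, 0, 0, ⟨0, 0⟩, 0⟩, 0, 0⟩ 0 0)))) (.cut .s 9953280 (.cut .s 9949184 (.cut .s 9947136 (.pos 47 .mp ⟨⟨87225115, 0, 0, 0, 0, 57941499, 0, 0, 0, ⟨0, 0⟩, 0⟩, 0, 0⟩ 0 0) (.pos 47 .mp ⟨⟨87343033, 0, 0, 0, 0,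 57999816, 0, 0, 0, ⟨0, 0⟩, 0⟩, 0, 0⟩ 0 0)) (.pos 47 .mp ⟨⟨87579311, 0, 0, 0, 0, 58001280, 0, 0, 0, ⟨0, 0⟩, 0⟩, 0, 0⟩ 0 0)) (.cut .s 9957376 (.pos 47 .mp ⟨⟨87816177, 0, 0, 0, 0, 58118360, 0, 0, 0, ⟨0, 0⟩, 0⟩, 0, 0⟩ 0 0) (.pos 47 .mp ⟨⟨88053634, 0, 0, 0, 0, 58235916, 0, 0, 0, ⟨0, 0⟩, 0⟩, 0, 0⟩ 0 0))))) (.pos 48 .mp ⟨⟨129807294, 0, 0, 0, 0, 0, 0, 0, 0, ⟨0, 0⟩, 0⟩, 0, 0⟩ 0 0))) (.cut .s 10027008 (.cut .v 16809984 (.cut .s 9994240 (.cut .s 9977856 (.cut .s 9969664 (.cut .s 9965568 (.pos 47 .mp ⟨⟨88291682, 0, 0, 0, 0, 58353947, 0, 0, 0, ⟨0, 0⟩, 0⟩, 0, 0⟩ 0 0) (.pos 47 .mp ⟨⟨88530322, 0, 0, 0, 0, 58472451, 0, 0, 0, ⟨0, 0⟩, 0⟩, 0, 0⟩ 0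 0)) (.cut .s 9973760 (.pos 47 .mp ⟨⟨88769555, 0, 0, 0, 0, 58591427, 0, 0, 0, ⟨0, 0⟩, 0⟩, 0, 0⟩ 0 0) (.pos 47 .mp ⟨⟨89009382, 0, 0, 0, 0, 58710874, 0, 0, 0, ⟨0, 0⟩, 0⟩, 0, 0⟩ 0 0))) (.cut .s 9986048 (.cut .s 9981952 (.pos 47 .mp ⟨⟨89249804, 0, 0, 0, 0, 58830790, 0, 0, 0, ⟨0, 0⟩, 0⟩, 0, 0⟩ 0 0) (.pos 47 .mp ⟨⟨89490821, 0, 0, 0, 0, 58951174, 0, 0, 0, ⟨0, 0⟩, 0⟩, 0, 0⟩ 0 0)) (.cut .s 9990144 (.pos 47 .mp ⟨⟨89732436, 0, 0, 0, 0, 59072024, 0, 0, 0, ⟨0, 0⟩, 0⟩, 0, 0⟩ 0 0) (.pos 47 .mp ⟨⟨89974647, 0, 0, 0, 0, 59193340, 0, 0, 0, ⟨0, 0⟩, 0⟩, 0, 0⟩ 0 0)))) (.cut .s 10010624 (.cut .s 10002432 (.cut .s 9998336 (.pos 47 .mp ⟨⟨90217458, 0, 0,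 0, 0, 59315119, 0, 0, 0, ⟨0, 0⟩, 0⟩, 0, 0⟩ 0 0) (.pos 47 .mp ⟨⟨90460868, 0, 0, 0, 0, 59437361, 0, 0, 0, ⟨0, 0⟩, 0⟩, 0, 0⟩ 0 0)) (.cut .s 10006528 (.pos 47 .mp ⟨⟨90704878, 0, 0, 0, 0, 59560064, 0, 0, 0, ⟨0, 0⟩, 0⟩, 0, 0⟩ 0 0) (.pos 47 .mp ⟨⟨90949490, 0, 0, 0, 0, 59683227, 0, 0, 0, ⟨0, 0⟩, 0⟩, 0, 0⟩ 0 0))) (.cut .l 97131 (.cut .d (-8192) (.pos 47 .mp ⟨⟨89551254, 0, 0, 0, 0, 64635077, 0, 0, 0, ⟨0, 0⟩, 0⟩, 0, 0⟩ 0 0) (.cut .s 10018816 (.pos 47 .mp ⟨⟨90631342, 0, 0, 0, 0, 60698739, 0, 0, 0, ⟨0, 0⟩, 0⟩, 0, 0⟩ 0 0) (.pos 47 .mp ⟨⟨91118425, 0, 0, 0, 0, 60955340, 0, 0, 0, ⟨0, 0⟩, 0⟩, 0, 0⟩ 0 0))) (.pos 47 .mp ⟨⟨91093147, 0, 0, 0, 0, 60022183,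 0, 0, 0, ⟨0, 0⟩, 0⟩, 0, 0⟩ 0 0)))) (.pos 48 .mp ⟨⟨134928451, 0, 0, 0, 0, 0, 0, 0, 0, ⟨0, 0⟩, 0⟩, 0, 0⟩ 0 0)) (.cut .v 16809984 (.cut .s 10059776 (.cut .s 10043392 (.cut .d (-8192) (.pos 47 .mp ⟨⟨91059720, 0, 0, 0, 0, 63160949, 0, 0, 0, ⟨0, 0⟩, 0⟩, 0, 0⟩ 0 0) (.cut .s 10035200 (.pos 47 .mp ⟨⟨91531648, 0, 0, 0, 0, 61363513, 0, 0, 0, ⟨0, 0⟩, 0⟩, 0, 0⟩ 0 0) (.pos 47 .mp ⟨⟨91978222, 0, 0, 0, 0, 61704067, 0, 0, 0, ⟨0, 0⟩, 0⟩, 0, 0⟩ 0 0))) (.cut .s 10051584 (.pos 47 .mp ⟨⟨93428898, 0, 0, 0, 0, 60690451, 0, 0, 0, ⟨0, 0⟩, 0⟩, 0, 0⟩ 0 0) (.pos 47 .mp ⟨⟨93932093, 0, 0, 0, 0, 60945553, 0, 0, 0, ⟨0, 0⟩, 0⟩, 0, 0⟩ 0 0))) (.cut .s 10076160 (.cut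 .s 10067968 (.pos 47 .mp ⟨⟨94437744, 0, 0, 0, 0, 61202416, 0, 0, 0, ⟨0, 0⟩, 0⟩, 0, 0⟩ 0 0) (.pos 47 .mp ⟨⟨94945859, 0, 0, 0, 0, 61461030, 0, 0, 0, ⟨0, 0⟩, 0⟩, 0, 0⟩ 0 0)) (.cut .s 10084352 (.pos 47 .mp ⟨⟨95519091, 0, 0, 0, 0, 61639226, 0, 0, 0, ⟨0, 0⟩, 0⟩, 0, 0⟩ 0 0) (.pos 47 .mp ⟨⟨96238340, 0, 0, 0, 0, 61630687, 0, 0, 0, ⟨0, 0⟩, 0⟩, 0, 0⟩ 0 0)))) (.pos 48 .mp ⟨⟨142475764, 0, 0, 0, 0, 0, 0, 0, 0, ⟨0, 0⟩, 0⟩, 0, 0⟩ 0 0)))) (.pos 46 .mp ⟨⟨136116996, 0, 0, 0, 0, 0, 0, 0, 0, ⟨0, 0⟩, 0⟩, 0, 0⟩ 0 0)))) (.pos 36 .mp ⟨⟨140131299, 0, 0, 0, 0, 0, 0, 0, 0, ⟨0, 0⟩, 0⟩, 0, 0⟩ 0 0)) (.void 34 ⟨⟨100000, 0, 0, 0, 0, 0, 0, 0, 0, ⟨0, 0⟩, 0⟩, 0,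 0⟩ 0 0)) (.void 32 ⟨⟨100000, 0, 0, 0, 0, 0, 0, 0, 0, ⟨0, 0⟩, 0⟩, 0, 0⟩ 0 0)))))))) (.void 30 ⟨⟨100000, 0, 0, 0, 0, 0, 0, 0, 0, ⟨0, 0⟩, 0⟩, 0, 0⟩ 0 0))) (.void 28 ⟨⟨100000, 0, 0, 0, 0, 0, 0, 0, 0, ⟨0, 0⟩, 0⟩, 0, 0⟩ 0 0))) (.void 26 ⟨⟨100000, 0, 0, 0, 0, 0, 0, 0, 0, ⟨0, 0⟩, 0⟩, 0, 0⟩ 0 0))) (.void 24 ⟨⟨100000, 0, 0, 0, 0, 0, 0, 0, 0, ⟨0, 0⟩, 0⟩, 0, 0⟩ 0 0)) (.void 123 ⟨⟨100000, 0, 0, 0, 0, 0, 0, 0, 0, ⟨0, 0⟩, 0⟩, 0, 0⟩ 0 0)) (.void 142 ⟨⟨100000, 0, 0, 0, 0, 0, 0, 0, 0, ⟨0, 0⟩, 0⟩, 0, 0⟩ 0 0))) (.cut .v 16777216 (.cut .v 8388608 (.cut .v 4194304 (.void 4 ⟨⟨0, 0, 66667, 0, 0, 0, 0, 0, 0, ⟨0, 0⟩, 0⟩, 0, 33333⟩ 0 0) (.pos 5 .pm ⟨⟨0,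 0, 709026, 0, 0, 0, 0, 0, 0, ⟨0, 0⟩, 0⟩, 0, 0⟩ 0 0)) (.pos 3 .pm ⟨⟨0, 0, 0, 0, 0, 0, 0, 0, 0, ⟨0, 0⟩, 0⟩, 0, 0⟩ 0 0)) (.cut .v 67108864 (.cut .d 6320185 (.cut .v 33554432 (.cut .d 3160092 (.cut .v 25165824 (.cut .d 1580046 (.cut .d 790023 (.cut .v 20971520 (.cut .d 395011 (.cut .v 18874368 (.cut .s 9830400 (.pos 27 .pp ⟨⟨76406991, 0, 0, 0, 0, 0, 0, 0, 0, ⟨0, 0⟩, 0⟩, 2621936, 0⟩ 0 0) (.pos 27 .pp ⟨⟨102844054, 0, 0, 0, 0, 0, 0, 0, 0, ⟨0, 0⟩, 0⟩, 1806512, 0⟩ 0 0)) (.pos 28 .pp ⟨⟨153874480, 0, 0, 0, 0, 0, 0, 0, 0, ⟨0, 0⟩, 0⟩, 0, 0⟩ 0 0)) (.pos 25 .pp ⟨⟨81740308, 0, 0, 0, 0, 0, 388679, 0, 0, ⟨0, 0⟩, 0⟩, 0, 0⟩ 0 0)) (.cut .d 395011 (.pos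 26 .pp ⟨⟨233682013, 0, 0, 0, 0, 0, 0, 0, 0, ⟨0, 0⟩, 0⟩, 0, 0⟩ 0 0) (.pos 26 .pp ⟨⟨0, 0, 0, 0, 0, 0, 0, 0, 0, ⟨0, 0⟩, 0⟩, 12434499, 0⟩ 0 0))) (.pos 23 .pp ⟨⟨0, 0, 0, 0, 0, 0, 331312, 0, 0, ⟨0, 0⟩, 0⟩, 8409785, 0⟩ 0 0)) (.pos 23 .pp ⟨⟨0, 0, 0, 0, 0, 0, 0, 0, 0, ⟨0, 0⟩, 0⟩, 0, 480197⟩ 0 0)) (.cut .d 1580046 (.cut .d 790023 (.pos 24 .pp ⟨⟨0, 0, 0, 0, 0, 0, 0, 0, 0, ⟨0, 0⟩, 0⟩, 31678539, 0⟩ 0 0) (.pos 24 .pp ⟨⟨0, 0, 0, 0, 0, 0, 0, 0, 0, ⟨0, 0⟩, 0⟩, 15406860, 0⟩ 0 0)) (.pos 24 .pp ⟨⟨0, 0, 0, 0, 0, 0, 100471, 0, 0, ⟨0, 0⟩, 0⟩, 10660626, 0⟩ 0 0))) (.pos 22 .pp ⟨⟨0, 0, 0, 0, 0, 0, 0, 0, 0, ⟨0, 0⟩, 0⟩, 0, 533552⟩ 0 0)) (.cut .d 3160092 (.cut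 .v 50331648 (.cut .d 1580046 (.void 128 ⟨⟨0, 0, 0, 0, 0, 0, 0, 0, 0, ⟨0, 0⟩, 0⟩, 100000, 0⟩ 0 0) (.pos 128 .pp ⟨⟨0, 0, 0, 0, 0, 0, 0, 0, 0, ⟨0, 0⟩, 0⟩, 21145501, 0⟩ 0 0)) (.void 129 ⟨⟨0, 0, 0, 0, 0, 0, 0, 0, 0, ⟨0, 0⟩, 0⟩, 100000, 0⟩ 0 0)) (.cut .v 50331648 (.pos 128 .pp ⟨⟨0, 0, 0, 0, 0, 0, 0, 0, 0, ⟨0, 0⟩, 0⟩, 13298234, 0⟩ 0 0) (.pos 129 .pp ⟨⟨0, 0, 0, 0, 0, 0, 106827479, 0, 0, ⟨0, 0⟩, 0⟩, 23971827, 0⟩ 0 0)))) (.pos 122 .pp ⟨⟨0, 0, 0, 0, 0, 0, 41073230, 0, 0, ⟨0, 0⟩, 0⟩, 0, 0⟩ 0 0)) (.void 142 ⟨⟨0, 93194, 0, 0, 0, 0, 0, 0, 0, ⟨0, 0⟩, 0⟩, 6806, 0⟩ 0 0)))),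
    by decide +kernel⟩

def covers13 : cell.Covers Vale.Agent.P237.Petty.Cor.Grid.N19.table row13.1 :=
  ⟨(.cut .d 0 (.cut .v 16777216 (.cut .d (-8388608) (.void 1 ⟨⟨0, 0, 0, 0, 0, 100000, 0, 0, 0, ⟨0, 0⟩, 0⟩, 0, 0⟩ 0 0) (.cut .d (-4194304) (.void 1 ⟨⟨0, 0, 0, 0, 0, 100000, 0, 0, 0, ⟨0, 0⟩, 0⟩, 0, 0⟩ 0 0) (.cut .d (-2097152) (.void 1 ⟨⟨0, 0, 0, 0, 0, 100000, 0, 0, 0, ⟨0, 0⟩, 0⟩, 0, 0⟩ 0 0) (.cut .d (-1048576) (.void 1 ⟨⟨0, 0, 0, 0, 0, 100000, 0, 0, 0, ⟨0, 0⟩, 0⟩, 0, 0⟩ 0 0) (.cut .d (-524288) (.void 1 ⟨⟨0, 0, 0, 0, 0, 100000, 0, 0, 0, ⟨0, 0⟩, 0⟩, 0, 0⟩ 0 0) (.cut .d (-262144) (.void 1 ⟨⟨0, 0, 0, 0, 0, 100000, 0, 0, 0, ⟨0, 0⟩, 0⟩,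 0, 0⟩ 0 0) (.cut .d (-131072) (.void 1 ⟨⟨0, 0, 0, 0, 0, 100000, 0, 0, 0, ⟨0, 0⟩, 0⟩, 0, 0⟩ 0 0) (.cut .d (-65536) (.void 1 ⟨⟨0, 0, 0, 0, 0, 100000, 0, 0, 0, ⟨0, 0⟩, 0⟩, 0, 0⟩ 0 0) (.cut .d (-32768) (.void 1 ⟨⟨0, 0, 0, 0, 0, 100000, 0, 0, 0, ⟨0, 0⟩, 0⟩, 0, 0⟩ 0 0) (.cut .d (-16384) (.void 1 ⟨⟨0, 0, 0, 0, 0, 100000, 0, 0, 0, ⟨0, 0⟩, 0⟩, 0, 0⟩ 0 0) (.cut .v 8388608 (.cut .v 4194304 (.void 4 ⟨⟨0, 0, 100000, 0, 0, 0, 0, 0, 0, ⟨0, 0⟩, 0⟩, 0, 0⟩ 0 0) (.pos 5 .mm ⟨⟨0, 0, 1551308, 0, 0, 82128445, 0, 0, 0, ⟨0, 0⟩, 0⟩, 0, 0⟩ 0 0)) (.cut .v 12582912 (.pos 8 .mm ⟨⟨0, 0, 0, 0, 0, 127649199, 0, 0, 0, ⟨0, 0⟩, 0⟩, 0, 0⟩ 0 0) (.cut .v 14680064 (.pos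 12 .mm ⟨⟨0, 0, 0, 0, 0, 151708821, 0, 0, 0, ⟨0, 0⟩, 0⟩, 0, 0⟩ 0 0) (.cut .v 15728640 (.pos 20 .mm ⟨⟨0, 0, 0, 0, 0, 164257357, 0, 0, 0, ⟨0, 0⟩, 0⟩, 0, 0⟩ 0 0) (.cut .v 16252928 (.pos 37 .mm ⟨⟨0, 0, 0, 0, 0, 170661306, 0, 0, 0, ⟨0, 0⟩, 0⟩, 0, 0⟩ 0 0) (.cut .v 16515072 (.pos 41 .mm ⟨⟨0, 0, 0, 0, 0, 185789192, 0, 0, 0, ⟨0, 0⟩, 0⟩, 0, 0⟩ 0 0) (.cut .v 16646144 (.pos 43 .mm ⟨⟨0, 0, 0, 0, 0, 202928792, 0, 0, 0, ⟨0, 0⟩, 0⟩, 0, 0⟩ 0 0) (.cut .v 16711680 (.pos 49 .mm ⟨⟨0, 0, 0, 0, 0, 208883076, 0, 0, 0, ⟨0, 0⟩, 0⟩, 0, 0⟩ 0 0) (.cut .v 16744448 (.pos 53 .mm ⟨⟨0, 0, 0, 0, 0, 211879352, 0, 0, 0, ⟨0, 0⟩, 0⟩, 0, 0⟩ 0 0) (.cut .s 10289152 (.cut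 .s 10190848 (.pos 54 .mm ⟨⟨0, 0, 0, 0, 0, 196157945, 0, 0, 0, ⟨0, 0⟩, 0⟩, 0, 0⟩ 0 0) (.pos 54 .mm ⟨⟨0, 0, 0, 0, 0, 208470480, 0, 0, 0, ⟨0, 0⟩, 0⟩, 0, 0⟩ 0 0)) (.cut .s 10387456 (.pos 54 .mm ⟨⟨0, 0, 0, 0, 0, 221959031, 0, 0, 0, ⟨0, 0⟩, 0⟩, 0, 0⟩ 0 0) (.pos 54 .mm ⟨⟨0, 0, 0, 0, 0, 236651606, 0, 0, 0, ⟨0, 0⟩, 0⟩, 0, 0⟩ 0 0)))))))))))))))))))))) (.cut .v 67108864 (.cut .v 33554432 (.cut .v 25165824 (.cut .d (-8388608) (.void 23 ⟨⟨0, 0, 0, 0, 0, 100000, 0, 0, 0, ⟨0, 0⟩, 0⟩, 0, 0⟩ 0 0) (.cut .v 20971520 (.cut .d (-4194304) (.void 25 ⟨⟨100000, 0, 0, 0, 0, 0, 0, 0, 0, ⟨0, 0⟩, 0⟩, 0, 0⟩ 0 0) (.cut .v 18874368 (.cut .d (-2097152) (.void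 27 ⟨⟨100000, 0, 0, 0, 0, 0, 0, 0, 0, ⟨0, 0⟩, 0⟩, 0, 0⟩ 0 0) (.cut .v 17825792 (.cut .d (-1048576) (.void 29 ⟨⟨100000, 0, 0, 0, 0, 0, 0, 0, 0, ⟨0, 0⟩, 0⟩, 0, 0⟩ 0 0) (.cut .v 17301504 (.cut .d (-524288) (.void 31 ⟨⟨100000, 0, 0, 0, 0, 0, 0, 0, 0, ⟨0, 0⟩, 0⟩, 0, 0⟩ 0 0) (.cut .v 17039360 (.cut .d (-262144) (.void 33 ⟨⟨100000, 0, 0, 0, 0, 0, 0, 0, 0, ⟨0, 0⟩, 0⟩, 0, 0⟩ 0 0) (.cut .d (-131072) (.void 33 ⟨⟨100000, 0, 0, 0, 0, 0, 0, 0, 0, ⟨0, 0⟩, 0⟩, 0, 0⟩ 0 0) (.cut .d (-65536) (.void 33 ⟨⟨100000, 0, 0, 0, 0, 0, 0, 0, 0, ⟨0, 0⟩, 0⟩, 0, 0⟩ 0 0) (.cut .d (-32768) (.void 33 ⟨⟨0, 0, 0, 0, 0, 100000, 0, 0, 0, ⟨0, 0⟩, 0⟩, 0, 0⟩ 0 0) (.cut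 .d (-16384) (.void 33 ⟨⟨0, 0, 0, 0, 0, 100000, 0, 0, 0, ⟨0, 0⟩, 0⟩, 0, 0⟩ 0 0) (.cut .v 16908288 (.cut .s 10289152 (.cut .v 16842752 (.cut .s 10190848 (.cut .v 16809984 (.cut .s 10141696 (.cut .s 10117120 (.cut .s 10104832 (.pos 47 .mp ⟨⟨96739393, 0, 0, 0, 0, 62125232, 0, 0, 0, ⟨0, 0⟩, 0⟩, 0, 0⟩ 0 0) (.cut .s 10110976 (.pos 47 .mp ⟨⟨97963759, 0, 0, 0, 0, 61513970, 0, 0, 0, ⟨0, 0⟩, 0⟩, 0, 0⟩ 0 0) (.pos 47 .mp ⟨⟨98225211, 0, 0, 0, 0, 61822275, 0, 0, 0, ⟨0, 0⟩, 0⟩, 0, 0⟩ 0 0))) (.cut .s 10129408 (.cut .s 10123264 (.pos 47 .mp ⟨⟨98491062, 0, 0, 0, 0, 62128798, 0, 0, 0, ⟨0, 0⟩, 0⟩, 0, 0⟩ 0 0) (.pos 47 .mp ⟨⟨98761367, 0, 0, 0, 0, 62433463,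 0, 0, 0, ⟨0, 0⟩, 0⟩, 0, 0⟩ 0 0)) (.cut .s 10135552 (.pos 47 .mp ⟨⟨99014088, 0, 0, 0, 0, 62769538, 0, 0, 0, ⟨0, 0⟩, 0⟩, 0, 0⟩ 0 0) (.pos 47 .mp ⟨⟨99268524, 0, 0, 0, 0, 63107938, 0, 0, 0, ⟨0, 0⟩, 0⟩, 0, 0⟩ 0 0)))) (.cut .s 10166272 (.cut .s 10153984 (.cut .s 10147840 (.pos 47 .mp ⟨⟨99528223, 0, 0, 0, 0, 63443317, 0, 0, 0, ⟨0, 0⟩, 0⟩, 0, 0⟩ 0 0) (.pos 47 .mp ⟨⟨99906097, 0, 0, 0, 0, 63626788, 0, 0, 0, ⟨0, 0⟩, 0⟩, 0, 0⟩ 0 0)) (.cut .s 10160128 (.pos 47 .mp ⟨⟨100309238, 0, 0, 0, 0, 63780697, 0, 0, 0, ⟨0, 0⟩, 0⟩, 0, 0⟩ 0 0) (.pos 47 .mp ⟨⟨100714015, 0, 0, 0, 0, 63936186, 0, 0, 0, ⟨0, 0⟩, 0⟩, 0, 0⟩ 0 0))) (.cut .s 10178560 (.cut .s 10172416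 (.pos 47 .mp ⟨⟨101120432, 0, 0, 0, 0, 64093250, 0, 0, 0, ⟨0, 0⟩, 0⟩, 0, 0⟩ 0 0) (.pos 47 .mp ⟨⟨101528493, 0, 0, 0, 0, 64251884, 0, 0, 0, ⟨0, 0⟩, 0⟩, 0, 0⟩ 0 0)) (.cut .s 10184704 (.pos 47 .mp ⟨⟨101938202, 0, 0, 0, 0, 64412081, 0, 0, 0, ⟨0, 0⟩, 0⟩, 0, 0⟩ 0 0) (.pos 47 .mp ⟨⟨102349562, 0, 0, 0, 0, 64573836, 0, 0, 0, ⟨0, 0⟩, 0⟩, 0, 0⟩ 0 0))))) (.pos 48 .mp ⟨⟨148633797, 0, 0, 0, 0, 0, 0, 0, 0, ⟨0, 0⟩, 0⟩, 0, 0⟩ 0 0)) (.cut .v 16809984 (.cut .s 10240000 (.cut .s 10215424 (.cut .s 10203136 (.cut .d (-8192) (.pos 47 .mp ⟨⟨99553340, 0, 0, 0, 0, 70700894, 0, 0, 0, ⟨0, 0⟩, 0⟩, 0, 0⟩ 0 0) (.cut .s 10196992 (.pos 47 .mp ⟨⟨101666188, 0, 0,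 0, 0, 66214076, 0, 0, 0, ⟨0, 0⟩, 0⟩, 0, 0⟩ 0 0) (.pos 47 .mp ⟨⟨102099078, 0, 0, 0, 0, 66342546, 0, 0, 0, ⟨0, 0⟩, 0⟩, 0, 0⟩ 0 0))) (.cut .d (-8192) (.pos 47 .mp ⟨⟨100357225, 0, 0, 0, 0, 71052088, 0, 0, 0, ⟨0, 0⟩, 0⟩, 0, 0⟩ 0 0) (.cut .s 10209280 (.pos 47 .mp ⟨⟨102547072, 0, 0, 0, 0, 66454315, 0, 0, 0, ⟨0, 0⟩, 0⟩, 0, 0⟩ 0 0) (.pos 47 .mp ⟨⟨102995009, 0, 0, 0, 0, 66570474, 0, 0, 0, ⟨0, 0⟩, 0⟩, 0, 0⟩ 0 0)))) (.cut .s 10227712 (.cut .d (-8192) (.pos 47 .mp ⟨⟨101167473, 0, 0, 0, 0, 71413311, 0, 0, 0, ⟨0, 0⟩, 0⟩, 0, 0⟩ 0 0) (.cut .s 10221568 (.pos 47 .mp ⟨⟨103442862, 0, 0, 0, 0, 66691069, 0, 0, 0, ⟨0, 0⟩, 0⟩, 0, 0⟩ 0 0) (.pos 47 .mp ⟨⟨103865103,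 0, 0, 0, 0, 66854953, 0, 0, 0, ⟨0, 0⟩, 0⟩, 0, 0⟩ 0 0))) (.cut .d (-8192) (.pos 47 .mp ⟨⟨101984113, 0, 0, 0, 0, 71784631, 0, 0, 0, ⟨0, 0⟩, 0⟩, 0, 0⟩ 0 0) (.cut .s 10233856 (.pos 47 .mp ⟨⟨104282313, 0, 0, 0, 0, 67030852, 0, 0, 0, ⟨0, 0⟩, 0⟩, 0, 0⟩ 0 0) (.pos 47 .mp ⟨⟨104701173, 0, 0, 0, 0, 67208607, 0, 0, 0, ⟨0, 0⟩, 0⟩, 0, 0⟩ 0 0))))) (.cut .s 10264576 (.cut .s 10252288 (.cut .d (-8192) (.pos 47 .mp ⟨⟨102807178, 0, 0, 0, 0, 72166118, 0, 0, 0, ⟨0, 0⟩, 0⟩, 0, 0⟩ 0 0) (.cut .s 10246144 (.pos 47 .mp ⟨⟨105121688, 0, 0, 0, 0, 67388216, 0, 0, 0, ⟨0, 0⟩, 0⟩, 0, 0⟩ 0 0) (.pos 47 .mp ⟨⟨105543860, 0, 0, 0, 0, 67569679, 0, 0, 0, ⟨0, 0⟩, 0⟩,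 0, 0⟩ 0 0))) (.cut .d (-8192) (.cut .s 10258432 (.pos 47 .mp ⟨⟨103636700, 0, 0, 0, 0, 72071307, 0, 0, 0, ⟨0, 0⟩, 0⟩, 0, 0⟩ 0 0) (.pos 47 .mp ⟨⟨104053892, 0, 0, 0, 0, 72268293, 0, 0, 0, ⟨0, 0⟩, 0⟩, 0, 0⟩ 0 0)) (.cut .s 10258432 (.pos 47 .mp ⟨⟨105967695, 0, 0, 0, 0, 67752994, 0, 0, 0, ⟨0, 0⟩, 0⟩, 0, 0⟩ 0 0) (.pos 47 .mp ⟨⟨106393196, 0, 0, 0, 0, 67938158, 0, 0, 0, ⟨0, 0⟩, 0⟩, 0, 0⟩ 0 0)))) (.cut .s 10276864 (.cut .d (-8192) (.cut .s 10270720 (.pos 47 .mp ⟨⟨104472710, 0, 0, 0, 0, 72467860, 0, 0, 0, ⟨0, 0⟩, 0⟩, 0, 0⟩ 0 0) (.pos 47 .mp ⟨⟨104893158, 0, 0, 0, 0, 72670018, 0, 0, 0, ⟨0, 0⟩, 0⟩, 0, 0⟩ 0 0)) (.cut .v 16793600 (.cut .s 10270720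 (.pos 51 .mp ⟨⟨106608420, 0, 0, 0, 0, 68415028, 0, 0, 0, ⟨0, 0⟩, 0⟩, 0, 0⟩ 0 0) (.pos 51 .mp ⟨⟨107036497, 0, 0, 0, 0, 68605071, 0, 0, 0, ⟨0, 0⟩, 0⟩, 0, 0⟩ 0 0)) (.pos 52 .mp ⟨⟨154735932, 0, 0, 0, 0, 0, 0, 0, 0, ⟨0, 0⟩, 0⟩, 0, 0⟩ 0 0))) (.cut .d (-8192) (.cut .s 10283008 (.pos 47 .mp ⟨⟨105315241, 0, 0, 0, 0, 72874776, 0, 0, 0, ⟨0, 0⟩, 0⟩, 0, 0⟩ 0 0) (.pos 47 .mp ⟨⟨105738961, 0, 0, 0, 0, 73082142, 0, 0, 0, ⟨0, 0⟩, 0⟩, 0, 0⟩ 0 0)) (.cut .v 16793600 (.cut .s 10283008 (.pos 51 .mp ⟨⟨107466251, 0, 0, 0, 0, 68796963, 0, 0, 0, ⟨0, 0⟩, 0⟩, 0, 0⟩ 0 0) (.cut .s 10286080 (.pos 51 .mp ⟨⟨108380669, 0, 0, 0, 0, 68212520, 0, 0, 0, ⟨0, 0⟩, 0⟩,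 0, 0⟩ 0 0) (.pos 51 .mp ⟨⟨108587226, 0, 0, 0, 0, 68322716, 0, 0, 0, ⟨0, 0⟩, 0⟩, 0, 0⟩ 0 0))) (.pos 52 .mp ⟨⟨155812650, 0, 0, 0, 0, 0, 0, 0, 0, ⟨0, 0⟩, 0⟩, 0, 0⟩ 0 0)))))) (.pos 48 .mp ⟨⟨156793325, 0, 0, 0, 0, 0, 0, 0, 0, ⟨0, 0⟩, 0⟩, 0, 0⟩ 0 0))) (.pos 46 .mp ⟨⟨154810573, 0, 0, 0, 0, 0, 0, 0, 0, ⟨0, 0⟩, 0⟩, 0, 0⟩ 0 0)) (.cut .v 16842752 (.cut .s 10387456 (.cut .v 16809984 (.cut .s 10338304 (.cut .s 10313728 (.cut .s 10301440 (.cut .d (-8192) (.cut .s 10295296 (.pos 47 .mp ⟨⟨106164324, 0, 0, 0, 0, 73292125, 0, 0, 0, ⟨0, 0⟩, 0⟩, 0, 0⟩ 0 0) (.pos 47 .mp ⟨⟨106591334, 0, 0, 0, 0, 73504735, 0, 0, 0, ⟨0, 0⟩, 0⟩, 0, 0⟩ 0 0)) (.cut .v 16793600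 (.cut .l 97131 (.cut .d (-4096) (.pos 51 .mp ⟨⟨106401212, 0, 0, 0, 0, 73213279, 0, 0, 0, ⟨0, 0⟩, 0⟩, 0, 0⟩ 0 0) (.cut .s 10295296 (.pos 51 .mp ⟨⟨107728686, 0, 0, 0, 0, 70003596, 0, 0, 0, ⟨0, 0⟩, 0⟩, 0, 0⟩ 0 0) (.pos 51 .mp ⟨⟨108166914, 0, 0, 0, 0, 70195544, 0, 0, 0, ⟨0, 0⟩, 0⟩, 0, 0⟩ 0 0))) (.pos 51 .mp ⟨⟨107526987, 0, 0, 0, 0, 69449612, 0, 0, 0, ⟨0, 0⟩, 0⟩, 0, 0⟩ 0 0)) (.pos 52 .mp ⟨⟨156902657, 0, 0, 0, 0, 0, 0, 0, 0, ⟨0, 0⟩, 0⟩, 0, 0⟩ 0 0))) (.cut .d (-8192) (.cut .s 10307584 (.pos 47 .mp ⟨⟨107019994, 0, 0, 0, 0, 73719981, 0, 0, 0, ⟨0, 0⟩, 0⟩, 0, 0⟩ 0 0) (.pos 47 .mp ⟨⟨107450309, 0, 0, 0, 0, 73937872, 0, 0, 0, ⟨0, 0⟩, 0⟩, 0,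 0⟩ 0 0)) (.cut .v 16793600 (.cut .l 97131 (.cut .d (-4096) (.pos 51 .mp ⟨⟨107256051, 0, 0, 0, 0, 73645597, 0, 0, 0, ⟨0, 0⟩, 0⟩, 0, 0⟩ 0 0) (.cut .s 10307584 (.pos 51 .mp ⟨⟨108604639, 0, 0, 0, 0, 70392684, 0, 0, 0, ⟨0, 0⟩, 0⟩, 0, 0⟩ 0 0) (.pos 51 .mp ⟨⟨109041832, 0, 0, 0, 0, 70595068, 0, 0, 0, ⟨0, 0⟩, 0⟩, 0, 0⟩ 0 0))) (.pos 51 .mp ⟨⟨108383318, 0, 0, 0, 0, 69867204, 0, 0, 0, ⟨0, 0⟩, 0⟩, 0, 0⟩ 0 0)) (.pos 52 .mp ⟨⟨158006015, 0, 0, 0, 0, 0, 0, 0, 0, ⟨0, 0⟩, 0⟩, 0, 0⟩ 0 0)))) (.cut .s 10326016 (.cut .d (-8192) (.cut .s 10319872 (.pos 47 .mp ⟨⟨107882282, 0, 0, 0, 0, 74158416, 0, 0, 0, ⟨0, 0⟩, 0⟩, 0, 0⟩ 0 0) (.pos 47 .mp ⟨⟨108315919,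 0, 0, 0, 0, 74381623, 0, 0, 0, ⟨0, 0⟩, 0⟩, 0, 0⟩ 0 0)) (.cut .v 16793600 (.cut .l 97131 (.cut .d (-4096) (.pos 51 .mp ⟨⟨108117508, 0, 0, 0, 0, 74088488, 0, 0, 0, ⟨0, 0⟩, 0⟩, 0, 0⟩ 0 0) (.cut .s 10319872 (.pos 51 .mp ⟨⟨109478465, 0, 0, 0, 0, 70802750, 0, 0, 0, ⟨0, 0⟩, 0⟩, 0, 0⟩ 0 0) (.pos 51 .mp ⟨⟨109914508, 0, 0, 0, 0, 71015782, 0, 0, 0, ⟨0, 0⟩, 0⟩, 0, 0⟩ 0 0))) (.pos 51 .mp ⟨⟨109246127, 0, 0, 0, 0, 70287285, 0, 0, 0, ⟨0, 0⟩, 0⟩, 0, 0⟩ 0 0)) (.pos 52 .mp ⟨⟨159122788, 0, 0, 0, 0, 0, 0, 0, 0, ⟨0, 0⟩, 0⟩, 0, 0⟩ 0 0))) (.cut .d (-8192) (.cut .s 10332160 (.pos 47 .mp ⟨⟨108751222, 0, 0, 0, 0, 74607503, 0, 0, 0, ⟨0, 0⟩, 0⟩, 0, 0⟩ 0 0)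 (.pos 47 .mp ⟨⟨109188197, 0, 0, 0, 0, 74836064, 0, 0, 0, ⟨0, 0⟩, 0⟩, 0, 0⟩ 0 0)) (.cut .v 16793600 (.cut .l 97131 (.cut .d (-4096) (.pos 51 .mp ⟨⟨108985617, 0, 0, 0, 0, 74542027, 0, 0, 0, ⟨0, 0⟩, 0⟩, 0, 0⟩ 0 0) (.cut .s 10332160 (.pos 51 .mp ⟨⟨110349933, 0, 0, 0, 0, 71234218, 0, 0, 0, ⟨0, 0⟩, 0⟩, 0, 0⟩ 0 0) (.pos 51 .mp ⟨⟨110784709, 0, 0, 0, 0, 71458111, 0, 0, 0, ⟨0, 0⟩, 0⟩, 0, 0⟩ 0 0))) (.pos 51 .mp ⟨⟨110115445, 0, 0, 0, 0, 70709739, 0, 0, 0, ⟨0, 0⟩, 0⟩, 0, 0⟩ 0 0)) (.pos 52 .mp ⟨⟨160253040, 0, 0, 0, 0, 0, 0, 0, 0, ⟨0, 0⟩, 0⟩, 0, 0⟩ 0 0))))) (.cut .s 10362880 (.cut .s 10350592 (.cut .d (-8192) (.cut .s 10344448 (.pos 47 .mp ⟨⟨109626848,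 0, 0, 0, 0, 75067316, 0, 0, 0, ⟨0, 0⟩, 0⟩, 0, 0⟩ 0 0) (.pos 47 .mp ⟨⟨110067179, 0, 0, 0, 0, 75301268, 0, 0, 0, ⟨0, 0⟩, 0⟩, 0, 0⟩ 0 0)) (.cut .v 16793600 (.cut .s 10344448 (.cut .s 10341376 (.pos 51 .mp ⟨⟨112354049, 0, 0, 0, 0, 70010493, 0, 0, 0, ⟨0, 0⟩, 0⟩, 0, 0⟩ 0 0) (.pos 51 .mp ⟨⟨112591142, 0, 0, 0, 0, 70098151, 0, 0, 0, ⟨0, 0⟩, 0⟩, 0, 0⟩ 0 0)) (.pos 51 .mp ⟨⟨112305359, 0, 0, 0, 0, 71029272, 0, 0, 0, ⟨0, 0⟩, 0⟩, 0, 0⟩ 0 0)) (.pos 52 .mp ⟨⟨161396835, 0, 0, 0, 0, 0, 0, 0, 0, ⟨0, 0⟩, 0⟩, 0, 0⟩ 0 0))) (.cut .d (-8192) (.cut .s 10356736 (.pos 47 .mp ⟨⟨110509193, 0, 0, 0, 0, 75537929, 0, 0, 0, ⟨0, 0⟩, 0⟩, 0, 0⟩ 0 0) (.pos 47 .mp ⟨⟨110952896,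 0, 0, 0, 0, 75777309, 0, 0, 0, ⟨0, 0⟩, 0⟩, 0, 0⟩ 0 0)) (.cut .v 16793600 (.cut .s 10356736 (.pos 51 .mp ⟨⟨112755554, 0, 0, 0, 0, 71243202, 0, 0, 0, ⟨0, 0⟩, 0⟩, 0, 0⟩ 0 0) (.pos 51 .mp ⟨⟨113207482, 0, 0, 0, 0, 71458954, 0, 0, 0, ⟨0, 0⟩, 0⟩, 0, 0⟩ 0 0)) (.pos 52 .mp ⟨⟨162554239, 0, 0, 0, 0, 0, 0, 0, 0, ⟨0, 0⟩, 0⟩, 0, 0⟩ 0 0)))) (.cut .s 10375168 (.cut .d (-8192) (.pos 47 .mp ⟨⟨111398292, 0, 0, 0, 0, 76555865, 0, 0, 0, ⟨0, 0⟩, 0⟩, 0, 0⟩ 0 0) (.cut .s 10369024 (.cut .s 10365952 (.pos 47 .mp ⟨⟨113656172, 0, 0, 0, 0, 71580868, 0, 0, 0, ⟨0, 0⟩, 0⟩, 0, 0⟩ 0 0) (.pos 47 .mp ⟨⟨113899040, 0, 0, 0, 0, 71669673, 0, 0, 0, ⟨0, 0⟩, 0⟩, 0, 0⟩ 0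 0)) (.pos 47 .mp ⟨⟨114341963, 0, 0, 0, 0, 71585254, 0, 0, 0, ⟨0, 0⟩, 0⟩, 0, 0⟩ 0 0))) (.cut .d (-8192) (.pos 47 .mp ⟨⟨112294177, 0, 0, 0, 0, 77053932, 0, 0, 0, ⟨0, 0⟩, 0⟩, 0, 0⟩ 0 0) (.cut .s 10381312 (.pos 47 .mp ⟨⟨114799930, 0, 0, 0, 0, 71805193, 0, 0, 0, ⟨0, 0⟩, 0⟩, 0, 0⟩ 0 0) (.pos 47 .mp ⟨⟨115259648, 0, 0, 0, 0, 72026942, 0, 0, 0, ⟨0, 0⟩, 0⟩, 0, 0⟩ 0 0)))))) (.pos 48 .mp ⟨⟨165558566, 0, 0, 0, 0, 0, 0, 0, 0, ⟨0, 0⟩, 0⟩, 0, 0⟩ 0 0)) (.cut .v 16809984 (.cut .s 10436608 (.cut .s 10412032 (.cut .s 10399744 (.cut .d (-8192) (.pos 47 .mp ⟨⟨113196886, 0, 0, 0, 0, 77563041, 0, 0, 0, ⟨0, 0⟩, 0⟩, 0, 0⟩ 0 0) (.cut .s 10393600 (.pos 47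 .mp ⟨⟨115721124, 0, 0, 0, 0, 72250496, 0, 0, 0, ⟨0, 0⟩, 0⟩, 0, 0⟩ 0 0) (.pos 47 .mp ⟨⟨116184360, 0, 0, 0, 0, 72475855, 0, 0, 0, ⟨0, 0⟩, 0⟩, 0, 0⟩ 0 0))) (.cut .d (-8192) (.pos 47 .mp ⟨⟨114106451, 0, 0, 0, 0, 78083271, 0, 0, 0, ⟨0, 0⟩, 0⟩, 0, 0⟩ 0 0) (.cut .s 10405888 (.pos 47 .mp ⟨⟨116649362, 0, 0, 0, 0, 72703015, 0, 0, 0, ⟨0, 0⟩, 0⟩, 0, 0⟩ 0 0) (.pos 47 .mp ⟨⟨117116134, 0, 0, 0, 0, 72931975, 0, 0, 0, ⟨0, 0⟩, 0⟩, 0, 0⟩ 0 0)))) (.cut .s 10424320 (.cut .d (-8192) (.pos 47 .mp ⟨⟨115022908, 0, 0, 0, 0, 78614696, 0, 0, 0, ⟨0, 0⟩, 0⟩, 0, 0⟩ 0 0) (.cut .s 10418176 (.pos 47 .mp ⟨⟨117564822, 0, 0, 0, 0, 73193319, 0, 0, 0, ⟨0, 0⟩, 0⟩, 0,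 0⟩ 0 0) (.pos 47 .mp ⟨⟨117994151, 0, 0, 0, 0, 73489050, 0, 0, 0, ⟨0, 0⟩, 0⟩, 0, 0⟩ 0 0))) (.cut .d (-8192) (.pos 47 .mp ⟨⟨115946293, 0, 0, 0, 0, 79157395, 0, 0, 0, ⟨0, 0⟩, 0⟩, 0, 0⟩ 0 0) (.cut .s 10430464 (.pos 47 .mp ⟨⟨118422406, 0, 0, 0, 0, 73791027, 0, 0, 0, ⟨0, 0⟩, 0⟩, 0, 0⟩ 0 0) (.pos 47 .mp ⟨⟨118849555, 0, 0, 0, 0, 74099308, 0, 0, 0, ⟨0, 0⟩, 0⟩, 0, 0⟩ 0 0))))) (.cut .s 10461184 (.cut .s 10448896 (.cut .s 10442752 (.cut .s 10439680 (.pos 47 .mp ⟨⟨120480837, 0, 0, 0, 0, 72541680, 0, 0, 0, ⟨0, 0⟩, 0⟩, 0, 0⟩ 0 0) (.pos 47 .mp ⟨⟨120782218, 0, 0, 0, 0, 72571988, 0, 0, 0, ⟨0, 0⟩, 0⟩, 0, 0⟩ 0 0)) (.pos 47 .mp ⟨⟨118816083, 0, 0, 0,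 0, 76146480, 0, 0, 0, ⟨0, 0⟩, 0⟩, 0, 0⟩ 0 0)) (.cut .s 10455040 (.pos 47 .mp ⟨⟨119418720, 0, 0, 0, 0, 76200504, 0, 0, 0, ⟨0, 0⟩, 0⟩, 0, 0⟩ 0 0) (.pos 47 .mp ⟨⟨120222566, 0, 0, 0, 0, 75963573, 0, 0, 0, ⟨0, 0⟩, 0⟩, 0, 0⟩ 0 0))) (.cut .s 10473472 (.cut .s 10467328 (.pos 47 .mp ⟨⟨121044139, 0, 0, 0, 0, 75704279, 0, 0, 0, ⟨0, 0⟩, 0⟩, 0, 0⟩ 0 0) (.pos 47 .mp ⟨⟨121883540, 0, 0, 0, 0, 75422449, 0, 0, 0, ⟨0, 0⟩, 0⟩, 0, 0⟩ 0 0)) (.cut .s 10479616 (.pos 47 .mp ⟨⟨122740869, 0, 0, 0, 0, 75117904, 0, 0, 0, ⟨0, 0⟩, 0⟩, 0, 0⟩ 0 0) (.pos 47 .mp ⟨⟨123616230, 0, 0, 0, 0, 74790470, 0, 0, 0, ⟨0, 0⟩, 0⟩, 0, 0⟩ 0 0))))) (.pos 48 .mp ⟨⟨175178408, 0, 0,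 0, 0, 0, 0, 0, 0, ⟨0, 0⟩, 0⟩, 0, 0⟩ 0 0))) (.pos 46 .mp ⟨⟨172835974, 0, 0, 0, 0, 0, 0, 0, 0, ⟨0, 0⟩, 0⟩, 0, 0⟩ 0 0))) (.pos 36 .mp ⟨⟨172913824, 0, 0, 0, 0, 0, 0, 0, 0, ⟨0, 0⟩, 0⟩, 0, 0⟩ 0 0))))))) (.void 34 ⟨⟨100000, 0, 0, 0, 0, 0, 0, 0, 0, ⟨0, 0⟩, 0⟩, 0, 0⟩ 0 0))) (.void 32 ⟨⟨100000, 0, 0, 0, 0, 0, 0, 0, 0, ⟨0, 0⟩, 0⟩, 0, 0⟩ 0 0))) (.void 30 ⟨⟨100000, 0, 0, 0, 0, 0, 0, 0, 0, ⟨0, 0⟩, 0⟩, 0, 0⟩ 0 0))) (.void 28 ⟨⟨100000, 0, 0, 0, 0, 0, 0, 0, 0, ⟨0, 0⟩, 0⟩, 0, 0⟩ 0 0))) (.void 26 ⟨⟨100000, 0, 0, 0, 0, 0, 0, 0, 0, ⟨0, 0⟩, 0⟩, 0, 0⟩ 0 0))) (.void 24 ⟨⟨100000, 0, 0, 0, 0, 0, 0, 0, 0, ⟨0, 0⟩, 0⟩, 0, 0⟩ 0 0)) (.void 123 ⟨⟨100000, 0, 0,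 0, 0, 0, 0, 0, 0, ⟨0, 0⟩, 0⟩, 0, 0⟩ 0 0)) (.void 142 ⟨⟨100000, 0, 0, 0, 0, 0, 0, 0, 0, ⟨0, 0⟩, 0⟩, 0, 0⟩ 0 0))) (.cut .v 16777216 (.cut .v 8388608 (.cut .v 4194304 (.pos 4 .pm ⟨⟨0, 0, 292367731, 0, 0, 0, 0, 0, 0, ⟨0, 0⟩, 0⟩, 0, 130852085⟩ 0 0) (.pos 5 .pm ⟨⟨0, 0, 1494439, 0, 0, 0, 0, 0, 0, ⟨0, 0⟩, 0⟩, 0, 0⟩ 0 0)) (.pos 3 .pm ⟨⟨0, 0, 0, 0, 0, 0, 0, 0, 0, ⟨0, 0⟩, 0⟩, 0, 0⟩ 0 0)) (.cut .v 67108864 (.cut .d 5556092 (.cut .d 2778046 (.cut .v 33554432 (.cut .v 25165824 (.cut .d 1389023 (.cut .d 694511 (.cut .v 20971520 (.cut .d 347255 (.cut .v 18874368 (.cut .s 10289152 (.pos 27 .pp ⟨⟨91900820, 0, 0, 0, 0, 0, 0, 0, 0, ⟨0, 0⟩, 0⟩, 4512624,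 0⟩ 0 0) (.pos 27 .pp ⟨⟨118926395, 0, 0, 0, 0, 0, 0, 0, 0, ⟨0, 0⟩, 0⟩, 3600106, 0⟩ 0 0)) (.pos 28 .pp ⟨⟨198153295, 0, 0, 0, 0, 0, 0, 0, 0, ⟨0, 0⟩, 0⟩, 0, 0⟩ 0 0)) (.pos 25 .pp ⟨⟨0, 0, 0, 0, 0, 0, 0, 0, 0, ⟨0, 0⟩, 0⟩, 9780806, 127175⟩ 0 0)) (.cut .d 347255 (.pos 26 .pp ⟨⟨13501839, 0, 0, 0, 0, 0, 0, 0, 0, ⟨0, 0⟩, 0⟩, 20728083, 0⟩ 0 0) (.pos 26 .pp ⟨⟨0, 0, 0, 0, 0, 0, 0, 0, 0, ⟨0, 0⟩, 0⟩, 16432471, 0⟩ 0 0))) (.pos 23 .pp ⟨⟨0, 0, 0, 0, 0, 0, 0, 0, 0, ⟨0, 0⟩, 0⟩, 10461488, 121300⟩ 0 0)) (.pos 23 .pp ⟨⟨0, 0, 0, 0, 0, 0, 0, 0, 0, ⟨0, 0⟩, 0⟩, 0, 367952⟩ 0 0)) (.cut .d 1389023 (.cut .d 694511 (.pos 24 .pp ⟨⟨0, 0, 0, 0, 0, 0, 0, 0, 0, ⟨0,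 0⟩, 0⟩, 38381537, 0⟩ 0 0) (.pos 24 .pp ⟨⟨0, 0, 0, 0, 0, 0, 0, 0, 0, ⟨0, 0⟩, 0⟩, 20029313, 0⟩ 0 0)) (.pos 24 .pp ⟨⟨0, 0, 0, 0, 0, 0, 195685, 0, 0, ⟨0, 0⟩, 0⟩, 12276217, 0⟩ 0 0))) (.cut .d 1389023 (.void 123 ⟨⟨0, 0, 0, 0, 0, 0, 0, 0, 0, ⟨0, 0⟩, 0⟩, 100000, 0⟩ 0 0) (.cut .v 50331648 (.pos 128 .pp ⟨⟨0, 0, 0, 0, 0, 0, 0, 0, 0, ⟨0, 0⟩, 0⟩, 26689545, 0⟩ 0 0) (.void 129 ⟨⟨0, 0, 0, 0, 0, 0, 0, 0, 0, ⟨0, 0⟩, 0⟩, 100000, 0⟩ 0 0)))) (.cut .v 33554432 (.pos 22 .pp ⟨⟨0, 0, 0, 0, 0, 0, 0, 0, 0, ⟨0, 0⟩, 0⟩, 0, 408835⟩ 0 0) (.pos 123 .pp ⟨⟨0, 0, 0, 0, 0, 0, 0, 0, 0, ⟨0, 0⟩, 0⟩, 21538801, 0⟩ 0 0))) (.pos 122 .pp ⟨⟨0, 0, 0, 0, 0, 0, 0, 0, 0, ⟨0,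 0⟩, 0⟩, 0, 42509859⟩ 0 0)) (.void 142 ⟨⟨0, 93377, 0, 0, 0, 0, 0, 0, 0, ⟨0, 0⟩, 0⟩, 6623, 0⟩ 0 0)))),
    by decide +kernel⟩

def covers14 : cell.Covers Vale.Agent.P237.Petty.Cor.Grid.N19.table row14.1 :=
  ⟨(.cut .d 0 (.cut .v 16777216 (.cut .d (-8388608) (.void 1 ⟨⟨0, 0, 0, 0, 0, 100000, 0, 0, 0, ⟨0, 0⟩, 0⟩, 0, 0⟩ 0 0) (.cut .d (-4194304) (.void 1 ⟨⟨0, 0, 0, 0, 0, 100000, 0, 0, 0, ⟨0, 0⟩, 0⟩, 0, 0⟩ 0 0) (.cut .d (-2097152) (.void 1 ⟨⟨0, 0, 0, 0, 0, 100000, 0, 0, 0, ⟨0, 0⟩, 0⟩, 0, 0⟩ 0 0) (.cut .d (-1048576) (.void 1 ⟨⟨0, 0, 0, 0, 0, 100000, 0, 0, 0, ⟨0, 0⟩, 0⟩, 0, 0⟩ 0 0) (.cut .d (-524288) (.void 1 ⟨⟨0, 0, 0, 0, 0, 100000, 0,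 0, 0, ⟨0, 0⟩, 0⟩, 0, 0⟩ 0 0) (.cut .d (-262144) (.void 1 ⟨⟨0, 0, 0, 0, 0, 100000, 0, 0, 0, ⟨0, 0⟩, 0⟩, 0, 0⟩ 0 0) (.cut .d (-131072) (.void 1 ⟨⟨0, 0, 0, 0, 0, 100000, 0, 0, 0, ⟨0, 0⟩, 0⟩, 0, 0⟩ 0 0) (.cut .d (-65536) (.void 1 ⟨⟨0, 0, 0, 0, 0, 100000, 0, 0, 0, ⟨0, 0⟩, 0⟩, 0, 0⟩ 0 0) (.cut .d (-32768) (.void 1 ⟨⟨0, 0, 0, 0, 0, 100000, 0, 0, 0, ⟨0, 0⟩, 0⟩, 0, 0⟩ 0 0) (.cut .d (-16384) (.void 1 ⟨⟨0, 0, 0, 0, 0, 100000, 0, 0, 0, ⟨0, 0⟩, 0⟩, 0, 0⟩ 0 0) (.cut .v 8388608 (.cut .v 4194304 (.void 4 ⟨⟨0, 0, 100000, 0, 0, 0, 0, 0, 0, ⟨0, 0⟩, 0⟩, 0, 0⟩ 0 0) (.pos 5 .mm ⟨⟨0, 0, 2325333, 0, 0, 102699381, 0, 0, 0, ⟨0, 0⟩, 0⟩, 0, 0⟩ 0 0)) (.cut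 .v 12582912 (.pos 8 .mm ⟨⟨0, 0, 0, 0, 0, 163030518, 0, 0, 0, ⟨0, 0⟩, 0⟩, 0, 0⟩ 0 0) (.cut .v 14680064 (.pos 12 .mm ⟨⟨0, 0, 0, 0, 0, 195009385, 0, 0, 0, ⟨0, 0⟩, 0⟩, 0, 0⟩ 0 0) (.cut .v 15728640 (.pos 20 .mm ⟨⟨0, 0, 0, 0, 0, 211742811, 0, 0, 0, ⟨0, 0⟩, 0⟩, 0, 0⟩ 0 0) (.cut .v 16252928 (.pos 37 .mm ⟨⟨0, 0, 0, 0, 0, 220295521, 0, 0, 0, ⟨0, 0⟩, 0⟩, 0, 0⟩ 0 0) (.cut .v 16515072 (.pos 41 .mm ⟨⟨0, 0, 0, 0, 0, 245569505, 0, 0, 0, ⟨0, 0⟩, 0⟩, 0, 0⟩ 0 0) (.cut .v 16646144 (.pos 43 .mm ⟨⟨0, 0, 0, 0, 0, 263812008, 0, 0, 0, ⟨0, 0⟩, 0⟩, 0, 0⟩ 0 0) (.cut .v 16711680 (.pos 49 .mm ⟨⟨0, 0, 0, 0, 0, 271175530, 0, 0, 0, ⟨0, 0⟩, 0⟩, 0, 0⟩ 0 0) (.cut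 .v 16744448 (.pos 53 .mm ⟨⟨0, 0, 0, 0, 0, 274880237, 0, 0, 0, ⟨0, 0⟩, 0⟩, 0, 0⟩ 0 0) (.cut .s 10682368 (.cut .s 10584064 (.pos 54 .mm ⟨⟨0, 0, 0, 0, 0, 252636191, 0, 0, 0, ⟨0, 0⟩, 0⟩, 0, 0⟩ 0 0) (.pos 54 .mm ⟨⟨0, 0, 0, 0, 0, 268744940, 0, 0, 0, ⟨0, 0⟩, 0⟩, 0, 0⟩ 0 0)) (.cut .s 10780672 (.pos 54 .mm ⟨⟨0, 0, 0, 0, 0, 286393260, 0, 0, 0, ⟨0, 0⟩, 0⟩, 0, 0⟩ 0 0) (.pos 54 .mm ⟨⟨0, 0, 0, 0, 0, 305617466, 0, 0, 0, ⟨0, 0⟩, 0⟩, 0, 0⟩ 0 0)))))))))))))))))))))) (.cut .v 67108864 (.cut .v 33554432 (.cut .v 25165824 (.cut .d (-8388608) (.void 23 ⟨⟨0, 0, 0, 0, 0, 100000, 0, 0, 0, ⟨0, 0⟩, 0⟩, 0, 0⟩ 0 0) (.cut .v 20971520 (.cut .d (-4194304) (.void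 25 ⟨⟨100000, 0, 0, 0, 0, 0, 0, 0, 0, ⟨0, 0⟩, 0⟩, 0, 0⟩ 0 0) (.cut .v 18874368 (.cut .d (-2097152) (.void 27 ⟨⟨100000, 0, 0, 0, 0, 0, 0, 0, 0, ⟨0, 0⟩, 0⟩, 0, 0⟩ 0 0) (.cut .v 17825792 (.cut .d (-1048576) (.void 29 ⟨⟨100000, 0, 0, 0, 0, 0, 0, 0, 0, ⟨0, 0⟩, 0⟩, 0, 0⟩ 0 0) (.cut .v 17301504 (.cut .d (-524288) (.void 31 ⟨⟨100000, 0, 0, 0, 0, 0, 0, 0, 0, ⟨0, 0⟩, 0⟩, 0, 0⟩ 0 0) (.cut .v 17039360 (.cut .d (-262144) (.void 33 ⟨⟨100000, 0, 0, 0, 0, 0, 0, 0, 0, ⟨0, 0⟩, 0⟩, 0, 0⟩ 0 0) (.cut .v 16908288 (.cut .d (-131072) (.void 35 ⟨⟨100000, 0, 0, 0, 0, 0, 0, 0, 0, ⟨0, 0⟩, 0⟩, 0, 0⟩ 0 0) (.cut .d (-65536) (.void 35 ⟨⟨100000, 0, 0, 0, 0, 0,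 0, 0, 0, ⟨0, 0⟩, 0⟩, 0, 0⟩ 0 0) (.cut .d (-32768) (.void 35 ⟨⟨100000, 0, 0, 0, 0, 0, 0, 0, 0, ⟨0, 0⟩, 0⟩, 0, 0⟩ 0 0) (.cut .d (-16384) (.void 35 ⟨⟨0, 0, 0, 0, 0, 100000, 0, 0, 0, ⟨0, 0⟩, 0⟩, 0, 0⟩ 0 0) (.cut .s 10682368 (.cut .v 16842752 (.cut .s 10584064 (.cut .v 16809984 (.cut .s 10534912 (.cut .s 10510336 (.cut .d (-8192) (.pos 47 .mp ⟨⟨120670016, 0, 0, 0, 0, 83229873, 0, 0, 0, ⟨0, 0⟩, 0⟩, 0, 0⟩ 0 0) (.cut .v 16793600 (.cut .l 97131 (.cut .d (-4096) (.pos 51 .mp ⟨⟨120893541, 0, 0, 0, 0, 82626277, 0, 0, 0, ⟨0, 0⟩, 0⟩, 0, 0⟩ 0 0) (.cut .s 10498048 (.pos 51 .mp ⟨⟨122913255, 0, 0, 0, 0, 76959441, 0, 0, 0, ⟨0, 0⟩, 0⟩, 0, 0⟩ 0 0)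 (.pos 51 .mp ⟨⟨123941992, 0, 0, 0, 0, 77241003, 0, 0, 0, ⟨0, 0⟩, 0⟩, 0, 0⟩ 0 0))) (.pos 51 .mp ⟨⟨120263545, 0, 0, 0, 0, 79528774, 0, 0, 0, ⟨0, 0⟩, 0⟩, 0, 0⟩ 0 0)) (.pos 52 .mp ⟨⟨140430936, 0, 0, 0, 0, 53652559, 0, 0, 0, ⟨0, 0⟩, 0⟩, 0, 0⟩ 0 0))) (.cut .s 10522624 (.cut .s 10516480 (.pos 47 .mp ⟨⟨124795198, 0, 0, 0, 0, 77678074, 0, 0, 0, ⟨0, 0⟩, 0⟩, 0, 0⟩ 0 0) (.pos 47 .mp ⟨⟨124937362, 0, 0, 0, 0, 78396097, 0, 0, 0, ⟨0, 0⟩, 0⟩, 0, 0⟩ 0 0)) (.cut .s 10528768 (.pos 47 .mp ⟨⟨125163789, 0, 0, 0, 0, 78995689, 0, 0, 0, ⟨0, 0⟩, 0⟩, 0, 0⟩ 0 0) (.pos 47 .mp ⟨⟨125549874, 0, 0, 0, 0, 79365735, 0, 0, 0, ⟨0, 0⟩, 0⟩, 0, 0⟩ 0 0)))) (.cut .s 10559488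 (.cut .s 10547200 (.cut .d (-8192) (.pos 47 .mp ⟨⟨124589526, 0, 0, 0, 0, 83514501, 0, 0, 0, ⟨0, 0⟩, 0⟩, 0, 0⟩ 0 0) (.cut .s 10541056 (.pos 47 .mp ⟨⟨127179022, 0, 0, 0, 0, 77762277, 0, 0, 0, ⟨0, 0⟩, 0⟩, 0, 0⟩ 0 0) (.pos 47 .mp ⟨⟨127724781, 0, 0, 0, 0, 77892709, 0, 0, 0, ⟨0, 0⟩, 0⟩, 0, 0⟩ 0 0))) (.cut .d (-8192) (.pos 47 .mp ⟨⟨125589629, 0, 0, 0, 0, 83916328, 0, 0, 0, ⟨0, 0⟩, 0⟩, 0, 0⟩ 0 0) (.cut .s 10553344 (.pos 47 .mp ⟨⟨128287476, 0, 0, 0, 0, 78004557, 0, 0, 0, ⟨0, 0⟩, 0⟩, 0, 0⟩ 0 0) (.pos 47 .mp ⟨⟨128850156, 0, 0, 0, 0, 78122011, 0, 0, 0, ⟨0, 0⟩, 0⟩, 0, 0⟩ 0 0)))) (.cut .s 10571776 (.cut .d (-8192) (.pos 47 .mp ⟨⟨126597907, 0,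 0, 0, 0, 84330951, 0, 0, 0, ⟨0, 0⟩, 0⟩, 0, 0⟩ 0 0) (.cut .s 10565632 (.pos 47 .mp ⟨⟨129391495, 0, 0, 0, 0, 78278231, 0, 0, 0, ⟨0, 0⟩, 0⟩, 0, 0⟩ 0 0) (.pos 47 .mp ⟨⟨129908635, 0, 0, 0, 0, 78477712, 0, 0, 0, ⟨0, 0⟩, 0⟩, 0, 0⟩ 0 0))) (.cut .d (-8192) (.pos 47 .mp ⟨⟨127614402, 0, 0, 0, 0, 84758462, 0, 0, 0, ⟨0, 0⟩, 0⟩, 0, 0⟩ 0 0) (.cut .s 10577920 (.pos 47 .mp ⟨⟨130427890, 0, 0, 0, 0, 78679567, 0, 0, 0, ⟨0, 0⟩, 0⟩, 0, 0⟩ 0 0) (.pos 47 .mp ⟨⟨130949267, 0, 0, 0, 0, 78883794, 0, 0, 0, ⟨0, 0⟩, 0⟩, 0, 0⟩ 0 0)))))) (.pos 48 .mp ⟨⟨185800503, 0, 0, 0, 0, 0, 0, 0, 0, ⟨0, 0⟩, 0⟩, 0, 0⟩ 0 0)) (.cut .v 16809984 (.cut .s 10633216 (.cut .s 10608640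 (.cut .d (-8192) (.cut .s 10596352 (.pos 47 .mp ⟨⟨128639158, 0, 0, 0, 0, 85198955, 0, 0, 0, ⟨0, 0⟩, 0⟩, 0, 0⟩ 0 0) (.pos 47 .mp ⟨⟨129672218, 0, 0, 0, 0, 85652521, 0, 0, 0, ⟨0, 0⟩, 0⟩, 0, 0⟩ 0 0)) (.cut .l 97131 (.cut .v 16793600 (.cut .s 10596352 (.cut .s 10590208 (.pos 51 .mp ⟨⟨130499341, 0, 0, 0, 0, 80486949, 0, 0, 0, ⟨0, 0⟩, 0⟩, 0, 0⟩ 0 0) (.pos 51 .mp ⟨⟨130833563, 0, 0, 0, 0, 80984306, 0, 0, 0, ⟨0, 0⟩, 0⟩, 0, 0⟩ 0 0)) (.cut .s 10602496 (.pos 51 .mp ⟨⟨131183964, 0, 0, 0, 0, 81463111, 0, 0, 0, ⟨0, 0⟩, 0⟩, 0, 0⟩ 0 0) (.pos 51 .mp ⟨⟨131550689, 0, 0, 0, 0, 81923127, 0, 0, 0, ⟨0, 0⟩, 0⟩, 0, 0⟩ 0 0))) (.pos 52 .mp ⟨⟨194168598, 0,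 0, 0, 0, 0, 0, 0, 0, ⟨0, 0⟩, 0⟩, 0, 0⟩ 0 0)) (.pos 47 .mp ⟨⟨131884115, 0, 0, 0, 0, 77886717, 0, 0, 0, ⟨0, 0⟩, 0⟩, 0, 0⟩ 0 0))) (.cut .d (-8192) (.cut .s 10620928 (.pos 47 .mp ⟨⟨130713627, 0, 0, 0, 0, 86119256, 0, 0, 0, ⟨0, 0⟩, 0⟩, 0, 0⟩ 0 0) (.pos 47 .mp ⟨⟨131763428, 0, 0, 0, 0, 86599254, 0, 0, 0, ⟨0, 0⟩, 0⟩, 0, 0⟩ 0 0)) (.cut .l 97131 (.cut .v 16793600 (.cut .s 10620928 (.cut .s 10614784 (.pos 51 .mp ⟨⟨131976387, 0, 0, 0, 0, 82301233, 0, 0, 0, ⟨0, 0⟩, 0⟩, 0, 0⟩ 0 0) (.pos 51 .mp ⟨⟨132458258, 0, 0, 0, 0, 82601475, 0, 0, 0, ⟨0, 0⟩, 0⟩, 0, 0⟩ 0 0)) (.cut .d (-4096) (.pos 51 .mp ⟨⟨131966034, 0, 0, 0, 0, 86000854, 0, 0, 0, ⟨0, 0⟩,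 0⟩, 0, 0⟩ 0 0) (.cut .s 10627072 (.pos 51 .mp ⟨⟨133614515, 0, 0, 0, 0, 81832183, 0, 0, 0, ⟨0, 0⟩, 0⟩, 0, 0⟩ 0 0) (.pos 51 .mp ⟨⟨134121163, 0, 0, 0, 0, 82099150, 0, 0, 0, ⟨0, 0⟩, 0⟩, 0, 0⟩ 0 0)))) (.pos 52 .mp ⟨⟨196856077, 0, 0, 0, 0, 0, 0, 0, 0, ⟨0, 0⟩, 0⟩, 0, 0⟩ 0 0)) (.pos 47 .mp ⟨⟨134008736, 0, 0, 0, 0, 78771976, 0, 0, 0, ⟨0, 0⟩, 0⟩, 0, 0⟩ 0 0)))) (.cut .s 10657792 (.cut .d (-8192) (.cut .s 10645504 (.pos 47 .mp ⟨⟨132821666, 0, 0, 0, 0, 87092611, 0, 0, 0, ⟨0, 0⟩, 0⟩, 0, 0⟩ 0 0) (.pos 47 .mp ⟨⟨133888386, 0, 0, 0, 0, 87599423, 0, 0, 0, ⟨0, 0⟩, 0⟩, 0, 0⟩ 0 0)) (.cut .l 97131 (.cut .v 16793600 (.cut .s 10645504 (.cut .d (-4096)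 (.pos 51 .mp ⟨⟨133022313, 0, 0, 0, 0, 86494433, 0, 0, 0, ⟨0, 0⟩, 0⟩, 0, 0⟩ 0 0) (.cut .s 10639360 (.pos 51 .mp ⟨⟨134668716, 0, 0, 0, 0, 82313198, 0, 0, 0, ⟨0, 0⟩, 0⟩, 0, 0⟩ 0 0) (.pos 51 .mp ⟨⟨135218549, 0, 0, 0, 0, 82529775, 0, 0, 0, ⟨0, 0⟩, 0⟩, 0, 0⟩ 0 0))) (.cut .d (-4096) (.pos 51 .mp ⟨⟨134087063, 0, 0, 0, 0, 87001458, 0, 0, 0, ⟨0, 0⟩, 0⟩, 0, 0⟩ 0 0) (.cut .s 10651648 (.pos 51 .mp ⟨⟨135767740, 0, 0, 0, 0, 82753093, 0, 0, 0, ⟨0, 0⟩, 0⟩, 0, 0⟩ 0 0) (.pos 51 .mp ⟨⟨136316251, 0, 0, 0, 0, 82983223, 0, 0, 0, ⟨0, 0⟩, 0⟩, 0, 0⟩ 0 0)))) (.pos 52 .mp ⟨⟨199586530, 0, 0, 0, 0, 0, 0, 0, 0, ⟨0, 0⟩, 0⟩, 0, 0⟩ 0 0)) (.pos 47 .mp ⟨⟨136167700,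 0, 0, 0, 0, 79671389, 0, 0, 0, ⟨0, 0⟩, 0⟩, 0, 0⟩ 0 0))) (.cut .d (-8192) (.cut .s 10670080 (.pos 47 .mp ⟨⟨134963634, 0, 0, 0, 0, 88119787, 0, 0, 0, ⟨0, 0⟩, 0⟩, 0, 0⟩ 0 0) (.pos 47 .mp ⟨⟨136047455, 0, 0, 0, 0, 88653801, 0, 0, 0, ⟨0, 0⟩, 0⟩, 0, 0⟩ 0 0)) (.cut .l 97131 (.cut .v 16793600 (.cut .s 10670080 (.cut .d (-4096) (.pos 51 .mp ⟨⟨135160332, 0, 0, 0, 0, 87522024, 0, 0, 0, ⟨0, 0⟩, 0⟩, 0, 0⟩ 0 0) (.cut .s 10663936 (.pos 51 .mp ⟨⟨136864039, 0, 0, 0, 0, 83220243, 0, 0, 0, ⟨0, 0⟩, 0⟩, 0, 0⟩ 0 0) (.pos 51 .mp ⟨⟨137411065, 0, 0, 0, 0, 83464224, 0, 0, 0, ⟨0, 0⟩, 0⟩, 0, 0⟩ 0 0))) (.cut .d (-4096) (.pos 51 .mp ⟨⟨136242163, 0, 0, 0, 0,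 88056230, 0, 0, 0, ⟨0, 0⟩, 0⟩, 0, 0⟩ 0 0) (.cut .s 10676224 (.pos 51 .mp ⟨⟨137957288, 0, 0, 0, 0, 83715245, 0, 0, 0, ⟨0, 0⟩, 0⟩, 0, 0⟩ 0 0) (.pos 51 .mp ⟨⟨138502665, 0, 0, 0, 0, 83973379, 0, 0, 0, ⟨0, 0⟩, 0⟩, 0, 0⟩ 0 0)))) (.pos 52 .mp ⟨⟨202359281, 0, 0, 0, 0, 0, 0, 0, 0, ⟨0, 0⟩, 0⟩, 0, 0⟩ 0 0)) (.pos 47 .mp ⟨⟨138361376, 0, 0, 0, 0, 80583703, 0, 0, 0, ⟨0, 0⟩, 0⟩, 0, 0⟩ 0 0))))) (.pos 48 .mp ⟨⟨196139397, 0, 0, 0, 0, 0, 0, 0, 0, ⟨0, 0⟩, 0⟩, 0, 0⟩ 0 0))) (.pos 46 .mp ⟨⟨193873688, 0, 0, 0, 0, 0, 0, 0, 0, ⟨0, 0⟩, 0⟩, 0, 0⟩ 0 0)) (.cut .v 16842752 (.cut .s 10780672 (.cut .v 16809984 (.cut .s 10731520 (.cut .s 10706944 (.cut .d (-8192)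 (.cut .s 10694656 (.pos 47 .mp ⟨⟨137139895, 0, 0, 0, 0, 89201563, 0, 0, 0, ⟨0, 0⟩, 0⟩, 0, 0⟩ 0 0) (.pos 47 .mp ⟨⟨138241001, 0, 0, 0, 0, 89763172, 0, 0, 0, ⟨0, 0⟩, 0⟩, 0, 0⟩ 0 0)) (.cut .l 97131 (.cut .v 16793600 (.cut .s 10694656 (.cut .d (-4096) (.pos 51 .mp ⟨⟨137332604, 0, 0, 0, 0, 88604175, 0, 0, 0, ⟨0, 0⟩, 0⟩, 0, 0⟩ 0 0) (.cut .s 10688512 (.pos 51 .mp ⟨⟨139047157, 0, 0, 0, 0, 84238703, 0, 0, 0, ⟨0, 0⟩, 0⟩, 0, 0⟩ 0 0) (.pos 51 .mp ⟨⟨139590720, 0, 0, 0, 0, 84511295, 0, 0, 0, ⟨0, 0⟩, 0⟩, 0, 0⟩ 0 0))) (.cut .d (-4096) (.pos 51 .mp ⟨⟨138431700, 0, 0, 0, 0, 89165957, 0, 0, 0, ⟨0, 0⟩, 0⟩, 0, 0⟩ 0 0) (.cut .s 10700800 (.pos 51 .mp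 ⟨⟨140133312, 0, 0, 0, 0, 84791231, 0, 0, 0, ⟨0, 0⟩, 0⟩, 0, 0⟩ 0 0) (.pos 51 .mp ⟨⟨140706011, 0, 0, 0, 0, 85033666, 0, 0, 0, ⟨0, 0⟩, 0⟩, 0, 0⟩ 0 0)))) (.pos 52 .mp ⟨⟨205173663, 0, 0, 0, 0, 0, 0, 0, 0, ⟨0, 0⟩, 0⟩, 0, 0⟩ 0 0)) (.pos 47 .mp ⟨⟨140590140, 0, 0, 0, 0, 81507658, 0, 0, 0, ⟨0, 0⟩, 0⟩, 0, 0⟩ 0 0))) (.cut .d (-8192) (.cut .s 10719232 (.pos 47 .mp ⟨⟨139350821, 0, 0, 0, 0, 90338729, 0, 0, 0, ⟨0, 0⟩, 0⟩, 0, 0⟩ 0 0) (.pos 47 .mp ⟨⟨140469400, 0, 0, 0, 0, 90928335, 0, 0, 0, ⟨0, 0⟩, 0⟩, 0, 0⟩ 0 0)) (.cut .l 97131 (.cut .v 16793600 (.cut .s 10719232 (.cut .s 10713088 (.pos 51 .mp ⟨⟨140575583, 0, 0, 0, 0, 86409292, 0, 0, 0, ⟨0, 0⟩,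 0⟩, 0, 0⟩ 0 0) (.pos 51 .mp ⟨⟨141179201, 0, 0, 0, 0, 86611618, 0, 0, 0, ⟨0, 0⟩, 0⟩, 0, 0⟩ 0 0)) (.cut .s 10725376 (.pos 51 .mp ⟨⟨141809225, 0, 0, 0, 0, 86779746, 0, 0, 0, ⟨0, 0⟩, 0⟩, 0, 0⟩ 0 0) (.pos 51 .mp ⟨⟨142532258, 0, 0, 0, 0, 86814387, 0, 0, 0, ⟨0, 0⟩, 0⟩, 0, 0⟩ 0 0))) (.pos 52 .mp ⟨⟨208029017, 0, 0, 0, 0, 0, 0, 0, 0, ⟨0, 0⟩, 0⟩, 0, 0⟩ 0 0)) (.pos 47 .mp ⟨⟨142854372, 0, 0, 0, 0, 82441985, 0, 0, 0, ⟨0, 0⟩, 0⟩, 0, 0⟩ 0 0)))) (.cut .s 10756096 (.cut .d (-8192) (.cut .s 10743808 (.pos 47 .mp ⟨⟨141596788, 0, 0, 0, 0, 91532090, 0, 0, 0, ⟨0, 0⟩, 0⟩, 0, 0⟩ 0 0) (.pos 47 .mp ⟨⟨142733031, 0, 0, 0, 0, 92150098, 0, 0, 0, ⟨0, 0⟩, 0⟩,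 0, 0⟩ 0 0)) (.cut .l 97131 (.cut .v 16793600 (.cut .s 10743808 (.cut .s 10737664 (.pos 51 .mp ⟨⟨143274588, 0, 0, 0, 0, 86825270, 0, 0, 0, ⟨0, 0⟩, 0⟩, 0, 0⟩ 0 0) (.pos 51 .mp ⟨⟨144036357, 0, 0, 0, 0, 86812154, 0, 0, 0, ⟨0, 0⟩, 0⟩, 0, 0⟩ 0 0)) (.cut .s 10749952 (.pos 51 .mp ⟨⟨144817704, 0, 0, 0, 0, 86774802, 0, 0, 0, ⟨0, 0⟩, 0⟩, 0, 0⟩ 0 0) (.pos 51 .mp ⟨⟨145618771, 0, 0, 0, 0, 86712974, 0, 0, 0, ⟨0, 0⟩, 0⟩, 0, 0⟩ 0 0))) (.pos 52 .mp ⟨⟨210924696, 0, 0, 0, 0, 0, 0, 0, 0, ⟨0, 0⟩, 0⟩, 0, 0⟩ 0 0)) (.pos 47 .mp ⟨⟨145154460, 0, 0, 0, 0, 83385406, 0, 0, 0, ⟨0, 0⟩, 0⟩, 0, 0⟩ 0 0))) (.cut .d (-8192) (.cut .s 10768384 (.pos 47 .mp ⟨⟨143878179,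 0, 0, 0, 0, 92782461, 0, 0, 0, ⟨0, 0⟩, 0⟩, 0, 0⟩ 0 0) (.pos 47 .mp ⟨⟨145032280, 0, 0, 0, 0, 93429284, 0, 0, 0, ⟨0, 0⟩, 0⟩, 0, 0⟩ 0 0)) (.cut .l 97131 (.cut .v 16793600 (.cut .s 10768384 (.cut .s 10762240 (.pos 51 .mp ⟨⟨146439698, 0, 0, 0, 0, 86626431, 0, 0, 0, ⟨0, 0⟩, 0⟩, 0, 0⟩ 0 0) (.pos 51 .mp ⟨⟨147280625, 0, 0, 0, 0, 86514934, 0, 0, 0, ⟨0, 0⟩, 0⟩, 0, 0⟩ 0 0)) (.cut .s 10774528 (.pos 51 .mp ⟨⟨148014639, 0, 0, 0, 0, 86579845, 0, 0, 0, ⟨0, 0⟩, 0⟩, 0, 0⟩ 0 0) (.pos 51 .mp ⟨⟨148737189, 0, 0, 0, 0, 86669907, 0, 0, 0, ⟨0, 0⟩, 0⟩, 0, 0⟩ 0 0))) (.pos 52 .mp ⟨⟨213860060, 0, 0, 0, 0, 0, 0, 0, 0, ⟨0, 0⟩, 0⟩, 0, 0⟩ 0 0)) (.pos 47 .mp ⟨⟨147490799,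 0, 0, 0, 0, 84336637, 0, 0, 0, ⟨0, 0⟩, 0⟩, 0, 0⟩ 0 0))))) (.pos 48 .mp ⟨⟨207435529, 0, 0, 0, 0, 0, 0, 0, 0, ⟨0, 0⟩, 0⟩, 0, 0⟩ 0 0)) (.cut .v 16809984 (.cut .s 10829824 (.cut .s 10805248 (.cut .s 10792960 (.cut .d (-8192) (.pos 47 .mp ⟨⟨146195384, 0, 0, 0, 0, 94090671, 0, 0, 0, ⟨0, 0⟩, 0⟩, 0, 0⟩ 0 0) (.cut .s 10786816 (.pos 47 .mp ⟨⟨149305744, 0, 0, 0, 0, 87054531, 0, 0, 0, ⟨0, 0⟩, 0⟩, 0, 0⟩ 0 0) (.pos 47 .mp ⟨⟨149838595, 0, 0, 0, 0, 87438601, 0, 0, 0, ⟨0, 0⟩, 0⟩, 0, 0⟩ 0 0))) (.cut .s 10799104 (.cut .s 10796032 (.pos 47 .mp ⟨⟨151497090, 0, 0, 0, 0, 86022280, 0, 0, 0, ⟨0, 0⟩, 0⟩, 0, 0⟩ 0 0) (.pos 47 .mp ⟨⟨151973008, 0, 0, 0, 0,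 85897947, 0, 0, 0, ⟨0, 0⟩, 0⟩, 0, 0⟩ 0 0)) (.pos 47 .mp ⟨⟨149553028, 0, 0, 0, 0, 90428446, 0, 0, 0, ⟨0, 0⟩, 0⟩, 0, 0⟩ 0 0))) (.cut .d (-8192) (.pos 47 .mp ⟨⟨148548799, 0, 0, 0, 0, 97071441, 0, 0, 0, ⟨0, 0⟩, 0⟩, 0, 0⟩ 0 0) (.cut .l 97131 (.cut .v 16793600 (.cut .d (-4096) (.pos 51 .mp ⟨⟨148720944, 0, 0, 0, 0, 96472302, 0, 0, 0, ⟨0, 0⟩, 0⟩, 0, 0⟩ 0 0) (.cut .l 48565 (.cut .d (-2048) (.pos 51 .mp ⟨⟨151656157, 0, 0, 0, 0, 91280899, 0, 0, 0, ⟨0, 0⟩, 0⟩, 0, 0⟩ 0 0) (.cut .s 10817536 (.cut .s 10811392 (.pos 51 .mp ⟨⟨150947536, 0, 0, 0, 0, 89340244, 0, 0, 0, ⟨0, 0⟩, 0⟩, 0, 0⟩ 0 0) (.pos 51 .mp ⟨⟨151622215, 0, 0, 0, 0, 89543137, 0, 0, 0,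 ⟨0, 0⟩, 0⟩, 0, 0⟩ 0 0)) (.pos 51 .mp ⟨⟨152005376, 0, 0, 0, 0, 90426884, 0, 0, 0, ⟨0, 0⟩, 0⟩, 0, 0⟩ 0 0))) (.pos 51 .mp ⟨⟨151774172, 0, 0, 0, 0, 86806152, 0, 0, 0, ⟨0, 0⟩, 0⟩, 0, 0⟩ 0 0))) (.pos 52 .mp ⟨⟨219847335, 0, 0, 0, 0, 0, 0, 0, 0, ⟨0, 0⟩, 0⟩, 0, 0⟩ 0 0)) (.pos 47 .mp ⟨⟨152273839, 0, 0, 0, 0, 86257338, 0, 0, 0, ⟨0, 0⟩, 0⟩, 0, 0⟩ 0 0)))) (.cut .s 10854400 (.cut .d (-8192) (.pos 47 .mp ⟨⟨150938828, 0, 0, 0, 0, 98531435, 0, 0, 0, ⟨0, 0⟩, 0⟩, 0, 0⟩ 0 0) (.cut .v 16793600 (.cut .l 97131 (.cut .d (-4096) (.pos 51 .mp ⟨⟨151106733, 0, 0, 0, 0, 97932344, 0, 0, 0, ⟨0, 0⟩, 0⟩, 0, 0⟩ 0 0) (.cut .s 10842112 (.pos 51 .mp ⟨⟨153658942, 0,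 0, 0, 0, 90433314, 0, 0, 0, ⟨0, 0⟩, 0⟩, 0, 0⟩ 0 0) (.pos 51 .mp ⟨⟨154800887, 0, 0, 0, 0, 91187211, 0, 0, 0, ⟨0, 0⟩, 0⟩, 0, 0⟩ 0 0))) (.pos 51 .mp ⟨⟨150234086, 0, 0, 0, 0, 93856307, 0, 0, 0, ⟨0, 0⟩, 0⟩, 0, 0⟩ 0 0)) (.pos 52 .mp ⟨⟨176533574, 0, 0, 0, 0, 59219562, 0, 0, 0, ⟨0, 0⟩, 0⟩, 0, 0⟩ 0 0))) (.cut .d (-8192) (.pos 47 .mp ⟨⟨153365879, 0, 0, 0, 0, 100052044, 0, 0, 0, ⟨0, 0⟩, 0⟩, 0, 0⟩ 0 0) (.cut .s 10866688 (.pos 47 .mp ⟨⟨157326940, 0, 0, 0, 0, 89996973, 0, 0, 0, ⟨0, 0⟩, 0⟩, 0, 0⟩ 0 0) (.pos 47 .mp ⟨⟨158584947, 0, 0, 0, 0, 90614528, 0, 0, 0, ⟨0, 0⟩, 0⟩, 0, 0⟩ 0 0))))) (.pos 48 .mp ⟨⟨219694994, 0, 0, 0, 0, 0, 0, 0, 0, ⟨0, 0⟩, 0⟩,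 0, 0⟩ 0 0))) (.pos 46 .mp ⟨⟨216888343, 0, 0, 0, 0, 0, 0, 0, 0, ⟨0, 0⟩, 0⟩, 0, 0⟩ 0 0))))))) (.pos 36 .mp ⟨⟨234891221, 0, 0, 0, 0, 0, 0, 0, 0, ⟨0, 0⟩, 0⟩, 0, 0⟩ 0 0))) (.void 34 ⟨⟨100000, 0, 0, 0, 0, 0, 0, 0, 0, ⟨0, 0⟩, 0⟩, 0, 0⟩ 0 0))) (.void 32 ⟨⟨100000, 0, 0, 0, 0, 0, 0, 0, 0, ⟨0, 0⟩, 0⟩, 0, 0⟩ 0 0))) (.void 30 ⟨⟨100000, 0, 0, 0, 0, 0, 0, 0, 0, ⟨0, 0⟩, 0⟩, 0, 0⟩ 0 0))) (.void 28 ⟨⟨100000, 0, 0, 0, 0, 0, 0, 0, 0, ⟨0, 0⟩, 0⟩, 0, 0⟩ 0 0))) (.void 26 ⟨⟨100000, 0, 0, 0, 0, 0, 0, 0, 0, ⟨0, 0⟩, 0⟩, 0, 0⟩ 0 0))) (.void 24 ⟨⟨100000, 0, 0, 0, 0, 0, 0, 0, 0, ⟨0, 0⟩, 0⟩, 0, 0⟩ 0 0)) (.void 123 ⟨⟨100000, 0, 0, 0, 0, 0, 0, 0, 0, ⟨0, 0⟩, 0⟩,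 0, 0⟩ 0 0)) (.void 142 ⟨⟨100000, 0, 0, 0, 0, 0, 0, 0, 0, ⟨0, 0⟩, 0⟩, 0, 0⟩ 0 0))) (.cut .v 16777216 (.cut .v 8388608 (.cut .v 4194304 (.cut .v 2097152 (.pos 6 .pm ⟨⟨0, 0, 271422572, 0, 0, 0, 0, 0, 0, ⟨0, 0⟩, 0⟩, 0, 123243634⟩ 0 0) (.pos 7 .pm ⟨⟨0, 0, 28646254, 0, 0, 0, 0, 0, 0, ⟨0, 0⟩, 0⟩, 0, 73308⟩ 0 0)) (.pos 5 .pm ⟨⟨0, 0, 2263528, 0, 0, 0, 0, 0, 0, ⟨0, 0⟩, 0⟩, 0, 0⟩ 0 0)) (.pos 3 .pm ⟨⟨0, 0, 0, 0, 0, 0, 0, 0, 0, ⟨0, 0⟩, 0⟩, 0, 0⟩ 0 0)) (.cut .v 67108864 (.cut .d 5033166 (.cut .d 2516583 (.cut .v 33554432 (.cut .v 25165824 (.cut .d 1258291 (.cut .d 629145 (.cut .v 20971520 (.cut .d 314572 (.cut .v 18874368 (.cut .v 17825792 (.cut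 .s 10682368 (.pos 29 .pp ⟨⟨55765621, 0, 0, 0, 0, 0, 0, 0, 0, ⟨0, 0⟩, 0⟩, 10854560, 0⟩ 0 0) (.pos 29 .pp ⟨⟨74844559, 0, 0, 0, 0, 0, 0, 0, 0, ⟨0, 0⟩, 0⟩, 11027196, 0⟩ 0 0)) (.pos 30 .pp ⟨⟨205772610, 0, 0, 0, 0, 0, 0, 0, 0, ⟨0, 0⟩, 0⟩, 0, 0⟩ 0 0)) (.pos 28 .pp ⟨⟨249015738, 0, 0, 0, 0, 0, 0, 0, 0, ⟨0, 0⟩, 0⟩, 0, 0⟩ 0 0)) (.pos 25 .pp ⟨⟨0, 0, 0, 0, 0, 0, 0, 0, 0, ⟨0, 0⟩, 0⟩, 12195261, 100290⟩ 0 0)) (.cut .d 314572 (.pos 26 .pp ⟨⟨0, 0, 0, 0, 0, 0, 0, 0, 0, ⟨0, 0⟩, 0⟩, 27383724, 0⟩ 0 0) (.pos 26 .pp ⟨⟨0, 0, 0, 0, 0, 0, 0, 0, 0, ⟨0, 0⟩, 0⟩, 20540473, 0⟩ 0 0))) (.pos 23 .pp ⟨⟨0, 0, 0, 0, 0, 0, 0, 0, 0, ⟨0, 0⟩, 0⟩, 12405823, 87656⟩ 0 0))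 (.pos 23 .pp ⟨⟨0, 0, 0, 0, 0, 0, 0, 0, 0, ⟨0, 0⟩, 0⟩, 0, 289370⟩ 0 0)) (.cut .d 1258291 (.cut .d 629145 (.pos 24 .pp ⟨⟨0, 0, 0, 0, 0, 0, 0, 0, 0, ⟨0, 0⟩, 0⟩, 36514129, 0⟩ 0 0) (.pos 24 .pp ⟨⟨0, 0, 0, 0, 0, 0, 0, 0, 0, ⟨0, 0⟩, 0⟩, 24795446, 0⟩ 0 0)) (.pos 24 .pp ⟨⟨0, 0, 0, 0, 0, 0, 213509, 0, 0, ⟨0, 0⟩, 0⟩, 13727544, 0⟩ 0 0))) (.cut .d 1258291 (.void 123 ⟨⟨0, 0, 0, 0, 0, 0, 0, 0, 0, ⟨0, 0⟩, 0⟩, 100000, 0⟩ 0 0) (.pos 123 .pp ⟨⟨0, 0, 0, 0, 0, 0, 0, 0, 0, ⟨0, 0⟩, 0⟩, 41590832, 0⟩ 0 0))) (.cut .v 33554432 (.pos 22 .pp ⟨⟨0, 0, 0, 0, 0, 0, 0, 0, 0, ⟨0, 0⟩, 0⟩, 0, 241142⟩ 0 0) (.pos 123 .pp ⟨⟨0, 0, 0, 0, 0, 0, 0, 0, 0, ⟨0, 0⟩, 0⟩, 21798799,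 0⟩ 0 0))) (.pos 122 .pp ⟨⟨0, 0, 0, 0, 0, 0, 0, 0, 0, ⟨0, 0⟩, 0⟩, 0, 241142⟩ 0 0)) (.void 142 ⟨⟨0, 93553, 0, 0, 0, 0, 0, 0, 0, ⟨0, 0⟩, 0⟩, 6447, 0⟩ 0 0)))),
    by decide +kernel⟩

def covers15 : cell.Covers Vale.Agent.P237.Petty.Cor.Grid.N19.table row15.1 :=
  ⟨(.cut .d 0 (.cut .v 16777216 (.cut .d (-8388608) (.void 1 ⟨⟨0, 0, 0, 0, 0, 100000, 0, 0, 0, ⟨0, 0⟩, 0⟩, 0, 0⟩ 0 0) (.cut .d (-4194304) (.void 1 ⟨⟨0, 0, 0, 0, 0, 100000, 0, 0, 0, ⟨0, 0⟩, 0⟩, 0, 0⟩ 0 0) (.cut .d (-2097152) (.void 1 ⟨⟨0, 0, 0, 0, 0, 100000, 0, 0, 0, ⟨0, 0⟩, 0⟩, 0, 0⟩ 0 0) (.cut .d (-1048576) (.void 1 ⟨⟨0, 0, 0, 0, 0, 100000, 0, 0, 0, ⟨0, 0⟩, 0⟩, 0, 0⟩ 0 0)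 (.cut .d (-524288) (.void 1 ⟨⟨0, 0, 0, 0, 0, 100000, 0, 0, 0, ⟨0, 0⟩, 0⟩, 0, 0⟩ 0 0) (.cut .d (-262144) (.void 1 ⟨⟨0, 0, 0, 0, 0, 100000, 0, 0, 0, ⟨0, 0⟩, 0⟩, 0, 0⟩ 0 0) (.cut .d (-131072) (.void 1 ⟨⟨0, 0, 0, 0, 0, 100000, 0, 0, 0, ⟨0, 0⟩, 0⟩, 0, 0⟩ 0 0) (.cut .d (-65536) (.void 1 ⟨⟨0, 0, 0, 0, 0, 100000, 0, 0, 0, ⟨0, 0⟩, 0⟩, 0, 0⟩ 0 0) (.cut .d (-32768) (.void 1 ⟨⟨0, 0, 0, 0, 0, 100000, 0, 0, 0, ⟨0, 0⟩, 0⟩, 0, 0⟩ 0 0) (.cut .d (-16384) (.void 1 ⟨⟨0, 0, 0, 0, 0, 100000, 0, 0, 0, ⟨0, 0⟩, 0⟩, 0, 0⟩ 0 0) (.cut .v 8388608 (.cut .v 4194304 (.void 4 ⟨⟨0, 0, 100000, 0, 0, 0, 0, 0, 0, ⟨0, 0⟩, 0⟩, 0, 0⟩ 0 0) (.pos 5 .mm ⟨⟨0, 0, 3302001,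 0, 0, 129264950, 0, 0, 0, ⟨0, 0⟩, 0⟩, 0, 0⟩ 0 0)) (.cut .v 12582912 (.pos 8 .mm ⟨⟨0, 0, 0, 0, 0, 208877956, 0, 0, 0, ⟨0, 0⟩, 0⟩, 0, 0⟩ 0 0) (.cut .v 14680064 (.pos 12 .mm ⟨⟨0, 0, 0, 0, 0, 251203043, 0, 0, 0, ⟨0, 0⟩, 0⟩, 0, 0⟩ 0 0) (.cut .v 15728640 (.pos 20 .mm ⟨⟨0, 0, 0, 0, 0, 273407982, 0, 0, 0, ⟨0, 0⟩, 0⟩, 0, 0⟩ 0 0) (.cut .v 16252928 (.pos 37 .mm ⟨⟨0, 0, 0, 0, 0, 284771051, 0, 0, 0, ⟨0, 0⟩, 0⟩, 0, 0⟩ 0 0) (.cut .v 16515072 (.pos 41 .mm ⟨⟨0, 0, 0, 0, 0, 330534615, 0, 0, 0, ⟨0, 0⟩, 0⟩, 0, 0⟩ 0 0) (.cut .v 16646144 (.pos 43 .mm ⟨⟨0, 0, 0, 0, 0, 351305712, 0, 0, 0, ⟨0, 0⟩, 0⟩, 0, 0⟩ 0 0) (.cut .v 16711680 (.pos 49 .mm ⟨⟨0, 0, 0,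 0, 0, 361820742, 0, 0, 0, ⟨0, 0⟩, 0⟩, 0, 0⟩ 0 0) (.cut .v 16744448 (.pos 53 .mm ⟨⟨0, 0, 0, 0, 0, 367110671, 0, 0, 0, ⟨0, 0⟩, 0⟩, 0, 0⟩ 0 0) (.cut .s 11108352 (.cut .s 10993664 (.pos 54 .mm ⟨⟨0, 0, 0, 0, 0, 327870494, 0, 0, 0, ⟨0, 0⟩, 0⟩, 0, 0⟩ 0 0) (.pos 54 .mm ⟨⟨0, 0, 0, 0, 0, 352451002, 0, 0, 0, ⟨0, 0⟩, 0⟩, 0, 0⟩ 0 0)) (.cut .s 11223040 (.pos 54 .mm ⟨⟨0, 0, 0, 0, 0, 379858651, 0, 0, 0, ⟨0, 0⟩, 0⟩, 0, 0⟩ 0 0) (.pos 54 .mm ⟨⟨0, 0, 0, 0, 0, 410170764, 0, 0, 0, ⟨0, 0⟩, 0⟩, 0, 0⟩ 0 0)))))))))))))))))))))) (.cut .v 268435456 (.cut .v 67108864 (.cut .v 33554432 (.cut .v 25165824 (.cut .d (-8388608) (.void 23 ⟨⟨0, 0, 0, 0, 0, 100000,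 0, 0, 0, ⟨0, 0⟩, 0⟩, 0, 0⟩ 0 0) (.cut .v 20971520 (.cut .d (-4194304) (.void 25 ⟨⟨100000, 0, 0, 0, 0, 0, 0, 0, 0, ⟨0, 0⟩, 0⟩, 0, 0⟩ 0 0) (.cut .d (-2097152) (.void 25 ⟨⟨100000, 0, 0, 0, 0, 0, 0, 0, 0, ⟨0, 0⟩, 0⟩, 0, 0⟩ 0 0) (.cut .v 18874368 (.cut .d (-1048576) (.void 27 ⟨⟨100000, 0, 0, 0, 0, 0, 0, 0, 0, ⟨0, 0⟩, 0⟩, 0, 0⟩ 0 0) (.cut .v 17825792 (.cut .d (-524288) (.void 29 ⟨⟨100000, 0, 0, 0, 0, 0, 0, 0, 0, ⟨0, 0⟩, 0⟩, 0, 0⟩ 0 0) (.cut .d (-262144) (.void 29 ⟨⟨100000, 0, 0, 0, 0, 0, 0, 0, 0, ⟨0, 0⟩, 0⟩, 0, 0⟩ 0 0) (.cut .d (-131072) (.void 29 ⟨⟨100000, 0, 0, 0, 0, 0, 0, 0, 0, ⟨0, 0⟩, 0⟩, 0, 0⟩ 0 0) (.cut .d (-65536) (.void 29 ⟨⟨100000,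 0, 0, 0, 0, 0, 0, 0, 0, ⟨0, 0⟩, 0⟩, 0, 0⟩ 0 0) (.cut .d (-32768) (.void 29 ⟨⟨100000, 0, 0, 0, 0, 0, 0, 0, 0, ⟨0, 0⟩, 0⟩, 0, 0⟩ 0 0) (.cut .d (-16384) (.void 29 ⟨⟨0, 0, 0, 0, 0, 100000, 0, 0, 0, ⟨0, 0⟩, 0⟩, 0, 0⟩ 0 0) (.cut .v 17301504 (.cut .v 17039360 (.cut .v 16908288 (.cut .s 11108352 (.cut .v 16842752 (.cut .s 10993664 (.cut .s 10936320 (.cut .v 16809984 (.cut .s 10907648 (.cut .d (-8192) (.pos 47 .mp ⟨⟨155839537, 0, 0, 0, 0, 102151264, 0, 0, 0, ⟨0, 0⟩, 0⟩, 0, 0⟩ 0 0) (.cut .v 16793600 (.cut .s 10893312 (.pos 51 .mp ⟨⟨158093358, 0, 0, 0, 0, 94031558, 0, 0, 0, ⟨0, 0⟩, 0⟩, 0, 0⟩ 0 0) (.cut .s 10900480 (.pos 51 .mp ⟨⟨163166085,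 0, 0, 0, 0, 88761468, 0, 0, 0, ⟨0, 0⟩, 0⟩, 0, 0⟩ 0 0) (.pos 51 .mp ⟨⟨163635060, 0, 0, 0, 0, 89379668, 0, 0, 0, ⟨0, 0⟩, 0⟩, 0, 0⟩ 0 0))) (.pos 52 .mp ⟨⟨187504308, 0, 0, 0, 0, 53408032, 0, 0, 0, ⟨0, 0⟩, 0⟩, 0, 0⟩ 0 0))) (.cut .d (-8192) (.pos 47 .mp ⟨⟨158769586, 0, 0, 0, 0, 103117563, 0, 0, 0, ⟨0, 0⟩, 0⟩, 0, 0⟩ 0 0) (.cut .l 97131 (.cut .d (-4096) (.pos 47 .mp ⟨⟨162566617, 0, 0, 0, 0, 96402545, 0, 0, 0, ⟨0, 0⟩, 0⟩, 0, 0⟩ 0 0) (.cut .v 16793600 (.cut .l 48565 (.cut .d (-2048) (.pos 51 .mp ⟨⟨162751843, 0, 0, 0, 0, 95620903, 0, 0, 0, ⟨0, 0⟩, 0⟩, 0, 0⟩ 0 0) (.cut .s 10921984 (.pos 51 .mp ⟨⟨161334538, 0, 0, 0, 0, 94393220, 0, 0, 0, ⟨0,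 0⟩, 0⟩, 0, 0⟩ 0 0) (.cut .s 10929152 (.pos 51 .mp ⟨⟨162976822, 0, 0, 0, 0, 94327236, 0, 0, 0, ⟨0, 0⟩, 0⟩, 0, 0⟩ 0 0) (.pos 51 .mp ⟨⟨163625215, 0, 0, 0, 0, 94726393, 0, 0, 0, ⟨0, 0⟩, 0⟩, 0, 0⟩ 0 0)))) (.pos 51 .mp ⟨⟨162608963, 0, 0, 0, 0, 91215708, 0, 0, 0, ⟨0, 0⟩, 0⟩, 0, 0⟩ 0 0)) (.pos 52 .mp ⟨⟨226404350, 0, 0, 0, 0, 0, 0, 0, 0, ⟨0, 0⟩, 0⟩, 0, 0⟩ 0 0))) (.pos 47 .mp ⟨⟨163177712, 0, 0, 0, 0, 90582383, 0, 0, 0, ⟨0, 0⟩, 0⟩, 0, 0⟩ 0 0)))) (.pos 48 .mp ⟨⟨231463255, 0, 0, 0, 0, 0, 0, 0, 0, ⟨0, 0⟩, 0⟩, 0, 0⟩ 0 0)) (.cut .v 16809984 (.cut .s 10964992 (.cut .d (-8192) (.cut .s 10950656 (.pos 47 .mp ⟨⟨161758314, 0, 0, 0, 0, 102040213, 0,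 0, 0, ⟨0, 0⟩, 0⟩, 0, 0⟩ 0 0) (.pos 47 .mp ⟨⟨163274924, 0, 0, 0, 0, 102570297, 0, 0, 0, ⟨0, 0⟩, 0⟩, 0, 0⟩ 0 0)) (.cut .l 97131 (.cut .v 16793600 (.cut .d (-4096) (.pos 51 .mp ⟨⟨161899347, 0, 0, 0, 0, 103587548, 0, 0, 0, ⟨0, 0⟩, 0⟩, 0, 0⟩ 0 0) (.cut .l 48565 (.cut .d (-2048) (.pos 51 .mp ⟨⟨165271497, 0, 0, 0, 0, 97618626, 0, 0, 0, ⟨0, 0⟩, 0⟩, 0, 0⟩ 0 0) (.cut .v 16785408 (.cut .l 24282 (.cut .d (-1024) (.pos 65 .mp ⟨⟨165365735, 0, 0, 0, 0, 97219046, 0, 0, 0, ⟨0, 0⟩, 0⟩, 0, 0⟩ 0 0) (.cut .v 16781312 (.cut .l 12141 (.cut .d (-512) (.pos 71 .mp ⟨⟨165274546, 0, 0, 0, 0, 97300530, 0, 0, 0, ⟨0, 0⟩, 0⟩, 0, 0⟩ 0 0) (.cut .v 16779264 (.cut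 .l 6070 (.cut .s 10950656 (.cut .s 10943488 (.pos 138 .mp ⟨⟨164795405, 0, 0, 0, 0, 94241720, 0, 0, 0, ⟨0, 0⟩, 0⟩, 0, 0⟩ 0 0) (.pos 138 .mp ⟨⟨165419788, 0, 0, 0, 0, 94705208, 0, 0, 0, ⟨0, 0⟩, 0⟩, 0, 0⟩ 0 0)) (.cut .s 10957824 (.pos 138 .mp ⟨⟨166052942, 0, 0, 0, 0, 95166067, 0, 0, 0, ⟨0, 0⟩, 0⟩, 0, 0⟩ 0 0) (.pos 138 .mp ⟨⟨166694989, 0, 0, 0, 0, 95624116, 0, 0, 0, ⟨0, 0⟩, 0⟩, 0, 0⟩ 0 0))) (.pos 138 .mp ⟨⟨165144745, 0, 0, 0, 0, 92976022, 0, 0, 0, ⟨0, 0⟩, 0⟩, 0, 0⟩ 0 0)) (.pos 139 .mp ⟨⟨229708527, 0, 0, 0, 0, 0, 0, 0, 0, ⟨0, 0⟩, 0⟩, 0, 0⟩ 0 0))) (.pos 71 .mp ⟨⟨165218177, 0, 0, 0, 0, 92893617, 0, 0, 0, ⟨0, 0⟩, 0⟩, 0, 0⟩ 0 0)) (.pos 72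 .mp ⟨⟨229744459, 0, 0, 0, 0, 0, 0, 0, 0, ⟨0, 0⟩, 0⟩, 0, 0⟩ 0 0))) (.pos 65 .mp ⟨⟨165365123, 0, 0, 0, 0, 92729405, 0, 0, 0, ⟨0, 0⟩, 0⟩, 0, 0⟩ 0 0)) (.pos 66 .mp ⟨⟨229808840, 0, 0, 0, 0, 0, 0, 0, 0, ⟨0, 0⟩, 0⟩, 0, 0⟩ 0 0))) (.pos 51 .mp ⟨⟨165659278, 0, 0, 0, 0, 92400586, 0, 0, 0, ⟨0, 0⟩, 0⟩, 0, 0⟩ 0 0))) (.pos 52 .mp ⟨⟨237318134, 0, 0, 0, 0, 0, 0, 0, 0, ⟨0, 0⟩, 0⟩, 0, 0⟩ 0 0)) (.pos 47 .mp ⟨⟨166248519, 0, 0, 0, 0, 91742005, 0, 0, 0, ⟨0, 0⟩, 0⟩, 0, 0⟩ 0 0))) (.cut .d (-8192) (.cut .s 10979328 (.pos 47 .mp ⟨⟨164806496, 0, 0, 0, 0, 103123410, 0, 0, 0, ⟨0, 0⟩, 0⟩, 0, 0⟩ 0 0) (.pos 47 .mp ⟨⟨166353128, 0, 0, 0, 0, 103699756, 0, 0, 0, ⟨0,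 0⟩, 0⟩, 0, 0⟩ 0 0)) (.cut .l 97131 (.cut .v 16793600 (.cut .s 10979328 (.cut .s 10972160 (.pos 51 .mp ⟨⟨167630314, 0, 0, 0, 0, 95755986, 0, 0, 0, ⟨0, 0⟩, 0⟩, 0, 0⟩ 0 0) (.pos 51 .mp ⟨⟨167961618, 0, 0, 0, 0, 96728323, 0, 0, 0, ⟨0, 0⟩, 0⟩, 0, 0⟩ 0 0)) (.cut .s 10986496 (.pos 51 .mp ⟨⟨168318607, 0, 0, 0, 0, 97671877, 0, 0, 0, ⟨0, 0⟩, 0⟩, 0, 0⟩ 0 0) (.pos 51 .mp ⟨⟨168701599, 0, 0, 0, 0, 98586124, 0, 0, 0, ⟨0, 0⟩, 0⟩, 0, 0⟩ 0 0))) (.pos 52 .mp ⟨⟨241188349, 0, 0, 0, 0, 0, 0, 0, 0, ⟨0, 0⟩, 0⟩, 0, 0⟩ 0 0)) (.pos 47 .mp ⟨⟨169380295, 0, 0, 0, 0, 92936088, 0, 0, 0, ⟨0, 0⟩, 0⟩, 0, 0⟩ 0 0)))) (.pos 48 .mp ⟨⟨238998625, 0, 0, 0, 0, 0, 0, 0, 0,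 ⟨0, 0⟩, 0⟩, 0, 0⟩ 0 0))) (.cut .s 11051008 (.cut .v 16809984 (.cut .s 11022336 (.cut .d (-8192) (.cut .s 11008000 (.pos 47 .mp ⟨⟨167914921, 0, 0, 0, 0, 104299540, 0, 0, 0, ⟨0, 0⟩, 0⟩, 0, 0⟩ 0 0) (.pos 47 .mp ⟨⟨169491977, 0, 0, 0, 0, 104922969, 0, 0, 0, ⟨0, 0⟩, 0⟩, 0, 0⟩ 0 0)) (.cut .l 97131 (.cut .v 16793600 (.cut .s 11008000 (.cut .s 11000832 (.pos 51 .mp ⟨⟨169285109, 0, 0, 0, 0, 99206705, 0, 0, 0, ⟨0, 0⟩, 0⟩, 0, 0⟩ 0 0) (.cut .s 11004416 (.pos 51 .mp ⟨⟨172611114, 0, 0, 0, 0, 95341753, 0, 0, 0, ⟨0, 0⟩, 0⟩, 0, 0⟩ 0 0) (.pos 51 .mp ⟨⟨172934596, 0, 0, 0, 0, 95601658, 0, 0, 0, ⟨0, 0⟩, 0⟩, 0, 0⟩ 0 0))) (.cut .d (-4096) (.pos 51 .mp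 ⟨⟨169609779, 0, 0, 0, 0, 104357544, 0, 0, 0, ⟨0, 0⟩, 0⟩, 0, 0⟩ 0 0) (.cut .s 11015168 (.pos 51 .mp ⟨⟨171885320, 0, 0, 0, 0, 98153940, 0, 0, 0, ⟨0, 0⟩, 0⟩, 0, 0⟩ 0 0) (.pos 51 .mp ⟨⟨172687159, 0, 0, 0, 0, 98461649, 0, 0, 0, ⟨0, 0⟩, 0⟩, 0, 0⟩ 0 0)))) (.pos 52 .mp ⟨⟨245140815, 0, 0, 0, 0, 0, 0, 0, 0, ⟨0, 0⟩, 0⟩, 0, 0⟩ 0 0)) (.pos 47 .mp ⟨⟨172573854, 0, 0, 0, 0, 94161886, 0, 0, 0, ⟨0, 0⟩, 0⟩, 0, 0⟩ 0 0))) (.cut .d (-8192) (.cut .s 11036672 (.pos 47 .mp ⟨⟨171084399, 0, 0, 0, 0, 105570254, 0, 0, 0, ⟨0, 0⟩, 0⟩, 0, 0⟩ 0 0) (.pos 47 .mp ⟨⟨172692288, 0, 0, 0, 0, 106241605, 0, 0, 0, ⟨0, 0⟩, 0⟩, 0, 0⟩ 0 0)) (.cut .l 97131 (.cut .v 16793600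 (.cut .s 11036672 (.cut .d (-4096) (.pos 51 .mp ⟨⟨171197435, 0, 0, 0, 0, 105008315, 0, 0, 0, ⟨0, 0⟩, 0⟩, 0, 0⟩ 0 0) (.cut .s 11029504 (.pos 51 .mp ⟨⟨173492902, 0, 0, 0, 0, 98773633, 0, 0, 0, ⟨0, 0⟩, 0⟩, 0, 0⟩ 0 0) (.pos 51 .mp ⟨⟨174302561, 0, 0, 0, 0, 99089883, 0, 0, 0, ⟨0, 0⟩, 0⟩, 0, 0⟩ 0 0))) (.cut .d (-4096) (.pos 51 .mp ⟨⟨172800519, 0, 0, 0, 0, 105683176, 0, 0, 0, ⟨0, 0⟩, 0⟩, 0, 0⟩ 0 0) (.cut .l 48565 (.cut .d (-2048) (.pos 51 .mp ⟨⟨175335713, 0, 0, 0, 0, 101016513, 0, 0, 0, ⟨0, 0⟩, 0⟩, 0, 0⟩ 0 0) (.cut .s 11043840 (.pos 51 .mp ⟨⟨174541616, 0, 0, 0, 0, 100229093, 0, 0, 0, ⟨0, 0⟩, 0⟩, 0, 0⟩ 0 0) (.pos 51 .mp ⟨⟨175374621, 0,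 0, 0, 0, 100525760, 0, 0, 0, ⟨0, 0⟩, 0⟩, 0, 0⟩ 0 0))) (.pos 51 .mp ⟨⟨175176173, 0, 0, 0, 0, 98437081, 0, 0, 0, ⟨0, 0⟩, 0⟩, 0, 0⟩ 0 0)))) (.pos 52 .mp ⟨⟨249174098, 0, 0, 0, 0, 0, 0, 0, 0, ⟨0, 0⟩, 0⟩, 0, 0⟩ 0 0)) (.cut .s 11036672 (.pos 47 .mp ⟨⟨174194062, 0, 0, 0, 0, 97040225, 0, 0, 0, ⟨0, 0⟩, 0⟩, 0, 0⟩ 0 0) (.pos 47 .mp ⟨⟨175830030, 0, 0, 0, 0, 97698487, 0, 0, 0, ⟨0, 0⟩, 0⟩, 0, 0⟩ 0 0))))) (.pos 48 .mp ⟨⟨246866194, 0, 0, 0, 0, 0, 0, 0, 0, ⟨0, 0⟩, 0⟩, 0, 0⟩ 0 0)) (.cut .v 16809984 (.cut .s 11079680 (.cut .d (-8192) (.cut .s 11065344 (.pos 47 .mp ⟨⟨174315751, 0, 0, 0, 0, 106937238, 0, 0, 0, ⟨0, 0⟩, 0⟩, 0, 0⟩ 0 0) (.pos 47 .mp ⟨⟨175954892,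 0, 0, 0, 0, 107657366, 0, 0, 0, ⟨0, 0⟩, 0⟩, 0, 0⟩ 0 0)) (.cut .s 11065344 (.cut .l 97131 (.cut .d (-4096) (.pos 47 .mp ⟨⟨176697190, 0, 0, 0, 0, 102697814, 0, 0, 0, ⟨0, 0⟩, 0⟩, 0, 0⟩ 0 0) (.cut .v 16793600 (.cut .l 48565 (.cut .d (-2048) (.pos 51 .mp ⟨⟨176896279, 0, 0, 0, 0, 101833243, 0, 0, 0, ⟨0, 0⟩, 0⟩, 0, 0⟩ 0 0) (.cut .s 11058176 (.pos 51 .mp ⟨⟨176209241, 0, 0, 0, 0, 100830750, 0, 0, 0, ⟨0, 0⟩, 0⟩, 0, 0⟩ 0 0) (.pos 51 .mp ⟨⟨177035432, 0, 0, 0, 0, 101161716, 0, 0, 0, ⟨0, 0⟩, 0⟩, 0, 0⟩ 0 0))) (.pos 51 .mp ⟨⟨176816771, 0, 0, 0, 0, 99115788, 0, 0, 0, ⟨0, 0⟩, 0⟩, 0, 0⟩ 0 0)) (.pos 52 .mp ⟨⟨243707490, 0, 0, 0, 0, 0, 0, 0, 0, ⟨0,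 0⟩, 0⟩, 0, 0⟩ 0 0))) (.pos 47 .mp ⟨⟨177481865, 0, 0, 0, 0, 98363272, 0, 0, 0, ⟨0, 0⟩, 0⟩, 0, 0⟩ 0 0)) (.cut .l 97131 (.cut .d (-4096) (.pos 47 .mp ⟨⟨178295820, 0, 0, 0, 0, 103499562, 0, 0, 0, ⟨0, 0⟩, 0⟩, 0, 0⟩ 0 0) (.cut .v 16793600 (.cut .l 48565 (.cut .d (-2048) (.pos 51 .mp ⟨⟨178496845, 0, 0, 0, 0, 102624741, 0, 0, 0, ⟨0, 0⟩, 0⟩, 0, 0⟩ 0 0) (.cut .s 11072512 (.pos 51 .mp ⟨⟨177861163, 0, 0, 0, 0, 101504702, 0, 0, 0, ⟨0, 0⟩, 0⟩, 0, 0⟩ 0 0) (.pos 51 .mp ⟨⟨178690866, 0, 0, 0, 0, 101851943, 0, 0, 0, ⟨0, 0⟩, 0⟩, 0, 0⟩ 0 0))) (.pos 51 .mp ⟨⟨178473208, 0, 0, 0, 0, 99800847, 0, 0, 0, ⟨0, 0⟩, 0⟩, 0, 0⟩ 0 0)) (.pos 52 .mp ⟨⟨245737778,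 0, 0, 0, 0, 0, 0, 0, 0, ⟨0, 0⟩, 0⟩, 0, 0⟩ 0 0))) (.pos 47 .mp ⟨⟨179149674, 0, 0, 0, 0, 99034232, 0, 0, 0, ⟨0, 0⟩, 0⟩, 0, 0⟩ 0 0)))) (.cut .d (-8192) (.cut .s 11094016 (.pos 47 .mp ⟨⟨177609819, 0, 0, 0, 0, 108402209, 0, 0, 0, ⟨0, 0⟩, 0⟩, 0, 0⟩ 0 0) (.pos 47 .mp ⟨⟨179280639, 0, 0, 0, 0, 109171986, 0, 0, 0, ⟨0, 0⟩, 0⟩, 0, 0⟩ 0 0)) (.cut .s 11094016 (.cut .l 97131 (.cut .d (-4096) (.pos 47 .mp ⟨⟨179935254, 0, 0, 0, 0, 104274793, 0, 0, 0, ⟨0, 0⟩, 0⟩, 0, 0⟩ 0 0) (.cut .v 16793600 (.cut .l 48565 (.cut .d (-2048) (.pos 51 .mp ⟨⟨180138239, 0, 0, 0, 0, 103389578, 0, 0, 0, ⟨0, 0⟩, 0⟩, 0, 0⟩ 0 0) (.cut .s 11086848 (.pos 51 .mp ⟨⟨179524553,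 0, 0, 0, 0, 102203429, 0, 0, 0, ⟨0, 0⟩, 0⟩, 0, 0⟩ 0 0) (.pos 51 .mp ⟨⟨180362238, 0, 0, 0, 0, 102559151, 0, 0, 0, ⟨0, 0⟩, 0⟩, 0, 0⟩ 0 0))) (.pos 51 .mp ⟨⟨180145592, 0, 0, 0, 0, 100491909, 0, 0, 0, ⟨0, 0⟩, 0⟩, 0, 0⟩ 0 0)) (.pos 52 .mp ⟨⟨247799021, 0, 0, 0, 0, 0, 0, 0, 0, ⟨0, 0⟩, 0⟩, 0, 0⟩ 0 0))) (.pos 47 .mp ⟨⟨180833567, 0, 0, 0, 0, 99711011, 0, 0, 0, ⟨0, 0⟩, 0⟩, 0, 0⟩ 0 0)) (.cut .l 97131 (.cut .d (-4096) (.pos 47 .mp ⟨⟨181616326, 0, 0, 0, 0, 105022065, 0, 0, 0, ⟨0, 0⟩, 0⟩, 0, 0⟩ 0 0) (.cut .v 16793600 (.cut .l 48565 (.cut .d (-2048) (.pos 51 .mp ⟨⟨181821293, 0, 0, 0, 0, 104126317, 0, 0, 0, ⟨0, 0⟩, 0⟩, 0, 0⟩ 0 0) (.cut .s 11101184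 (.pos 51 .mp ⟨⟨181203936, 0, 0, 0, 0, 102919101, 0, 0, 0, ⟨0, 0⟩, 0⟩, 0, 0⟩ 0 0) (.pos 51 .mp ⟨⟨182049660, 0, 0, 0, 0, 103283268, 0, 0, 0, ⟨0, 0⟩, 0⟩, 0, 0⟩ 0 0))) (.pos 51 .mp ⟨⟨181834032, 0, 0, 0, 0, 101188621, 0, 0, 0, ⟨0, 0⟩, 0⟩, 0, 0⟩ 0 0)) (.pos 52 .mp ⟨⟨249891419, 0, 0, 0, 0, 0, 0, 0, 0, ⟨0, 0⟩, 0⟩, 0, 0⟩ 0 0))) (.pos 47 .mp ⟨⟨182533653, 0, 0, 0, 0, 100393256, 0, 0, 0, ⟨0, 0⟩, 0⟩, 0, 0⟩ 0 0))))) (.pos 48 .mp ⟨⟨255054531, 0, 0, 0, 0, 0, 0, 0, 0, ⟨0, 0⟩, 0⟩, 0, 0⟩ 0 0)))) (.pos 46 .mp ⟨⟨247062381, 0, 0, 0, 0, 0, 0, 0, 0, ⟨0, 0⟩, 0⟩, 0, 0⟩ 0 0)) (.cut .v 16842752 (.cut .s 11223040 (.cut .s 11165696 (.cut .v 16809984 (.cut .s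 11137024 (.cut .d (-8192) (.cut .s 11122688 (.pos 47 .mp ⟨⟨180967461, 0, 0, 0, 0, 109966919, 0, 0, 0, ⟨0, 0⟩, 0⟩, 0, 0⟩ 0 0) (.pos 47 .mp ⟨⟨182670395, 0, 0, 0, 0, 110787232, 0, 0, 0, ⟨0, 0⟩, 0⟩, 0, 0⟩ 0 0)) (.cut .s 11122688 (.cut .l 97131 (.cut .d (-4096) (.pos 47 .mp ⟨⟨183339875, 0, 0, 0, 0, 105739929, 0, 0, 0, ⟨0, 0⟩, 0⟩, 0, 0⟩ 0 0) (.cut .v 16793600 (.cut .l 48565 (.cut .d (-2048) (.pos 51 .mp ⟨⟨183546844, 0, 0, 0, 0, 104833508, 0, 0, 0, ⟨0, 0⟩, 0⟩, 0, 0⟩ 0 0) (.cut .s 11115520 (.pos 51 .mp ⟨⟨182899424, 0, 0, 0, 0, 103651644, 0, 0, 0, ⟨0, 0⟩, 0⟩, 0, 0⟩ 0 0) (.pos 51 .mp ⟨⟨183753241, 0, 0, 0, 0, 104024218, 0, 0, 0, ⟨0, 0⟩, 0⟩,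 0, 0⟩ 0 0))) (.pos 51 .mp ⟨⟨183538639, 0, 0, 0, 0, 101890629, 0, 0, 0, ⟨0, 0⟩, 0⟩, 0, 0⟩ 0 0)) (.pos 52 .mp ⟨⟨252015177, 0, 0, 0, 0, 0, 0, 0, 0, ⟨0, 0⟩, 0⟩, 0, 0⟩ 0 0))) (.pos 47 .mp ⟨⟨184250045, 0, 0, 0, 0, 101080609, 0, 0, 0, ⟨0, 0⟩, 0⟩, 0, 0⟩ 0 0)) (.cut .l 97131 (.cut .d (-4096) (.pos 47 .mp ⟨⟨185106742, 0, 0, 0, 0, 106426921, 0, 0, 0, ⟨0, 0⟩, 0⟩, 0, 0⟩ 0 0) (.cut .v 16793600 (.cut .l 48565 (.cut .d (-2048) (.pos 51 .mp ⟨⟨185315732, 0, 0, 0, 0, 105509692, 0, 0, 0, ⟨0, 0⟩, 0⟩, 0, 0⟩ 0 0) (.cut .s 11129856 (.pos 51 .mp ⟨⟨184611126, 0, 0, 0, 0, 104400982, 0, 0, 0, ⟨0, 0⟩, 0⟩, 0, 0⟩ 0 0) (.pos 51 .mp ⟨⟨185473093, 0, 0, 0, 0, 104781925,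 0, 0, 0, ⟨0, 0⟩, 0⟩, 0, 0⟩ 0 0))) (.pos 51 .mp ⟨⟨185259524, 0, 0, 0, 0, 102597575, 0, 0, 0, ⟨0, 0⟩, 0⟩, 0, 0⟩ 0 0)) (.pos 52 .mp ⟨⟨254170501, 0, 0, 0, 0, 0, 0, 0, 0, ⟨0, 0⟩, 0⟩, 0, 0⟩ 0 0))) (.pos 47 .mp ⟨⟨185982854, 0, 0, 0, 0, 101772714, 0, 0, 0, ⟨0, 0⟩, 0⟩, 0, 0⟩ 0 0)))) (.cut .d (-8192) (.cut .s 11151360 (.pos 47 .mp ⟨⟨184389553, 0, 0, 0, 0, 111633153, 0, 0, 0, ⟨0, 0⟩, 0⟩, 0, 0⟩ 0 0) (.pos 47 .mp ⟨⟨186125046, 0, 0, 0, 0, 112504908, 0, 0, 0, ⟨0, 0⟩, 0⟩, 0, 0⟩ 0 0)) (.cut .s 11151360 (.cut .l 97131 (.cut .d (-4096) (.pos 47 .mp ⟨⟨186917773, 0, 0, 0, 0, 107081571, 0, 0, 0, ⟨0, 0⟩, 0⟩, 0, 0⟩ 0 0) (.cut .v 16793600 (.cut .l 48565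 (.cut .d (-2048) (.pos 51 .mp ⟨⟨187128803, 0, 0, 0, 0, 106153399, 0, 0, 0, ⟨0, 0⟩, 0⟩, 0, 0⟩ 0 0) (.cut .s 11144192 (.pos 51 .mp ⟨⟨186338112, 0, 0, 0, 0, 105168875, 0, 0, 0, ⟨0, 0⟩, 0⟩, 0, 0⟩ 0 0) (.pos 51 .mp ⟨⟨187190561, 0, 0, 0, 0, 105589401, 0, 0, 0, ⟨0, 0⟩, 0⟩, 0, 0⟩ 0 0))) (.pos 51 .mp ⟨⟨186996799, 0, 0, 0, 0, 103309104, 0, 0, 0, ⟨0, 0⟩, 0⟩, 0, 0⟩ 0 0)) (.pos 52 .mp ⟨⟨256357599, 0, 0, 0, 0, 0, 0, 0, 0, ⟨0, 0⟩, 0⟩, 0, 0⟩ 0 0))) (.pos 47 .mp ⟨⟨187732193, 0, 0, 0, 0, 102469210, 0, 0, 0, ⟨0, 0⟩, 0⟩, 0, 0⟩ 0 0)) (.cut .l 97131 (.cut .d (-4096) (.pos 47 .mp ⟨⟨188773821, 0, 0, 0, 0, 107702396, 0, 0, 0, ⟨0, 0⟩, 0⟩, 0, 0⟩ 0 0) (.cut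 .v 16793600 (.cut .s 11158528 (.cut .s 11154944 (.pos 51 .mp ⟨⟨189156135, 0, 0, 0, 0, 104163286, 0, 0, 0, ⟨0, 0⟩, 0⟩, 0, 0⟩ 0 0) (.pos 51 .mp ⟨⟨189635531, 0, 0, 0, 0, 104302990, 0, 0, 0, ⟨0, 0⟩, 0⟩, 0, 0⟩ 0 0)) (.pos 51 .mp ⟨⟨189561555, 0, 0, 0, 0, 105501814, 0, 0, 0, ⟨0, 0⟩, 0⟩, 0, 0⟩ 0 0)) (.pos 52 .mp ⟨⟨258576681, 0, 0, 0, 0, 0, 0, 0, 0, ⟨0, 0⟩, 0⟩, 0, 0⟩ 0 0))) (.pos 47 .mp ⟨⟨189498179, 0, 0, 0, 0, 103169735, 0, 0, 0, ⟨0, 0⟩, 0⟩, 0, 0⟩ 0 0))))) (.pos 48 .mp ⟨⟨263552566, 0, 0, 0, 0, 0, 0, 0, 0, ⟨0, 0⟩, 0⟩, 0, 0⟩ 0 0)) (.cut .v 16809984 (.cut .s 11194368 (.cut .d (-8192) (.cut .s 11180032 (.pos 47 .mp ⟨⟨187876988, 0, 0, 0, 0,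 113402730, 0, 0, 0, ⟨0, 0⟩, 0⟩, 0, 0⟩ 0 0) (.pos 47 .mp ⟨⟨189645494, 0, 0, 0, 0, 114326851, 0, 0, 0, ⟨0, 0⟩, 0⟩, 0, 0⟩ 0 0)) (.cut .s 11180032 (.cut .v 16793600 (.cut .l 97131 (.cut .d (-4096) (.pos 51 .mp ⟨⟨187940109, 0, 0, 0, 0, 112876921, 0, 0, 0, ⟨0, 0⟩, 0⟩, 0, 0⟩ 0 0) (.cut .s 11172864 (.pos 51 .mp ⟨⟨190448219, 0, 0, 0, 0, 105897395, 0, 0, 0, ⟨0, 0⟩, 0⟩, 0, 0⟩ 0 0) (.pos 51 .mp ⟨⟨191339077, 0, 0, 0, 0, 106297052, 0, 0, 0, ⟨0, 0⟩, 0⟩, 0, 0⟩ 0 0))) (.pos 51 .mp ⟨⟨186742037, 0, 0, 0, 0, 110691181, 0, 0, 0, ⟨0, 0⟩, 0⟩, 0, 0⟩ 0 0)) (.pos 52 .mp ⟨⟨208214173, 0, 0, 0, 0, 81246698, 0, 0, 0, ⟨0, 0⟩, 0⟩, 0, 0⟩ 0 0)) (.cut .v 16793600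 (.cut .l 97131 (.cut .d (-4096) (.pos 51 .mp ⟨⟨189703391, 0, 0, 0, 0, 113804785, 0, 0, 0, ⟨0, 0⟩, 0⟩, 0, 0⟩ 0 0) (.cut .s 11187200 (.pos 51 .mp ⟨⟨192234144, 0, 0, 0, 0, 106700773, 0, 0, 0, ⟨0, 0⟩, 0⟩, 0, 0⟩ 0 0) (.pos 51 .mp ⟨⟨193120492, 0, 0, 0, 0, 107129438, 0, 0, 0, ⟨0, 0⟩, 0⟩, 0, 0⟩ 0 0))) (.pos 51 .mp ⟨⟨188488976, 0, 0, 0, 0, 111483272, 0, 0, 0, ⟨0, 0⟩, 0⟩, 0, 0⟩ 0 0)) (.pos 52 .mp ⟨⟨210718751, 0, 0, 0, 0, 80989062, 0, 0, 0, ⟨0, 0⟩, 0⟩, 0, 0⟩ 0 0)))) (.cut .d (-8192) (.cut .s 11208704 (.pos 47 .mp ⟨⟨191430680, 0, 0, 0, 0, 115277508, 0, 0, 0, ⟨0, 0⟩, 0⟩, 0, 0⟩ 0 0) (.pos 47 .mp ⟨⟨193232663, 0, 0, 0, 0, 116254936, 0, 0, 0, ⟨0,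 0⟩, 0⟩, 0, 0⟩ 0 0)) (.cut .l 97131 (.cut .v 16793600 (.cut .d (-4096) (.pos 51 .mp ⟨⟨191483309, 0, 0, 0, 0, 117494596, 0, 0, 0, ⟨0, 0⟩, 0⟩, 0, 0⟩ 0 0) (.cut .l 48565 (.cut .v 16785408 (.cut .d (-2048) (.pos 65 .mp ⟨⟨191510126, 0, 0, 0, 0, 117232004, 0, 0, 0, ⟨0, 0⟩, 0⟩, 0, 0⟩ 0 0) (.cut .l 24282 (.cut .v 16781312 (.cut .d (-1024) (.pos 71 .mp ⟨⟨191523686, 0, 0, 0, 0, 117100553, 0, 0, 0, ⟨0, 0⟩, 0⟩, 0, 0⟩ 0 0) (.cut .l 12141 (.cut .v 16779264 (.cut .d (-512) (.pos 138 .mp ⟨⟨191530495, 0, 0, 0, 0, 117034725, 0, 0, 0, ⟨0, 0⟩, 0⟩, 0, 0⟩ 0 0) (.cut .l 6070 (.cut .s 11208704 (.cut .s 11201536 (.pos 138 .mp ⟨⟨193726897, 0, 0, 0, 0, 107913319,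 0, 0, 0, ⟨0, 0⟩, 0⟩, 0, 0⟩ 0 0) (.pos 138 .mp ⟨⟨194750204, 0, 0, 0, 0, 108159839, 0, 0, 0, ⟨0, 0⟩, 0⟩, 0, 0⟩ 0 0)) (.cut .s 11215872 (.pos 138 .mp ⟨⟨195787183, 0, 0, 0, 0, 108396443, 0, 0, 0, ⟨0, 0⟩, 0⟩, 0, 0⟩ 0 0) (.pos 138 .mp ⟨⟨196837984, 0, 0, 0, 0, 108622904, 0, 0, 0, ⟨0, 0⟩, 0⟩, 0, 0⟩ 0 0))) (.pos 138 .mp ⟨⟨195236341, 0, 0, 0, 0, 105114602, 0, 0, 0, ⟨0, 0⟩, 0⟩, 0, 0⟩ 0 0))) (.pos 139 .mp ⟨⟨274474677, 0, 0, 0, 0, 0, 0, 0, 0, ⟨0, 0⟩, 0⟩, 0, 0⟩ 0 0)) (.pos 71 .mp ⟨⟨195335777, 0, 0, 0, 0, 104999806, 0, 0, 0, ⟨0, 0⟩, 0⟩, 0, 0⟩ 0 0))) (.pos 72 .mp ⟨⟨274552419, 0, 0, 0, 0, 0, 0, 0, 0, ⟨0, 0⟩, 0⟩, 0, 0⟩ 0 0)) (.pos 65 .mp ⟨⟨195534758,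 0, 0, 0, 0, 104770945, 0, 0, 0, ⟨0, 0⟩, 0⟩, 0, 0⟩ 0 0))) (.pos 66 .mp ⟨⟨274700205, 0, 0, 0, 0, 0, 0, 0, 0, ⟨0, 0⟩, 0⟩, 0, 0⟩ 0 0)) (.pos 51 .mp ⟨⟨195933065, 0, 0, 0, 0, 104312701, 0, 0, 0, ⟨0, 0⟩, 0⟩, 0, 0⟩ 0 0))) (.pos 52 .mp ⟨⟨274993584, 0, 0, 0, 0, 0, 0, 0, 0, ⟨0, 0⟩, 0⟩, 0, 0⟩ 0 0)) (.pos 47 .mp ⟨⟨196730920, 0, 0, 0, 0, 103394911, 0, 0, 0, ⟨0, 0⟩, 0⟩, 0, 0⟩ 0 0)))) (.pos 48 .mp ⟨⟨272349580, 0, 0, 0, 0, 0, 0, 0, 0, ⟨0, 0⟩, 0⟩, 0, 0⟩ 0 0))) (.cut .s 11280384 (.cut .v 16809984 (.cut .s 11251712 (.cut .d (-8192) (.pos 47 .mp ⟨⟨195051561, 0, 0, 0, 0, 120070388, 0, 0, 0, ⟨0, 0⟩, 0⟩, 0, 0⟩ 0 0) (.cut .l 97131 (.cut .v 16793600 (.cut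 .d (-4096) (.pos 51 .mp ⟨⟨195093522, 0, 0, 0, 0, 119554164, 0, 0, 0, ⟨0, 0⟩, 0⟩, 0, 0⟩ 0 0) (.cut .l 48565 (.cut .d (-2048) (.pos 51 .mp ⟨⟨195300413, 0, 0, 0, 0, 120187169, 0, 0, 0, ⟨0, 0⟩, 0⟩, 0, 0⟩ 0 0) (.cut .v 16785408 (.cut .l 24282 (.cut .d (-1024) (.pos 65 .mp ⟨⟨195218566, 0, 0, 0, 0, 120089506, 0, 0, 0, ⟨0, 0⟩, 0⟩, 0, 0⟩ 0 0) (.cut .v 16781312 (.cut .l 12141 (.cut .d (-512) (.pos 71 .mp ⟨⟨195177715, 0, 0, 0, 0, 120040497, 0, 0, 0, ⟨0, 0⟩, 0⟩, 0, 0⟩ 0 0) (.cut .v 16779264 (.cut .l 6070 (.cut .s 11237376 (.cut .s 11230208 (.pos 138 .mp ⟨⟨197902756, 0, 0, 0, 0, 108838991, 0, 0, 0, ⟨0, 0⟩, 0⟩, 0, 0⟩ 0 0) (.pos 138 .mp ⟨⟨198981650,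 0, 0, 0, 0, 109044474, 0, 0, 0, ⟨0, 0⟩, 0⟩, 0, 0⟩ 0 0)) (.cut .s 11244544 (.pos 138 .mp ⟨⟨200074817, 0, 0, 0, 0, 109239120, 0, 0, 0, ⟨0, 0⟩, 0⟩, 0, 0⟩ 0 0) (.pos 138 .mp ⟨⟨201182409, 0, 0, 0, 0, 109422693, 0, 0, 0, ⟨0, 0⟩, 0⟩, 0, 0⟩ 0 0))) (.pos 138 .mp ⟨⟨198906955, 0, 0, 0, 0, 106553535, 0, 0, 0, ⟨0, 0⟩, 0⟩, 0, 0⟩ 0 0)) (.pos 139 .mp ⟨⟨271669490, 0, 0, 0, 0, 0, 0, 0, 0, ⟨0, 0⟩, 0⟩, 0, 0⟩ 0 0))) (.pos 71 .mp ⟨⟨199009632, 0, 0, 0, 0, 106434662, 0, 0, 0, ⟨0, 0⟩, 0⟩, 0, 0⟩ 0 0)) (.pos 72 .mp ⟨⟨271712436, 0, 0, 0, 0, 0, 0, 0, 0, ⟨0, 0⟩, 0⟩, 0, 0⟩ 0 0))) (.pos 65 .mp ⟨⟨199215098, 0, 0, 0, 0, 106197660, 0, 0, 0, ⟨0, 0⟩, 0⟩, 0, 0⟩ 0 0))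 (.pos 66 .mp ⟨⟨271788855, 0, 0, 0, 0, 0, 0, 0, 0, ⟨0, 0⟩, 0⟩, 0, 0⟩ 0 0))) (.pos 51 .mp ⟨⟨199626385, 0, 0, 0, 0, 105723118, 0, 0, 0, ⟨0, 0⟩, 0⟩, 0, 0⟩ 0 0))) (.pos 52 .mp ⟨⟨279554356, 0, 0, 0, 0, 0, 0, 0, 0, ⟨0, 0⟩, 0⟩, 0, 0⟩ 0 0)) (.pos 47 .mp ⟨⟨200450241, 0, 0, 0, 0, 104772684, 0, 0, 0, ⟨0, 0⟩, 0⟩, 0, 0⟩ 0 0))) (.cut .d (-8192) (.pos 47 .mp ⟨⟨198740582, 0, 0, 0, 0, 122232100, 0, 0, 0, ⟨0, 0⟩, 0⟩, 0, 0⟩ 0 0) (.cut .l 97131 (.cut .d (-4096) (.pos 47 .mp ⟨⟨199149174, 0, 0, 0, 0, 122569089, 0, 0, 0, ⟨0, 0⟩, 0⟩, 0, 0⟩ 0 0) (.cut .v 16793600 (.cut .l 48565 (.cut .d (-2048) (.pos 51 .mp ⟨⟨198976404, 0, 0, 0, 0, 122379061, 0, 0, 0, ⟨0,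 0⟩, 0⟩, 0, 0⟩ 0 0) (.cut .v 16785408 (.cut .l 24282 (.cut .d (-1024) (.pos 65 .mp ⟨⟨198890246, 0, 0, 0, 0, 122283809, 0, 0, 0, ⟨0, 0⟩, 0⟩, 0, 0⟩ 0 0) (.cut .v 16781312 (.cut .l 12141 (.cut .d (-512) (.pos 71 .mp ⟨⟨198847241, 0, 0, 0, 0, 122236001, 0, 0, 0, ⟨0, 0⟩, 0⟩, 0, 0⟩ 0 0) (.cut .v 16779264 (.cut .l 6070 (.cut .s 11266048 (.cut .s 11258880 (.pos 138 .mp ⟨⟨202304578, 0, 0, 0, 0, 109594960, 0, 0, 0, ⟨0, 0⟩, 0⟩, 0, 0⟩ 0 0) (.pos 138 .mp ⟨⟨203441479, 0, 0, 0, 0, 109755681, 0, 0, 0, ⟨0, 0⟩, 0⟩, 0, 0⟩ 0 0)) (.cut .s 11273216 (.pos 138 .mp ⟨⟨204593266, 0, 0, 0, 0, 109904619, 0, 0, 0, ⟨0, 0⟩, 0⟩, 0, 0⟩ 0 0) (.pos 138 .mp ⟨⟨205760093,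 0, 0, 0, 0, 110041532, 0, 0, 0, ⟨0, 0⟩, 0⟩, 0, 0⟩ 0 0))) (.pos 138 .mp ⟨⟨202646396, 0, 0, 0, 0, 107999895, 0, 0, 0, ⟨0, 0⟩, 0⟩, 0, 0⟩ 0 0)) (.pos 139 .mp ⟨⟨276570018, 0, 0, 0, 0, 0, 0, 0, 0, ⟨0, 0⟩, 0⟩, 0, 0⟩ 0 0))) (.pos 71 .mp ⟨⟨202752388, 0, 0, 0, 0, 107876841, 0, 0, 0, ⟨0, 0⟩, 0⟩, 0, 0⟩ 0 0)) (.pos 72 .mp ⟨⟨276613785, 0, 0, 0, 0, 0, 0, 0, 0, ⟨0, 0⟩, 0⟩, 0, 0⟩ 0 0))) (.pos 65 .mp ⟨⟨202964486, 0, 0, 0, 0, 107631491, 0, 0, 0, ⟨0, 0⟩, 0⟩, 0, 0⟩ 0 0)) (.pos 66 .mp ⟨⟨276691608, 0, 0, 0, 0, 0, 0, 0, 0, ⟨0, 0⟩, 0⟩, 0, 0⟩ 0 0))) (.pos 51 .mp ⟨⟨203389050, 0, 0, 0, 0, 107140238, 0, 0, 0, ⟨0, 0⟩, 0⟩, 0, 0⟩ 0 0)) (.pos 52 .mp ⟨⟨276844280,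 0, 0, 0, 0, 0, 0, 0, 0, ⟨0, 0⟩, 0⟩, 0, 0⟩ 0 0))) (.pos 47 .mp ⟨⟨204239500, 0, 0, 0, 0, 106156329, 0, 0, 0, ⟨0, 0⟩, 0⟩, 0, 0⟩ 0 0)))) (.pos 48 .mp ⟨⟨281435192, 0, 0, 0, 0, 0, 0, 0, 0, ⟨0, 0⟩, 0⟩, 0, 0⟩ 0 0)) (.cut .v 16809984 (.cut .s 11309056 (.cut .d (-8192) (.pos 47 .mp ⟨⟨202498716, 0, 0, 0, 0, 124505380, 0, 0, 0, ⟨0, 0⟩, 0⟩, 0, 0⟩ 0 0) (.cut .l 97131 (.cut .d (-4096) (.pos 47 .mp ⟨⟨202902848, 0, 0, 0, 0, 124868176, 0, 0, 0, ⟨0, 0⟩, 0⟩, 0, 0⟩ 0 0) (.cut .v 16793600 (.cut .s 11294720 (.cut .s 11287552 (.pos 51 .mp ⟨⟨207552816, 0, 0, 0, 0, 109469090, 0, 0, 0, ⟨0, 0⟩, 0⟩, 0, 0⟩ 0 0) (.pos 51 .mp ⟨⟨208791167, 0, 0, 0, 0, 109535052,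 0, 0, 0, ⟨0, 0⟩, 0⟩, 0, 0⟩ 0 0)) (.pos 51 .mp ⟨⟨208108824, 0, 0, 0, 0, 112987134, 0, 0, 0, ⟨0, 0⟩, 0⟩, 0, 0⟩ 0 0)) (.pos 52 .mp ⟨⟨281884931, 0, 0, 0, 0, 0, 0, 0, 0, ⟨0, 0⟩, 0⟩, 0, 0⟩ 0 0))) (.pos 47 .mp ⟨⟨208099701, 0, 0, 0, 0, 107542828, 0, 0, 0, ⟨0, 0⟩, 0⟩, 0, 0⟩ 0 0))) (.cut .d (-8192) (.pos 47 .mp ⟨⟨206326955, 0, 0, 0, 0, 126892239, 0, 0, 0, ⟨0, 0⟩, 0⟩, 0, 0⟩ 0 0) (.cut .s 11323392 (.cut .s 11316224 (.pos 47 .mp ⟨⟨212677305, 0, 0, 0, 0, 109542746, 0, 0, 0, ⟨0, 0⟩, 0⟩, 0, 0⟩ 0 0) (.pos 47 .mp ⟨⟨213986806, 0, 0, 0, 0, 109546509, 0, 0, 0, ⟨0, 0⟩, 0⟩, 0, 0⟩ 0 0)) (.pos 47 .mp ⟨⟨213839731, 0, 0, 0, 0, 112281686, 0, 0, 0, ⟨0, 0⟩,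 0⟩, 0, 0⟩ 0 0)))) (.pos 48 .mp ⟨⟨290799346, 0, 0, 0, 0, 0, 0, 0, 0, ⟨0, 0⟩, 0⟩, 0, 0⟩ 0 0)))) (.pos 46 .mp ⟨⟨282160656, 0, 0, 0, 0, 0, 0, 0, 0, ⟨0, 0⟩, 0⟩, 0, 0⟩ 0 0))) (.pos 36 .mp ⟨⟨282677340, 0, 0, 0, 0, 0, 0, 0, 0, ⟨0, 0⟩, 0⟩, 0, 0⟩ 0 0)) (.void 34 ⟨⟨100000, 0, 0, 0, 0, 0, 0, 0, 0, ⟨0, 0⟩, 0⟩, 0, 0⟩ 0 0)) (.void 32 ⟨⟨100000, 0, 0, 0, 0, 0, 0, 0, 0, ⟨0, 0⟩, 0⟩, 0, 0⟩ 0 0)))))))) (.void 30 ⟨⟨100000, 0, 0, 0, 0, 0, 0, 0, 0, ⟨0, 0⟩, 0⟩, 0, 0⟩ 0 0))) (.void 28 ⟨⟨100000, 0, 0, 0, 0, 0, 0, 0, 0, ⟨0, 0⟩, 0⟩, 0, 0⟩ 0 0)))) (.void 26 ⟨⟨100000, 0, 0, 0, 0, 0, 0, 0, 0, ⟨0, 0⟩, 0⟩, 0, 0⟩ 0 0))) (.void 24 ⟨⟨100000, 0, 0, 0, 0, 0, 0, 0, 0,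 ⟨0, 0⟩, 0⟩, 0, 0⟩ 0 0)) (.void 123 ⟨⟨100000, 0, 0, 0, 0, 0, 0, 0, 0, ⟨0, 0⟩, 0⟩, 0, 0⟩ 0 0)) (.void 142 ⟨⟨100000, 0, 0, 0, 0, 0, 0, 0, 0, ⟨0, 0⟩, 0⟩, 0, 0⟩ 0 0)) (.void 145 ⟨⟨96783, 0, 0, 3217, 0, 0, 0, 0, 0, ⟨0, 0⟩, 0⟩, 0, 0⟩ 0 0))) (.cut .v 16777216 (.cut .v 8388608 (.cut .v 4194304 (.cut .v 2097152 (.cut .v 1048576 (.pos 148 .pm ⟨⟨0, 0, 22136545, 0, 0, 0, 0, 0, 0, ⟨0, 0⟩, 0⟩, 0, 10052⟩ 0 0) (.pos 149 .pm ⟨⟨0, 0, 19743046, 0, 0, 0, 0, 0, 0, ⟨0, 0⟩, 0⟩, 0, 27921⟩ 0 0)) (.pos 7 .pm ⟨⟨0, 0, 19656026, 0, 0, 0, 0, 0, 0, ⟨0, 0⟩, 0⟩, 0, 50258⟩ 0 0)) (.pos 5 .pm ⟨⟨0, 0, 3235552, 0, 0, 0, 0, 0, 0, ⟨0, 0⟩, 0⟩, 0, 0⟩ 0 0)) (.pos 3 .pm ⟨⟨0,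 0, 0, 0, 0, 0, 0, 0, 0, ⟨0, 0⟩, 0⟩, 0, 0⟩ 0 0)) (.cut .v 268435456 (.cut .v 67108864 (.cut .d 4548041 (.cut .d 2274020 (.cut .v 33554432 (.cut .d 1137010 (.cut .v 25165824 (.cut .d 568505 (.cut .v 20971520 (.cut .d 284252 (.cut .v 18874368 (.cut .d 142126 (.cut .v 17825792 (.cut .s 11108352 (.pos 29 .pp ⟨⟨113737823, 0, 0, 0, 0, 0, 0, 0, 0, ⟨0, 0⟩, 0⟩, 9814552, 0⟩ 0 0) (.pos 29 .pp ⟨⟨147128913, 0, 0, 0, 0, 0, 0, 0, 0, ⟨0, 0⟩, 0⟩, 9673033, 0⟩ 0 0)) (.pos 30 .pp ⟨⟨279406378, 0, 0, 0, 0, 0, 0, 0, 0, ⟨0, 0⟩, 0⟩, 0, 0⟩ 0 0)) (.pos 27 .pp ⟨⟨164080626, 0, 0, 0, 0, 0, 0, 0, 0, ⟨0, 0⟩, 0⟩, 0, 46565⟩ 0 0)) (.cut .d 142126 (.pos 28 .pp ⟨⟨355910503,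 0, 0, 0, 0, 0, 0, 0, 0, ⟨0, 0⟩, 0⟩, 0, 0⟩ 0 0) (.pos 28 .pp ⟨⟨280259840, 0, 0, 0, 0, 0, 0, 0, 0, ⟨0, 0⟩, 0⟩, 0, 0⟩ 0 0))) (.pos 25 .pp ⟨⟨0, 0, 0, 0, 0, 0, 172894, 0, 0, ⟨0, 0⟩, 0⟩, 15207381, 0⟩ 0 0)) (.cut .d 284252 (.pos 26 .pp ⟨⟨0, 0, 0, 0, 0, 0, 0, 0, 0, ⟨0, 0⟩, 0⟩, 35861251, 0⟩ 0 0) (.pos 26 .pp ⟨⟨0, 0, 0, 0, 0, 0, 0, 0, 0, ⟨0, 0⟩, 0⟩, 25957016, 0⟩ 0 0))) (.pos 23 .pp ⟨⟨0, 0, 0, 0, 0, 0, 0, 0, 0, ⟨0, 0⟩, 0⟩, 14833339, 72027⟩ 0 0)) (.cut .d 568505 (.pos 24 .pp ⟨⟨0, 0, 0, 0, 0, 0, 0, 0, 0, ⟨0, 0⟩, 0⟩, 47478705, 0⟩ 0 0) (.pos 24 .pp ⟨⟨0, 0, 0, 0, 0, 0, 0, 0, 0, ⟨0, 0⟩, 0⟩, 31350325, 0⟩ 0 0))) (.pos 22 .pp ⟨⟨0, 0, 0, 0, 0, 0, 0,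 0, 0, ⟨0, 0⟩, 0⟩, 16592876, 58887⟩ 0 0)) (.cut .d 1137010 (.pos 123 .pp ⟨⟨0, 0, 0, 0, 0, 0, 0, 0, 0, ⟨0, 0⟩, 0⟩, 90361823, 0⟩ 0 0) (.pos 123 .pp ⟨⟨0, 0, 0, 0, 0, 0, 0, 0, 0, ⟨0, 0⟩, 0⟩, 49016045, 0⟩ 0 0))) (.pos 122 .pp ⟨⟨0, 0, 0, 0, 0, 0, 0, 0, 0, ⟨0, 0⟩, 0⟩, 12262993, 91222⟩ 0 0)) (.pos 122 .pp ⟨⟨0, 0, 0, 0, 0, 0, 0, 0, 0, ⟨0, 0⟩, 0⟩, 0, 158809⟩ 0 0)) (.void 142 ⟨⟨0, 93748, 0, 0, 0, 0, 0, 0, 0, ⟨0, 0⟩, 0⟩, 6252, 0⟩ 0 0)) (.void 145 ⟨⟨0, 0, 0, 0, 0, 0, 0, 0, 0, ⟨0, 0⟩, 0⟩, 100000, 0⟩ 0 0)))),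
    by decide +kernel⟩

def covers16 : cell.Covers Vale.Agent.P237.Petty.Cor.Grid.N19.table row16.1 :=
  ⟨(.cut .d 0 (.cut .v 16777216 (.cut .d (-8388608) (.void 1 ⟨⟨0, 0, 0, 0, 0, 100000, 0, 0, 0, ⟨0, 0⟩, 0⟩, 0, 0⟩ 0 0) (.cut .d (-4194304) (.void 1 ⟨⟨0, 0, 0, 0, 0, 100000, 0, 0, 0, ⟨0, 0⟩, 0⟩, 0, 0⟩ 0 0) (.cut .d (-2097152) (.void 1 ⟨⟨0, 0, 0, 0, 0, 100000, 0, 0, 0, ⟨0, 0⟩, 0⟩, 0, 0⟩ 0 0) (.cut .d (-1048576) (.void 1 ⟨⟨0, 0, 0, 0, 0, 100000, 0, 0, 0, ⟨0, 0⟩, 0⟩, 0, 0⟩ 0 0) (.cut .d (-524288) (.void 1 ⟨⟨0, 0, 0, 0, 0, 100000, 0, 0, 0, ⟨0, 0⟩, 0⟩, 0, 0⟩ 0 0) (.cut .d (-262144) (.void 1 ⟨⟨0, 0, 0, 0, 0, 100000, 0, 0, 0, ⟨0, 0⟩, 0⟩,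 0, 0⟩ 0 0) (.cut .d (-131072) (.void 1 ⟨⟨0, 0, 0, 0, 0, 100000, 0, 0, 0, ⟨0, 0⟩, 0⟩, 0, 0⟩ 0 0) (.cut .d (-65536) (.void 1 ⟨⟨0, 0, 0, 0, 0, 100000, 0, 0, 0, ⟨0, 0⟩, 0⟩, 0, 0⟩ 0 0) (.cut .d (-32768) (.void 1 ⟨⟨0, 0, 0, 0, 0, 100000, 0, 0, 0, ⟨0, 0⟩, 0⟩, 0, 0⟩ 0 0) (.cut .d (-16384) (.void 1 ⟨⟨0, 0, 0, 0, 0, 100000, 0, 0, 0, ⟨0, 0⟩, 0⟩, 0, 0⟩ 0 0) (.cut .v 8388608 (.cut .v 4194304 (.void 4 ⟨⟨0, 0, 100000, 0, 0, 0, 0, 0, 0, ⟨0, 0⟩, 0⟩, 0, 0⟩ 0 0) (.pos 5 .mm ⟨⟨0, 0, 4782688, 0, 0, 170792082, 0, 0, 0, ⟨0, 0⟩, 0⟩, 0, 0⟩ 0 0)) (.cut .d (-8192) (.pos 3 .mm ⟨⟨0, 0, 0, 0, 0, 541321716, 0, 0, 0, ⟨0, 0⟩, 0⟩, 0, 0⟩ 0 0) (.cut .l 97131 (.cut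 .d (-4096) (.pos 3 .mm ⟨⟨0, 0, 0, 0, 0, 541255671, 0, 0, 0, ⟨0, 0⟩, 0⟩, 0, 0⟩ 0 0) (.cut .l 48565 (.cut .d (-2048) (.pos 3 .mm ⟨⟨0, 0, 0, 0, 0, 541223320, 0, 0, 0, ⟨0, 0⟩, 0⟩, 0, 0⟩ 0 0) (.cut .l 24282 (.cut .d (-1024) (.pos 3 .mm ⟨⟨0, 0, 0, 0, 0, 541208488, 0, 0, 0, ⟨0, 0⟩, 0⟩, 0, 0⟩ 0 0) (.cut .v 12582912 (.pos 8 .mm ⟨⟨0, 0, 0, 0, 0, 280092848, 0, 0, 0, ⟨0, 0⟩, 0⟩, 0, 0⟩ 0 0) (.cut .v 14680064 (.pos 12 .mm ⟨⟨0, 0, 0, 0, 0, 338483166, 0, 0, 0, ⟨0, 0⟩, 0⟩, 0, 0⟩ 0 0) (.cut .v 15728640 (.pos 20 .mm ⟨⟨0, 0, 0, 0, 0, 369180625, 0, 0, 0, ⟨0, 0⟩, 0⟩, 0, 0⟩ 0 0) (.cut .v 16252928 (.pos 37 .mm ⟨⟨0, 0, 0, 0, 0, 384904929, 0, 0, 0, ⟨0,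 0⟩, 0⟩, 0, 0⟩ 0 0) (.cut .v 16515072 (.pos 41 .mm ⟨⟨0, 0, 0, 0, 0, 392860975, 0, 0, 0, ⟨0, 0⟩, 0⟩, 0, 0⟩ 0 0) (.cut .v 16646144 (.pos 43 .mm ⟨⟨0, 0, 0, 0, 0, 396862471, 0, 0, 0, ⟨0, 0⟩, 0⟩, 0, 0⟩ 0 0) (.cut .v 16711680 (.pos 49 .mm ⟨⟨0, 0, 0, 0, 0, 398869088, 0, 0, 0, ⟨0, 0⟩, 0⟩, 0, 0⟩ 0 0) (.cut .v 16744448 (.pos 53 .mm ⟨⟨0, 0, 0, 0, 0, 399873863, 0, 0, 0, ⟨0, 0⟩, 0⟩, 0, 0⟩ 0 0) (.cut .v 16760832 (.pos 55 .mm ⟨⟨0, 0, 0, 0, 0, 454574670, 0, 0, 0, ⟨0, 0⟩, 0⟩, 0, 0⟩ 0 0) (.cut .v 16769024 (.pos 57 .mm ⟨⟨0, 0, 0, 0, 0, 468481982, 0, 0, 0, ⟨0, 0⟩, 0⟩, 0, 0⟩ 0 0) (.cut .v 16773120 (.pos 59 .mm ⟨⟨0, 0, 0, 0, 0, 475441575, 0, 0, 0, ⟨0,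 0⟩, 0⟩, 0, 0⟩ 0 0) (.cut .v 16775168 (.pos 61 .mm ⟨⟨0, 0, 0, 0, 0, 478922856, 0, 0, 0, ⟨0, 0⟩, 0⟩, 0, 0⟩ 0 0) (.cut .l 12141 (.cut .d (-512) (.pos 62 .mm ⟨⟨0, 0, 0, 0, 0, 541200176, 0, 0, 0, ⟨0, 0⟩, 0⟩, 0, 0⟩ 0 0) (.cut .v 16776192 (.pos 63 .mm ⟨⟨0, 0, 0, 0, 0, 478946414, 0, 0, 0, ⟨0, 0⟩, 0⟩, 0, 0⟩ 0 0) (.cut .l 6070 (.cut .s 11534336 (.cut .s 11436032 (.pos 64 .mm ⟨⟨0, 0, 0, 0, 0, 441691272, 0, 0, 0, ⟨0, 0⟩, 0⟩, 0, 0⟩ 0 0) (.pos 64 .mm ⟨⟨0, 0, 0, 0, 0, 470141502, 0, 0, 0, ⟨0, 0⟩, 0⟩, 0, 0⟩ 0 0)) (.cut .s 11632640 (.pos 64 .mm ⟨⟨0, 0, 0, 0, 0, 501449691, 0, 0, 0, ⟨0, 0⟩, 0⟩, 0, 0⟩ 0 0) (.pos 64 .mm ⟨⟨0, 0, 0, 0, 0, 535682384, 0,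 0, 0, ⟨0, 0⟩, 0⟩, 0, 0⟩ 0 0))) (.pos 64 .mm ⟨⟨0, 0, 0, 0, 0, 442753759, 0, 0, 0, ⟨0, 0⟩, 0⟩, 0, 0⟩ 0 0)))) (.pos 62 .mm ⟨⟨0, 0, 0, 0, 0, 442773534, 0, 0, 0, ⟨0, 0⟩, 0⟩, 0, 0⟩ 0 0))))))))))))))) (.pos 3 .mm ⟨⟨0, 0, 0, 0, 0, 442825466, 0, 0, 0, ⟨0, 0⟩, 0⟩, 0, 0⟩ 0 0))) (.pos 3 .mm ⟨⟨0, 0, 0, 0, 0, 442927783, 0, 0, 0, ⟨0, 0⟩, 0⟩, 0, 0⟩ 0 0))) (.pos 3 .mm ⟨⟨0, 0, 0, 0, 0, 443134738, 0, 0, 0, ⟨0, 0⟩, 0⟩, 0, 0⟩ 0 0)))))))))))))) (.cut .v 268435456 (.cut .v 67108864 (.cut .v 33554432 (.cut .v 25165824 (.cut .d (-8388608) (.void 23 ⟨⟨100000, 0, 0, 0, 0, 0, 0, 0, 0, ⟨0, 0⟩, 0⟩, 0, 0⟩ 0 0) (.cut .d (-4194304) (.void 23 ⟨⟨100000, 0, 0, 0,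 0, 0, 0, 0, 0, ⟨0, 0⟩, 0⟩, 0, 0⟩ 0 0) (.cut .v 20971520 (.cut .d (-2097152) (.void 25 ⟨⟨100000, 0, 0, 0, 0, 0, 0, 0, 0, ⟨0, 0⟩, 0⟩, 0, 0⟩ 0 0) (.cut .v 18874368 (.cut .d (-1048576) (.void 27 ⟨⟨100000, 0, 0, 0, 0, 0, 0, 0, 0, ⟨0, 0⟩, 0⟩, 0, 0⟩ 0 0) (.cut .v 17825792 (.cut .d (-524288) (.void 29 ⟨⟨100000, 0, 0, 0, 0, 0, 0, 0, 0, ⟨0, 0⟩, 0⟩, 0, 0⟩ 0 0) (.cut .d (-262144) (.void 29 ⟨⟨100000, 0, 0, 0, 0, 0, 0, 0, 0, ⟨0, 0⟩, 0⟩, 0, 0⟩ 0 0) (.cut .d (-131072) (.void 29 ⟨⟨100000, 0, 0, 0, 0, 0, 0, 0, 0, ⟨0, 0⟩, 0⟩, 0, 0⟩ 0 0) (.cut .d (-65536) (.void 29 ⟨⟨100000, 0, 0, 0, 0, 0, 0, 0, 0, ⟨0, 0⟩, 0⟩, 0, 0⟩ 0 0) (.cut .d (-32768) (.void 29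 ⟨⟨100000, 0, 0, 0, 0, 0, 0, 0, 0, ⟨0, 0⟩, 0⟩, 0, 0⟩ 0 0) (.cut .d (-16384) (.void 29 ⟨⟨0, 0, 0, 0, 0, 100000, 0, 0, 0, ⟨0, 0⟩, 0⟩, 0, 0⟩ 0 0) (.cut .v 17301504 (.cut .v 17039360 (.cut .v 16908288 (.cut .s 11534336 (.cut .v 16842752 (.cut .s 11436032 (.cut .s 11386880 (.cut .v 16809984 (.cut .d (-8192) (.pos 47 .mp ⟨⟨210222719, 0, 0, 0, 0, 133963744, 0, 0, 0, ⟨0, 0⟩, 0⟩, 0, 0⟩ 0 0) (.cut .s 11362304 (.cut .s 11350016 (.pos 47 .mp ⟨⟨216211778, 0, 0, 0, 0, 112538245, 0, 0, 0, ⟨0, 0⟩, 0⟩, 0, 0⟩ 0 0) (.pos 47 .mp ⟨⟨217331493, 0, 0, 0, 0, 113862026, 0, 0, 0, ⟨0, 0⟩, 0⟩, 0, 0⟩ 0 0)) (.cut .s 11374592 (.pos 47 .mp ⟨⟨219051880, 0, 0, 0,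 0, 114342263, 0, 0, 0, ⟨0, 0⟩, 0⟩, 0, 0⟩ 0 0) (.pos 47 .mp ⟨⟨220821298, 0, 0, 0, 0, 114817297, 0, 0, 0, ⟨0, 0⟩, 0⟩, 0, 0⟩ 0 0)))) (.pos 48 .mp ⟨⟨301406975, 0, 0, 0, 0, 0, 0, 0, 0, ⟨0, 0⟩, 0⟩, 0, 0⟩ 0 0)) (.cut .v 16809984 (.cut .d (-8192) (.pos 47 .mp ⟨⟨217110375, 0, 0, 0, 0, 136212213, 0, 0, 0, ⟨0, 0⟩, 0⟩, 0, 0⟩ 0 0) (.cut .s 11411456 (.cut .v 16793600 (.cut .s 11399168 (.pos 51 .mp ⟨⟨219616930, 0, 0, 0, 0, 119931966, 0, 0, 0, ⟨0, 0⟩, 0⟩, 0, 0⟩ 0 0) (.cut .s 11405312 (.pos 51 .mp ⟨⟨226492391, 0, 0, 0, 0, 112064711, 0, 0, 0, ⟨0, 0⟩, 0⟩, 0, 0⟩ 0 0) (.pos 51 .mp ⟨⟨227064011, 0, 0, 0, 0, 112806465, 0, 0, 0, ⟨0, 0⟩, 0⟩, 0, 0⟩ 0 0)))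 (.pos 52 .mp ⟨⟨259564599, 0, 0, 0, 0, 62660786, 0, 0, 0, ⟨0, 0⟩, 0⟩, 0, 0⟩ 0 0)) (.cut .l 97131 (.cut .d (-4096) (.pos 47 .mp ⟨⟨221013182, 0, 0, 0, 0, 131965228, 0, 0, 0, ⟨0, 0⟩, 0⟩, 0, 0⟩ 0 0) (.cut .v 16793600 (.cut .l 48565 (.cut .d (-2048) (.pos 51 .mp ⟨⟨220782003, 0, 0, 0, 0, 131819874, 0, 0, 0, ⟨0, 0⟩, 0⟩, 0, 0⟩ 0 0) (.cut .s 11423744 (.pos 51 .mp ⟨⟨223485225, 0, 0, 0, 0, 120290541, 0, 0, 0, ⟨0, 0⟩, 0⟩, 0, 0⟩ 0 0) (.cut .s 11429888 (.pos 51 .mp ⟨⟨225756022, 0, 0, 0, 0, 119689087, 0, 0, 0, ⟨0, 0⟩, 0⟩, 0, 0⟩ 0 0) (.pos 51 .mp ⟨⟨226534744, 0, 0, 0, 0, 120162354, 0, 0, 0, ⟨0, 0⟩, 0⟩, 0, 0⟩ 0 0)))) (.pos 51 .mp ⟨⟨225131234, 0,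 0, 0, 0, 116804279, 0, 0, 0, ⟨0, 0⟩, 0⟩, 0, 0⟩ 0 0)) (.pos 52 .mp ⟨⟨303747048, 0, 0, 0, 0, 0, 0, 0, 0, ⟨0, 0⟩, 0⟩, 0, 0⟩ 0 0))) (.pos 47 .mp ⟨⟨226147637, 0, 0, 0, 0, 115609044, 0, 0, 0, ⟨0, 0⟩, 0⟩, 0, 0⟩ 0 0)))) (.pos 48 .mp ⟨⟨310035160, 0, 0, 0, 0, 0, 0, 0, 0, ⟨0, 0⟩, 0⟩, 0, 0⟩ 0 0))) (.cut .d (-8192) (.cut .d (-12288) (.void 45 ⟨⟨0, 0, 0, 0, 0, 100000, 0, 0, 0, ⟨0, 0⟩, 0⟩, 0, 0⟩ 0 0) (.cut .v 16809984 (.cut .d (-10240) (.pos 47 .mp ⟨⟨226395702, 0, 0, 0, 0, 152516317, 0, 0, 0, ⟨0, 0⟩, 0⟩, 0, 0⟩ 0 0) (.cut .v 16793600 (.pos 51 .mp ⟨⟨0, 0, 0, 0, 0, 504167472, 0, 0, 0, ⟨0, 0⟩, 0⟩, 0, 0⟩ 0 0) (.cut .l 97131 (.void 52 ⟨⟨100000, 0,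 0, 0, 0, 0, 0, 0, 0, ⟨0, 0⟩, 0⟩, 0, 0⟩ 0 0) (.cut .l 145697 (.void 52 ⟨⟨0, 0, 0, 0, 0, 100000, 0, 0, 0, ⟨0, 0⟩, 0⟩, 0, 0⟩ 0 0) (.cut .s 11485184 (.pos 52 .mp ⟨⟨233848921, 0, 0, 0, 0, 117689173, 0, 0, 0, ⟨0, 0⟩, 0⟩, 0, 0⟩ 0 0) (.cut .s 11509760 (.pos 52 .mp ⟨⟨237675234, 0, 0, 0, 0, 122263125, 0, 0, 0, ⟨0, 0⟩, 0⟩, 0, 0⟩ 0 0) (.pos 52 .mp ⟨⟨241567413, 0, 0, 0, 0, 123549782, 0, 0, 0, ⟨0, 0⟩, 0⟩, 0, 0⟩ 0 0))))))) (.pos 48 .mp ⟨⟨326351976, 0, 0, 0, 0, 0, 0, 0, 0, ⟨0, 0⟩, 0⟩, 0, 0⟩ 0 0))) (.cut .v 16809984 (.cut .s 11485184 (.cut .s 11460608 (.cut .l 97131 (.cut .d (-4096) (.pos 47 .mp ⟨⟨224600393, 0, 0, 0, 0, 133200527, 0, 0, 0, ⟨0,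 0⟩, 0⟩, 0, 0⟩ 0 0) (.cut .v 16793600 (.cut .l 48565 (.cut .d (-2048) (.pos 51 .mp ⟨⟨224358300, 0, 0, 0, 0, 133064923, 0, 0, 0, ⟨0, 0⟩, 0⟩, 0, 0⟩ 0 0) (.cut .v 16785408 (.cut .l 24282 (.cut .d (-1024) (.pos 65 .mp ⟨⟨224237528, 0, 0, 0, 0, 132996813, 0, 0, 0, ⟨0, 0⟩, 0⟩, 0, 0⟩ 0 0) (.cut .v 16781312 (.cut .l 12141 (.cut .d (-512) (.pos 71 .mp ⟨⟨224177231, 0, 0, 0, 0, 132962552, 0, 0, 0, ⟨0, 0⟩, 0⟩, 0, 0⟩ 0 0) (.cut .s 11448320 (.pos 71 .mp ⟨⟨226224320, 0, 0, 0, 0, 122751793, 0, 0, 0, ⟨0, 0⟩, 0⟩, 0, 0⟩ 0 0) (.cut .s 11454464 (.pos 71 .mp ⟨⟨228854144, 0, 0, 0, 0, 121673007, 0, 0, 0, ⟨0, 0⟩, 0⟩, 0, 0⟩ 0 0) (.pos 71 .mp ⟨⟨229665907,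 0, 0, 0, 0, 122139660, 0, 0, 0, ⟨0, 0⟩, 0⟩, 0, 0⟩ 0 0)))) (.pos 71 .mp ⟨⟨228005009, 0, 0, 0, 0, 119092555, 0, 0, 0, ⟨0, 0⟩, 0⟩, 0, 0⟩ 0 0)) (.pos 72 .mp ⟨⟨307693801, 0, 0, 0, 0, 0, 0, 0, 0, ⟨0, 0⟩, 0⟩, 0, 0⟩ 0 0))) (.pos 65 .mp ⟨⟨228265807, 0, 0, 0, 0, 118785129, 0, 0, 0, ⟨0, 0⟩, 0⟩, 0, 0⟩ 0 0)) (.pos 66 .mp ⟨⟨307780117, 0, 0, 0, 0, 0, 0, 0, 0, ⟨0, 0⟩, 0⟩, 0, 0⟩ 0 0))) (.pos 51 .mp ⟨⟨228787852, 0, 0, 0, 0, 118169637, 0, 0, 0, ⟨0, 0⟩, 0⟩, 0, 0⟩ 0 0)) (.pos 52 .mp ⟨⟨307949783, 0, 0, 0, 0, 0, 0, 0, 0, ⟨0, 0⟩, 0⟩, 0, 0⟩ 0 0))) (.pos 47 .mp ⟨⟨229833566, 0, 0, 0, 0, 116936834, 0, 0, 0, ⟨0, 0⟩, 0⟩, 0, 0⟩ 0 0)) (.cut .s 11472896 (.cut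 .s 11466752 (.pos 47 .mp ⟨⟨232706997, 0, 0, 0, 0, 119288997, 0, 0, 0, ⟨0, 0⟩, 0⟩, 0, 0⟩ 0 0) (.pos 47 .mp ⟨⟨233649351, 0, 0, 0, 0, 119591781, 0, 0, 0, ⟨0, 0⟩, 0⟩, 0, 0⟩ 0 0)) (.cut .s 11479040 (.pos 47 .mp ⟨⟨234595778, 0, 0, 0, 0, 119898560, 0, 0, 0, ⟨0, 0⟩, 0⟩, 0, 0⟩ 0 0) (.pos 47 .mp ⟨⟨235546292, 0, 0, 0, 0, 120209324, 0, 0, 0, ⟨0, 0⟩, 0⟩, 0, 0⟩ 0 0)))) (.cut .s 11509760 (.cut .s 11497472 (.cut .v 16793600 (.cut .s 11491328 (.pos 51 .mp ⟨⟨233891513, 0, 0, 0, 0, 124578080, 0, 0, 0, ⟨0, 0⟩, 0⟩, 0, 0⟩ 0 0) (.pos 51 .mp ⟨⟨234361635, 0, 0, 0, 0, 125663782, 0, 0, 0, ⟨0, 0⟩, 0⟩, 0, 0⟩ 0 0)) (.pos 52 .mp ⟨⟨256860700, 0, 0, 0, 0, 91576957,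 0, 0, 0, ⟨0, 0⟩, 0⟩, 0, 0⟩ 0 0)) (.cut .v 16793600 (.cut .s 11503616 (.pos 51 .mp ⟨⟨234867269, 0, 0, 0, 0, 126704816, 0, 0, 0, ⟨0, 0⟩, 0⟩, 0, 0⟩ 0 0) (.pos 51 .mp ⟨⟨235629846, 0, 0, 0, 0, 127353927, 0, 0, 0, ⟨0, 0⟩, 0⟩, 0, 0⟩ 0 0)) (.pos 52 .mp ⟨⟨258399921, 0, 0, 0, 0, 92777791, 0, 0, 0, ⟨0, 0⟩, 0⟩, 0, 0⟩ 0 0))) (.cut .s 11522048 (.cut .v 16793600 (.cut .l 97131 (.cut .d (-4096) (.pos 51 .mp ⟨⟨235297958, 0, 0, 0, 0, 133429781, 0, 0, 0, ⟨0, 0⟩, 0⟩, 0, 0⟩ 0 0) (.cut .s 11515904 (.pos 51 .mp ⟨⟨238246550, 0, 0, 0, 0, 124888788, 0, 0, 0, ⟨0, 0⟩, 0⟩, 0, 0⟩ 0 0) (.pos 51 .mp ⟨⟨239210431, 0, 0, 0, 0, 125240875, 0, 0, 0, ⟨0, 0⟩, 0⟩, 0,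 0⟩ 0 0))) (.pos 51 .mp ⟨⟨233641108, 0, 0, 0, 0, 131428377, 0, 0, 0, ⟨0, 0⟩, 0⟩, 0, 0⟩ 0 0)) (.pos 52 .mp ⟨⟨260038633, 0, 0, 0, 0, 93871530, 0, 0, 0, ⟨0, 0⟩, 0⟩, 0, 0⟩ 0 0)) (.cut .v 16793600 (.cut .l 97131 (.cut .d (-4096) (.pos 51 .mp ⟨⟨237207164, 0, 0, 0, 0, 134182223, 0, 0, 0, ⟨0, 0⟩, 0⟩, 0, 0⟩ 0 0) (.cut .s 11528192 (.pos 51 .mp ⟨⟨240178425, 0, 0, 0, 0, 125596978, 0, 0, 0, ⟨0, 0⟩, 0⟩, 0, 0⟩ 0 0) (.pos 51 .mp ⟨⟨241150546, 0, 0, 0, 0, 125957086, 0, 0, 0, ⟨0, 0⟩, 0⟩, 0, 0⟩ 0 0))) (.pos 51 .mp ⟨⟨235530897, 0, 0, 0, 0, 132252839, 0, 0, 0, ⟨0, 0⟩, 0⟩, 0, 0⟩ 0 0)) (.pos 52 .mp ⟨⟨261779379, 0, 0, 0, 0, 94854136, 0, 0, 0, ⟨0, 0⟩, 0⟩,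 0, 0⟩ 0 0))))) (.pos 48 .mp ⟨⟨317883802, 0, 0, 0, 0, 0, 0, 0, 0, ⟨0, 0⟩, 0⟩, 0, 0⟩ 0 0)))) (.pos 46 .mp ⟨⟨319823130, 0, 0, 0, 0, 0, 0, 0, 0, ⟨0, 0⟩, 0⟩, 0, 0⟩ 0 0)) (.cut .v 16842752 (.cut .s 11632640 (.cut .d (-8192) (.cut .d (-12288) (.void 45 ⟨⟨0, 0, 0, 0, 0, 100000, 0, 0, 0, ⟨0, 0⟩, 0⟩, 0, 0⟩ 0 0) (.cut .v 16809984 (.cut .d (-10240) (.pos 47 .mp ⟨⟨240110022, 0, 0, 0, 0, 163134162, 0, 0, 0, ⟨0, 0⟩, 0⟩, 0, 0⟩ 0 0) (.cut .v 16793600 (.pos 51 .mp ⟨⟨0, 0, 0, 0, 0, 538209084, 0, 0, 0, ⟨0, 0⟩, 0⟩, 0, 0⟩ 0 0) (.cut .l 97131 (.void 52 ⟨⟨100000, 0, 0, 0, 0, 0, 0, 0, 0, ⟨0, 0⟩, 0⟩, 0, 0⟩ 0 0) (.cut .l 145697 (.void 52 ⟨⟨0, 0, 0, 0, 0,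 100000, 0, 0, 0, ⟨0, 0⟩, 0⟩, 0, 0⟩ 0 0) (.cut .s 11583488 (.cut .s 11558912 (.pos 52 .mp ⟨⟨245526313, 0, 0, 0, 0, 124896886, 0, 0, 0, ⟨0, 0⟩, 0⟩, 0, 0⟩ 0 0) (.pos 52 .mp ⟨⟨249552801, 0, 0, 0, 0, 126303680, 0, 0, 0, ⟨0, 0⟩, 0⟩, 0, 0⟩ 0 0)) (.cut .s 11608064 (.pos 52 .mp ⟨⟨253647762, 0, 0, 0, 0, 127769378, 0, 0, 0, ⟨0, 0⟩, 0⟩, 0, 0⟩ 0 0) (.pos 52 .mp ⟨⟨251681070, 0, 0, 0, 0, 140311367, 0, 0, 0, ⟨0, 0⟩, 0⟩, 0, 0⟩ 0 0))))))) (.pos 48 .mp ⟨⟨345002448, 0, 0, 0, 0, 0, 0, 0, 0, ⟨0, 0⟩, 0⟩, 0, 0⟩ 0 0))) (.cut .v 16809984 (.cut .s 11583488 (.cut .s 11558912 (.cut .s 11546624 (.cut .v 16793600 (.cut .l 97131 (.cut .d (-4096) (.pos 51 .mp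 ⟨⟨239132634, 0, 0, 0, 0, 134959579, 0, 0, 0, ⟨0, 0⟩, 0⟩, 0, 0⟩ 0 0) (.cut .s 11540480 (.pos 51 .mp ⟨⟨242126808, 0, 0, 0, 0, 126321187, 0, 0, 0, ⟨0, 0⟩, 0⟩, 0, 0⟩ 0 0) (.pos 51 .mp ⟨⟨243107224, 0, 0, 0, 0, 126689272, 0, 0, 0, ⟨0, 0⟩, 0⟩, 0, 0⟩ 0 0))) (.pos 51 .mp ⟨⟨237436719, 0, 0, 0, 0, 133083276, 0, 0, 0, ⟨0, 0⟩, 0⟩, 0, 0⟩ 0 0)) (.pos 52 .mp ⟨⟨263624718, 0, 0, 0, 0, 95721534, 0, 0, 0, ⟨0, 0⟩, 0⟩, 0, 0⟩ 0 0)) (.cut .l 97131 (.cut .d (-4096) (.pos 47 .mp ⟨⟨241525733, 0, 0, 0, 0, 136116219, 0, 0, 0, ⟨0, 0⟩, 0⟩, 0, 0⟩ 0 0) (.cut .s 11552768 (.pos 47 .mp ⟨⟨244546075, 0, 0, 0, 0, 126381122, 0, 0, 0, ⟨0, 0⟩, 0⟩, 0, 0⟩ 0 0) (.pos 47 .mp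 ⟨⟨245536547, 0, 0, 0, 0, 126754299, 0, 0, 0, ⟨0, 0⟩, 0⟩, 0, 0⟩ 0 0))) (.pos 47 .mp ⟨⟨245225779, 0, 0, 0, 0, 124924596, 0, 0, 0, ⟨0, 0⟩, 0⟩, 0, 0⟩ 0 0))) (.cut .s 11571200 (.cut .l 97131 (.cut .d (-4096) (.pos 47 .mp ⟨⟨243487448, 0, 0, 0, 0, 136947429, 0, 0, 0, ⟨0, 0⟩, 0⟩, 0, 0⟩ 0 0) (.cut .s 11565056 (.pos 47 .mp ⟨⟨246531220, 0, 0, 0, 0, 127131412, 0, 0, 0, ⟨0, 0⟩, 0⟩, 0, 0⟩ 0 0) (.pos 47 .mp ⟨⟨247530108, 0, 0, 0, 0, 127512449, 0, 0, 0, ⟨0, 0⟩, 0⟩, 0, 0⟩ 0 0))) (.pos 47 .mp ⟨⟨247224493, 0, 0, 0, 0, 125667094, 0, 0, 0, ⟨0, 0⟩, 0⟩, 0, 0⟩ 0 0)) (.cut .l 97131 (.cut .d (-4096) (.pos 47 .mp ⟨⟨245465774, 0, 0, 0, 0, 137804211, 0, 0,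 0, ⟨0, 0⟩, 0⟩, 0, 0⟩ 0 0) (.cut .s 11577344 (.pos 47 .mp ⟨⟨248533225, 0, 0, 0, 0, 127897401, 0, 0, 0, ⟨0, 0⟩, 0⟩, 0, 0⟩ 0 0) (.pos 47 .mp ⟨⟨249540584, 0, 0, 0, 0, 128286254, 0, 0, 0, ⟨0, 0⟩, 0⟩, 0, 0⟩ 0 0))) (.pos 47 .mp ⟨⟨249240165, 0, 0, 0, 0, 126413537, 0, 0, 0, ⟨0, 0⟩, 0⟩, 0, 0⟩ 0 0)))) (.cut .s 11608064 (.cut .s 11595776 (.cut .l 97131 (.cut .d (-4096) (.pos 47 .mp ⟨⟨247460819, 0, 0, 0, 0, 138686775, 0, 0, 0, ⟨0, 0⟩, 0⟩, 0, 0⟩ 0 0) (.cut .s 11589632 (.pos 47 .mp ⟨⟨250552199, 0, 0, 0, 0, 128678997, 0, 0, 0, ⟨0, 0⟩, 0⟩, 0, 0⟩ 0 0) (.pos 47 .mp ⟨⟨251568085, 0, 0, 0, 0, 129075618, 0, 0, 0, ⟨0, 0⟩, 0⟩, 0, 0⟩ 0 0))) (.pos 47 .mp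 ⟨⟨251272905, 0, 0, 0, 0, 127163593, 0, 0, 0, ⟨0, 0⟩, 0⟩, 0, 0⟩ 0 0)) (.cut .l 97131 (.cut .d (-4096) (.pos 47 .mp ⟨⟨249472692, 0, 0, 0, 0, 139595332, 0, 0, 0, ⟨0, 0⟩, 0⟩, 0, 0⟩ 0 0) (.cut .s 11601920 (.pos 47 .mp ⟨⟨252588255, 0, 0, 0, 0, 129476105, 0, 0, 0, ⟨0, 0⟩, 0⟩, 0, 0⟩ 0 0) (.pos 47 .mp ⟨⟨253612723, 0, 0, 0, 0, 129880445, 0, 0, 0, ⟨0, 0⟩, 0⟩, 0, 0⟩ 0 0))) (.pos 47 .mp ⟨⟨253322826, 0, 0, 0, 0, 127916927, 0, 0, 0, ⟨0, 0⟩, 0⟩, 0, 0⟩ 0 0))) (.cut .s 11620352 (.cut .v 16793600 (.cut .l 97131 (.cut .d (-4096) (.pos 51 .mp ⟨⟨251032963, 0, 0, 0, 0, 140158434, 0, 0, 0, ⟨0, 0⟩, 0⟩, 0, 0⟩ 0 0) (.cut .s 11614208 (.pos 51 .mp ⟨⟨254169835,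 0, 0, 0, 0, 130997804, 0, 0, 0, ⟨0, 0⟩, 0⟩, 0, 0⟩ 0 0) (.pos 51 .mp ⟨⟨255201162, 0, 0, 0, 0, 131412781, 0, 0, 0, ⟨0, 0⟩, 0⟩, 0, 0⟩ 0 0))) (.pos 51 .mp ⟨⟨249214202, 0, 0, 0, 0, 138173371, 0, 0, 0, ⟨0, 0⟩, 0⟩, 0, 0⟩ 0 0)) (.pos 52 .mp ⟨⟨277038863, 0, 0, 0, 0, 98273344, 0, 0, 0, ⟨0, 0⟩, 0⟩, 0, 0⟩ 0 0)) (.cut .v 16793600 (.cut .l 97131 (.cut .d (-4096) (.pos 51 .mp ⟨⟨253075284, 0, 0, 0, 0, 141115987, 0, 0, 0, ⟨0, 0⟩, 0⟩, 0, 0⟩ 0 0) (.cut .s 11626496 (.pos 51 .mp ⟨⟨256236824, 0, 0, 0, 0, 131831588, 0, 0, 0, ⟨0, 0⟩, 0⟩, 0, 0⟩ 0 0) (.pos 51 .mp ⟨⟨257276834, 0, 0, 0, 0, 132254211, 0, 0, 0, ⟨0, 0⟩, 0⟩, 0, 0⟩ 0 0))) (.pos 51 .mp ⟨⟨251235208,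 0, 0, 0, 0, 139036594, 0, 0, 0, ⟨0, 0⟩, 0⟩, 0, 0⟩ 0 0)) (.pos 52 .mp ⟨⟨279689564, 0, 0, 0, 0, 98216837, 0, 0, 0, ⟨0, 0⟩, 0⟩, 0, 0⟩ 0 0))))) (.pos 48 .mp ⟨⟨336799723, 0, 0, 0, 0, 0, 0, 0, 0, ⟨0, 0⟩, 0⟩, 0, 0⟩ 0 0))) (.cut .d (-8192) (.cut .d (-12288) (.void 45 ⟨⟨0, 0, 0, 0, 0, 100000, 0, 0, 0, ⟨0, 0⟩, 0⟩, 0, 0⟩ 0 0) (.cut .d (-10240) (.void 45 ⟨⟨0, 0, 0, 0, 0, 100000, 0, 0, 0, ⟨0, 0⟩, 0⟩, 0, 0⟩ 0 0) (.cut .v 16809984 (.cut .v 16793600 (.pos 51 .mp ⟨⟨0, 0, 0, 0, 0, 575954760, 0, 0, 0, ⟨0, 0⟩, 0⟩, 0, 0⟩ 0 0) (.cut .l 97131 (.void 52 ⟨⟨100000, 0, 0, 0, 0, 0, 0, 0, 0, ⟨0, 0⟩, 0⟩, 0, 0⟩ 0 0) (.cut .s 11681792 (.cut .s 11657216 (.pos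 52 .mp ⟨⟨255952173, 0, 0, 0, 0, 143465699, 0, 0, 0, ⟨0, 0⟩, 0⟩, 0, 0⟩ 0 0) (.pos 52 .mp ⟨⟨260688853, 0, 0, 0, 0, 144484167, 0, 0, 0, ⟨0, 0⟩, 0⟩, 0, 0⟩ 0 0)) (.pos 52 .mp ⟨⟨264270335, 0, 0, 0, 0, 154185613, 0, 0, 0, ⟨0, 0⟩, 0⟩, 0, 0⟩ 0 0)))) (.pos 48 .mp ⟨⟨362339634, 0, 0, 0, 0, 0, 0, 0, 0, ⟨0, 0⟩, 0⟩, 0, 0⟩ 0 0)))) (.cut .v 16809984 (.cut .s 11681792 (.cut .s 11657216 (.cut .s 11644928 (.cut .v 16793600 (.cut .l 97131 (.cut .d (-4096) (.pos 51 .mp ⟨⟨255134739, 0, 0, 0, 0, 142100134, 0, 0, 0, ⟨0, 0⟩, 0⟩, 0, 0⟩ 0 0) (.cut .s 11638784 (.pos 51 .mp ⟨⟨258321205, 0, 0, 0, 0, 132680637, 0, 0, 0, ⟨0, 0⟩, 0⟩, 0, 0⟩ 0 0) (.pos 51 .mp ⟨⟨259369954,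 0, 0, 0, 0, 133110854, 0, 0, 0, ⟨0, 0⟩, 0⟩, 0, 0⟩ 0 0))) (.pos 51 .mp ⟨⟨253273104, 0, 0, 0, 0, 139903190, 0, 0, 0, ⟨0, 0⟩, 0⟩, 0, 0⟩ 0 0)) (.pos 52 .mp ⟨⟨282465998, 0, 0, 0, 0, 98011076, 0, 0, 0, ⟨0, 0⟩, 0⟩, 0, 0⟩ 0 0)) (.cut .v 16793600 (.cut .s 11651072 (.pos 51 .mp ⟨⟨258637308, 0, 0, 0, 0, 136619414, 0, 0, 0, ⟨0, 0⟩, 0⟩, 0, 0⟩ 0 0) (.pos 51 .mp ⟨⟨260057435, 0, 0, 0, 0, 136486218, 0, 0, 0, ⟨0, 0⟩, 0⟩, 0, 0⟩ 0 0)) (.pos 52 .mp ⟨⟨285370895, 0, 0, 0, 0, 97651618, 0, 0, 0, ⟨0, 0⟩, 0⟩, 0, 0⟩ 0 0))) (.cut .s 11669504 (.cut .v 16793600 (.cut .s 11663360 (.pos 51 .mp ⟨⟨261607442, 0, 0, 0, 0, 136157792, 0, 0, 0, ⟨0, 0⟩, 0⟩, 0, 0⟩ 0 0)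 (.pos 51 .mp ⟨⟨263202295, 0, 0, 0, 0, 135768559, 0, 0, 0, ⟨0, 0⟩, 0⟩, 0, 0⟩ 0 0)) (.pos 52 .mp ⟨⟨288407004, 0, 0, 0, 0, 97133974, 0, 0, 0, ⟨0, 0⟩, 0⟩, 0, 0⟩ 0 0)) (.cut .s 11675648 (.pos 47 .mp ⟨⟨267112705, 0, 0, 0, 0, 131758388, 0, 0, 0, ⟨0, 0⟩, 0⟩, 0, 0⟩ 0 0) (.pos 47 .mp ⟨⟨268201208, 0, 0, 0, 0, 132190563, 0, 0, 0, ⟨0, 0⟩, 0⟩, 0, 0⟩ 0 0)))) (.cut .s 11706368 (.cut .s 11694080 (.cut .s 11687936 (.pos 47 .mp ⟨⟨269294262, 0, 0, 0, 0, 132626319, 0, 0, 0, ⟨0, 0⟩, 0⟩, 0, 0⟩ 0 0) (.pos 47 .mp ⟨⟨270391882, 0, 0, 0, 0, 133065640, 0, 0, 0, ⟨0, 0⟩, 0⟩, 0, 0⟩ 0 0)) (.cut .s 11700224 (.pos 47 .mp ⟨⟨271494083, 0, 0, 0, 0, 133508511, 0, 0,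 0, ⟨0, 0⟩, 0⟩, 0, 0⟩ 0 0) (.pos 47 .mp ⟨⟨272600880, 0, 0, 0, 0, 133954919, 0, 0, 0, ⟨0, 0⟩, 0⟩, 0, 0⟩ 0 0))) (.cut .l 97131 (.cut .d (-4096) (.pos 47 .mp ⟨⟨268355394, 0, 0, 0, 0, 153416626, 0, 0, 0, ⟨0, 0⟩, 0⟩, 0, 0⟩ 0 0) (.cut .v 16793600 (.cut .l 48565 (.cut .d (-2048) (.pos 51 .mp ⟨⟨267980618, 0, 0, 0, 0, 153397250, 0, 0, 0, ⟨0, 0⟩, 0⟩, 0, 0⟩ 0 0) (.cut .v 16785408 (.cut .l 24282 (.cut .d (-1024) (.pos 65 .mp ⟨⟨267793598, 0, 0, 0, 0, 153387141, 0, 0, 0, ⟨0, 0⟩, 0⟩, 0, 0⟩ 0 0) (.cut .s 11718656 (.cut .s 11712512 (.pos 65 .mp ⟨⟨271510138, 0, 0, 0, 0, 137772178, 0, 0, 0, ⟨0, 0⟩, 0⟩, 0, 0⟩ 0 0) (.pos 65 .mp ⟨⟨272770897, 0, 0, 0,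 0, 138022757, 0, 0, 0, ⟨0, 0⟩, 0⟩, 0, 0⟩ 0 0)) (.pos 65 .mp ⟨⟨272706422, 0, 0, 0, 0, 140913351, 0, 0, 0, ⟨0, 0⟩, 0⟩, 0, 0⟩ 0 0))) (.pos 65 .mp ⟨⟨272675386, 0, 0, 0, 0, 135343420, 0, 0, 0, ⟨0, 0⟩, 0⟩, 0, 0⟩ 0 0)) (.pos 66 .mp ⟨⟨362219555, 0, 0, 0, 0, 0, 0, 0, 0, ⟨0, 0⟩, 0⟩, 0, 0⟩ 0 0))) (.pos 51 .mp ⟨⟨273380303, 0, 0, 0, 0, 134490835, 0, 0, 0, ⟨0, 0⟩, 0⟩, 0, 0⟩ 0 0)) (.pos 52 .mp ⟨⟨362419675, 0, 0, 0, 0, 0, 0, 0, 0, ⟨0, 0⟩, 0⟩, 0, 0⟩ 0 0))) (.pos 47 .mp ⟨⟨274792362, 0, 0, 0, 0, 132783085, 0, 0, 0, ⟨0, 0⟩, 0⟩, 0, 0⟩ 0 0)))) (.pos 48 .mp ⟨⟨357414729, 0, 0, 0, 0, 0, 0, 0, 0, ⟨0, 0⟩, 0⟩, 0, 0⟩ 0 0)))) (.pos 46 .mp ⟨⟨359008910, 0, 0,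 0, 0, 0, 0, 0, 0, ⟨0, 0⟩, 0⟩, 0, 0⟩ 0 0))) (.pos 36 .mp ⟨⟨360282476, 0, 0, 0, 0, 0, 0, 0, 0, ⟨0, 0⟩, 0⟩, 0, 0⟩ 0 0)) (.void 34 ⟨⟨100000, 0, 0, 0, 0, 0, 0, 0, 0, ⟨0, 0⟩, 0⟩, 0, 0⟩ 0 0)) (.void 32 ⟨⟨100000, 0, 0, 0, 0, 0, 0, 0, 0, ⟨0, 0⟩, 0⟩, 0, 0⟩ 0 0)))))))) (.void 30 ⟨⟨100000, 0, 0, 0, 0, 0, 0, 0, 0, ⟨0, 0⟩, 0⟩, 0, 0⟩ 0 0))) (.void 28 ⟨⟨100000, 0, 0, 0, 0, 0, 0, 0, 0, ⟨0, 0⟩, 0⟩, 0, 0⟩ 0 0))) (.void 26 ⟨⟨100000, 0, 0, 0, 0, 0, 0, 0, 0, ⟨0, 0⟩, 0⟩, 0, 0⟩ 0 0)))) (.void 24 ⟨⟨100000, 0, 0, 0, 0, 0, 0, 0, 0, ⟨0, 0⟩, 0⟩, 0, 0⟩ 0 0)) (.void 123 ⟨⟨100000, 0, 0, 0, 0, 0, 0, 0, 0, ⟨0, 0⟩, 0⟩, 0, 0⟩ 0 0)) (.void 142 ⟨⟨100000, 0, 0, 0, 0,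 0, 0, 0, 0, ⟨0, 0⟩, 0⟩, 0, 0⟩ 0 0)) (.void 145 ⟨⟨96662, 0, 0, 3339, 0, 0, 0, 0, 0, ⟨0, 0⟩, 0⟩, 0, 0⟩ 0 0))) (.cut .v 16777216 (.cut .v 8388608 (.cut .v 4194304 (.cut .v 2097152 (.cut .v 1048576 (.pos 148 .pm ⟨⟨0, 0, 19580796, 0, 0, 0, 0, 0, 0, ⟨0, 0⟩, 0⟩, 0, 6869⟩ 0 0) (.pos 149 .pm ⟨⟨0, 0, 13344364, 0, 0, 0, 0, 0, 0, ⟨0, 0⟩, 0⟩, 0, 19081⟩ 0 0)) (.pos 7 .pm ⟨⟨0, 0, 9024236, 0, 0, 0, 0, 0, 0, ⟨0, 0⟩, 0⟩, 0, 34345⟩ 0 0)) (.pos 5 .pm ⟨⟨0, 0, 4708632, 0, 0, 0, 0, 0, 0, ⟨0, 0⟩, 0⟩, 0, 0⟩ 0 0)) (.pos 3 .pm ⟨⟨0, 0, 0, 0, 0, 0, 0, 0, 0, ⟨0, 0⟩, 0⟩, 0, 0⟩ 0 0)) (.cut .v 268435456 (.cut .v 67108864 (.cut .d 4024593 (.cut .d 2012296 (.cut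 .v 33554432 (.cut .d 1006148 (.cut .v 25165824 (.cut .d 503074 (.cut .v 20971520 (.cut .d 251537 (.cut .v 18874368 (.cut .d 125768 (.cut .v 17825792 (.cut .s 11534336 (.pos 29 .pp ⟨⟨162879749, 0, 0, 0, 0, 0, 0, 0, 0, ⟨0, 0⟩, 0⟩, 11496629, 0⟩ 0 0) (.pos 29 .pp ⟨⟨201092374, 0, 0, 0, 0, 0, 0, 0, 0, ⟨0, 0⟩, 0⟩, 11282860, 0⟩ 0 0)) (.pos 30 .pp ⟨⟨358244638, 0, 0, 0, 0, 0, 0, 0, 0, ⟨0, 0⟩, 0⟩, 0, 0⟩ 0 0)) (.pos 27 .pp ⟨⟨218448741, 0, 0, 0, 0, 0, 0, 0, 0, ⟨0, 0⟩, 0⟩, 0, 30383⟩ 0 0)) (.cut .d 125768 (.pos 28 .pp ⟨⟨452897862, 0, 0, 0, 0, 0, 0, 0, 0, ⟨0, 0⟩, 0⟩, 0, 0⟩ 0 0) (.pos 28 .pp ⟨⟨362656216, 0, 0, 0, 0, 0, 0, 0, 0, ⟨0, 0⟩, 0⟩, 0, 0⟩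 0 0))) (.pos 25 .pp ⟨⟨0, 0, 0, 0, 0, 0, 313656, 0, 0, ⟨0, 0⟩, 0⟩, 0, 0⟩ 0 0)) (.cut .d 251537 (.pos 26 .pp ⟨⟨0, 0, 0, 0, 0, 0, 0, 0, 0, ⟨0, 0⟩, 0⟩, 45649434, 0⟩ 0 0) (.pos 26 .pp ⟨⟨0, 0, 0, 0, 0, 0, 0, 0, 0, ⟨0, 0⟩, 0⟩, 33378608, 0⟩ 0 0))) (.pos 23 .pp ⟨⟨0, 0, 0, 0, 0, 0, 0, 0, 0, ⟨0, 0⟩, 0⟩, 18547753, 52870⟩ 0 0)) (.cut .d 503074 (.pos 24 .pp ⟨⟨0, 0, 0, 0, 0, 0, 0, 0, 0, ⟨0, 0⟩, 0⟩, 60055998, 0⟩ 0 0) (.pos 24 .pp ⟨⟨0, 0, 0, 0, 0, 0, 0, 0, 0, ⟨0, 0⟩, 0⟩, 40988990, 0⟩ 0 0))) (.pos 22 .pp ⟨⟨0, 0, 0, 0, 0, 0, 0, 0, 0, ⟨0, 0⟩, 0⟩, 19086235, 50760⟩ 0 0)) (.cut .d 1006148 (.pos 123 .pp ⟨⟨0, 0, 0, 0, 0, 0, 0, 0, 0, ⟨0, 0⟩, 0⟩, 109031441,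 0⟩ 0 0) (.pos 123 .pp ⟨⟨0, 0, 0, 0, 0, 0, 0, 0, 0, ⟨0, 0⟩, 0⟩, 59639003, 0⟩ 0 0))) (.pos 122 .pp ⟨⟨0, 0, 0, 0, 0, 0, 0, 0, 0, ⟨0, 0⟩, 0⟩, 10581804, 84077⟩ 0 0)) (.pos 122 .pp ⟨⟨0, 67234411, 0, 0, 0, 0, 0, 0, 0, ⟨0, 0⟩, 0⟩, 0, 85862⟩ 0 0)) (.pos 142 .pp ⟨⟨0, 3111688670, 0, 0, 0, 0, 0, 0, 0, ⟨0, 0⟩, 0⟩, 354328845, 0⟩ 0 0)) (.void 145 ⟨⟨0, 0, 0, 0, 0, 0, 0, 0, 0, ⟨0, 0⟩, 0⟩, 100000, 0⟩ 0 0)))),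
    by decide +kernel⟩

def covers17 : cell.Covers Vale.Agent.P237.Petty.Cor.Grid.N19.table row17.1 :=
  ⟨(.cut .d 0 (.cut .v 16777216 (.cut .d (-8388608) (.void 1 ⟨⟨0, 0, 0, 0, 0, 100000, 0, 0, 0, ⟨0, 0⟩, 0⟩, 0, 0⟩ 0 0) (.cut .d (-4194304) (.void 1 ⟨⟨0, 0, 0, 0, 0, 100000, 0, 0, 0, ⟨0, 0⟩, 0⟩, 0, 0⟩ 0 0) (.cut .d (-2097152) (.void 1 ⟨⟨0, 0, 0, 0, 0, 100000, 0, 0, 0, ⟨0, 0⟩, 0⟩, 0, 0⟩ 0 0) (.cut .d (-1048576) (.void 1 ⟨⟨0, 0, 0, 0, 0, 100000, 0, 0, 0, ⟨0, 0⟩, 0⟩, 0, 0⟩ 0 0) (.cut .d (-524288) (.void 1 ⟨⟨0, 0, 0, 0, 0, 100000, 0, 0, 0, ⟨0, 0⟩, 0⟩, 0, 0⟩ 0 0) (.cut .d (-262144) (.void 1 ⟨⟨0, 0, 0, 0, 0, 100000, 0, 0, 0, ⟨0, 0⟩, 0⟩,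 0, 0⟩ 0 0) (.cut .d (-131072) (.void 1 ⟨⟨0, 0, 0, 0, 0, 100000, 0, 0, 0, ⟨0, 0⟩, 0⟩, 0, 0⟩ 0 0) (.cut .d (-65536) (.void 1 ⟨⟨0, 0, 0, 0, 0, 100000, 0, 0, 0, ⟨0, 0⟩, 0⟩, 0, 0⟩ 0 0) (.cut .d (-32768) (.void 1 ⟨⟨0, 0, 0, 0, 0, 100000, 0, 0, 0, ⟨0, 0⟩, 0⟩, 0, 0⟩ 0 0) (.cut .d (-16384) (.void 1 ⟨⟨0, 0, 0, 0, 0, 100000, 0, 0, 0, ⟨0, 0⟩, 0⟩, 0, 0⟩ 0 0) (.cut .v 8388608 (.cut .v 4194304 (.void 4 ⟨⟨0, 0, 100000, 0, 0, 0, 0, 0, 0, ⟨0, 0⟩, 0⟩, 0, 0⟩ 0 0) (.pos 5 .mm ⟨⟨0, 0, 6449425, 0, 0, 219287396, 0, 0, 0, ⟨0, 0⟩, 0⟩, 0, 0⟩ 0 0)) (.cut .s 11862016 (.pos 3 .mm ⟨⟨0, 0, 0, 0, 0, 578947418, 0, 0, 0, ⟨0, 0⟩, 0⟩, 0, 0⟩ 0 0) (.pos 3 .mm ⟨⟨0, 0,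 0, 0, 0, 631844150, 0, 0, 0, ⟨0, 0⟩, 0⟩, 0, 0⟩ 0 0))))))))))))) (.cut .v 268435456 (.cut .v 67108864 (.cut .v 33554432 (.cut .v 25165824 (.cut .d (-8388608) (.void 23 ⟨⟨99995, 0, 0, 0, 0, 0, 0, 0, 0, ⟨0, 0⟩, 0⟩, 0, 0⟩ 0 0) (.cut .d (-4194304) (.void 23 ⟨⟨100000, 0, 0, 0, 0, 0, 0, 0, 0, ⟨0, 0⟩, 0⟩, 0, 0⟩ 0 0) (.cut .v 20971520 (.cut .d (-2097152) (.void 25 ⟨⟨100000, 0, 0, 0, 0, 0, 0, 0, 0, ⟨0, 0⟩, 0⟩, 0, 0⟩ 0 0) (.cut .v 18874368 (.cut .d (-1048576) (.void 27 ⟨⟨100000, 0, 0, 0, 0, 0, 0, 0, 0, ⟨0, 0⟩, 0⟩, 0, 0⟩ 0 0) (.cut .v 17825792 (.cut .d (-524288) (.void 29 ⟨⟨100000, 0, 0, 0, 0, 0, 0, 0, 0, ⟨0, 0⟩, 0⟩, 0, 0⟩ 0 0) (.cut .d (-262144)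 (.void 29 ⟨⟨100000, 0, 0, 0, 0, 0, 0, 0, 0, ⟨0, 0⟩, 0⟩, 0, 0⟩ 0 0) (.cut .d (-131072) (.void 29 ⟨⟨100000, 0, 0, 0, 0, 0, 0, 0, 0, ⟨0, 0⟩, 0⟩, 0, 0⟩ 0 0) (.cut .d (-65536) (.void 29 ⟨⟨100000, 0, 0, 0, 0, 0, 0, 0, 0, ⟨0, 0⟩, 0⟩, 0, 0⟩ 0 0) (.cut .d (-32768) (.void 29 ⟨⟨100000, 0, 0, 0, 0, 0, 0, 0, 0, ⟨0, 0⟩, 0⟩, 0, 0⟩ 0 0) (.cut .d (-16384) (.void 29 ⟨⟨100000, 0, 0, 0, 0, 0, 0, 0, 0, ⟨0, 0⟩, 0⟩, 0, 0⟩ 0 0) (.cut .v 17301504 (.cut .v 17039360 (.cut .v 16908288 (.cut .s 11862016 (.cut .v 16842752 (.cut .d (-8192) (.cut .d (-12288) (.void 45 ⟨⟨0, 0, 0, 0, 0, 100000, 0, 0, 0, ⟨0, 0⟩, 0⟩, 0, 0⟩ 0 0) (.cut .d (-10240) (.void 45 ⟨⟨0, 0,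 0, 0, 0, 100000, 0, 0, 0, ⟨0, 0⟩, 0⟩, 0, 0⟩ 0 0) (.cut .v 16809984 (.cut .s 11796480 (.pos 47 .mp ⟨⟨272502675, 0, 0, 0, 0, 168715083, 0, 0, 0, ⟨0, 0⟩, 0⟩, 0, 0⟩ 0 0) (.cut .s 11829248 (.pos 47 .mp ⟨⟨284661457, 0, 0, 0, 0, 162114469, 0, 0, 0, ⟨0, 0⟩, 0⟩, 0, 0⟩ 0 0) (.pos 47 .mp ⟨⟨290960020, 0, 0, 0, 0, 164572893, 0, 0, 0, ⟨0, 0⟩, 0⟩, 0, 0⟩ 0 0))) (.pos 48 .mp ⟨⟨394576599, 0, 0, 0, 0, 0, 0, 0, 0, ⟨0, 0⟩, 0⟩, 0, 0⟩ 0 0)))) (.cut .s 11796480 (.cut .v 16809984 (.cut .s 11763712 (.cut .s 11747328 (.cut .s 11739136 (.pos 47 .mp ⟨⟨278573738, 0, 0, 0, 0, 135975268, 0, 0, 0, ⟨0, 0⟩, 0⟩, 0, 0⟩ 0 0) (.pos 47 .mp ⟨⟨280092549, 0, 0, 0, 0, 136391144,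 0, 0, 0, ⟨0, 0⟩, 0⟩, 0, 0⟩ 0 0)) (.cut .s 11755520 (.pos 47 .mp ⟨⟨281620507, 0, 0, 0, 0, 136816133, 0, 0, 0, ⟨0, 0⟩, 0⟩, 0, 0⟩ 0 0) (.pos 47 .mp ⟨⟨283157654, 0, 0, 0, 0, 137250200, 0, 0, 0, ⟨0, 0⟩, 0⟩, 0, 0⟩ 0 0))) (.cut .s 11780096 (.cut .v 16793600 (.cut .s 11771904 (.pos 51 .mp ⟨⟨281180269, 0, 0, 0, 0, 143267926, 0, 0, 0, ⟨0, 0⟩, 0⟩, 0, 0⟩ 0 0) (.pos 51 .mp ⟨⟨281641867, 0, 0, 0, 0, 145466185, 0, 0, 0, ⟨0, 0⟩, 0⟩, 0, 0⟩ 0 0)) (.pos 52 .mp ⟨⟨319619511, 0, 0, 0, 0, 86777077, 0, 0, 0, ⟨0, 0⟩, 0⟩, 0, 0⟩ 0 0)) (.cut .v 16793600 (.cut .l 97131 (.cut .d (-4096) (.pos 51 .mp ⟨⟨281247794, 0, 0, 0, 0, 155224370, 0, 0, 0, ⟨0, 0⟩, 0⟩, 0,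 0⟩ 0 0) (.cut .s 11788288 (.pos 51 .mp ⟨⟨285138043, 0, 0, 0, 0, 142561853, 0, 0, 0, ⟨0, 0⟩, 0⟩, 0, 0⟩ 0 0) (.pos 51 .mp ⟨⟨286692774, 0, 0, 0, 0, 143062479, 0, 0, 0, ⟨0, 0⟩, 0⟩, 0, 0⟩ 0 0))) (.pos 51 .mp ⟨⟨279107454, 0, 0, 0, 0, 151562024, 0, 0, 0, ⟨0, 0⟩, 0⟩, 0, 0⟩ 0 0)) (.pos 52 .mp ⟨⟨321857261, 0, 0, 0, 0, 89005984, 0, 0, 0, ⟨0, 0⟩, 0⟩, 0, 0⟩ 0 0)))) (.pos 48 .mp ⟨⟨375954602, 0, 0, 0, 0, 0, 0, 0, 0, ⟨0, 0⟩, 0⟩, 0, 0⟩ 0 0)) (.cut .v 16809984 (.cut .s 11829248 (.cut .s 11812864 (.cut .l 97131 (.cut .d (-4096) (.pos 47 .mp ⟨⟨285578563, 0, 0, 0, 0, 155361168, 0, 0, 0, ⟨0, 0⟩, 0⟩, 0, 0⟩ 0 0) (.cut .s 11804672 (.pos 47 .mp ⟨⟨288787070,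 0, 0, 0, 0, 142764789, 0, 0, 0, ⟨0, 0⟩, 0⟩, 0, 0⟩ 0 0) (.cut .s 11808768 (.pos 47 .mp ⟨⟨289551857, 0, 0, 0, 0, 144022028, 0, 0, 0, ⟨0, 0⟩, 0⟩, 0, 0⟩ 0 0) (.pos 47 .mp ⟨⟨290272926, 0, 0, 0, 0, 144381184, 0, 0, 0, ⟨0, 0⟩, 0⟩, 0, 0⟩ 0 0)))) (.pos 47 .mp ⟨⟨290182498, 0, 0, 0, 0, 140345412, 0, 0, 0, ⟨0, 0⟩, 0⟩, 0, 0⟩ 0 0)) (.cut .s 11821056 (.cut .s 11816960 (.pos 47 .mp ⟨⟨293375987, 0, 0, 0, 0, 141110579, 0, 0, 0, ⟨0, 0⟩, 0⟩, 0, 0⟩ 0 0) (.pos 47 .mp ⟨⟨294178500, 0, 0, 0, 0, 141363556, 0, 0, 0, ⟨0, 0⟩, 0⟩, 0, 0⟩ 0 0)) (.cut .s 11825152 (.pos 47 .mp ⟨⟨294983394, 0, 0, 0, 0, 141618733, 0, 0, 0, ⟨0, 0⟩, 0⟩, 0, 0⟩ 0 0) (.pos 47 .mp ⟨⟨295790677,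 0, 0, 0, 0, 141876106, 0, 0, 0, ⟨0, 0⟩, 0⟩, 0, 0⟩ 0 0)))) (.cut .s 11845632 (.cut .s 11837440 (.cut .s 11833344 (.pos 47 .mp ⟨⟨296600352, 0, 0, 0, 0, 142135669, 0, 0, 0, ⟨0, 0⟩, 0⟩, 0, 0⟩ 0 0) (.pos 47 .mp ⟨⟨297412426, 0, 0, 0, 0, 142397418, 0, 0, 0, ⟨0, 0⟩, 0⟩, 0, 0⟩ 0 0)) (.cut .s 11841536 (.pos 47 .mp ⟨⟨298226905, 0, 0, 0, 0, 142661348, 0, 0, 0, ⟨0, 0⟩, 0⟩, 0, 0⟩ 0 0) (.pos 47 .mp ⟨⟨299043793, 0, 0, 0, 0, 142927452, 0, 0, 0, ⟨0, 0⟩, 0⟩, 0, 0⟩ 0 0))) (.cut .s 11853824 (.cut .s 11849728 (.pos 47 .mp ⟨⟨299863096, 0, 0, 0, 0, 143195728, 0, 0, 0, ⟨0, 0⟩, 0⟩, 0, 0⟩ 0 0) (.pos 47 .mp ⟨⟨300684820, 0, 0, 0, 0, 143466168, 0, 0, 0, ⟨0,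 0⟩, 0⟩, 0, 0⟩ 0 0)) (.cut .s 11857920 (.pos 47 .mp ⟨⟨301508971, 0, 0, 0, 0, 143738769, 0, 0, 0, ⟨0, 0⟩, 0⟩, 0, 0⟩ 0 0) (.pos 47 .mp ⟨⟨302335554, 0, 0, 0, 0, 144013525, 0, 0, 0, ⟨0, 0⟩, 0⟩, 0, 0⟩ 0 0))))) (.pos 48 .mp ⟨⟨390759056, 0, 0, 0, 0, 0, 0, 0, 0, ⟨0, 0⟩, 0⟩, 0, 0⟩ 0 0)))) (.pos 46 .mp ⟨⟨393349800, 0, 0, 0, 0, 0, 0, 0, 0, ⟨0, 0⟩, 0⟩, 0, 0⟩ 0 0)) (.cut .v 16842752 (.cut .d (-8192) (.cut .d (-12288) (.void 45 ⟨⟨0, 0, 0, 0, 0, 100000, 0, 0, 0, ⟨0, 0⟩, 0⟩, 0, 0⟩ 0 0) (.cut .d (-10240) (.void 45 ⟨⟨0, 0, 0, 0, 0, 100000, 0, 0, 0, ⟨0, 0⟩, 0⟩, 0, 0⟩ 0 0) (.cut .v 16809984 (.cut .d (-9216) (.pos 47 .mp ⟨⟨297987573, 0, 0, 0, 0, 209855183,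 0, 0, 0, ⟨0, 0⟩, 0⟩, 0, 0⟩ 0 0) (.cut .v 16793600 (.pos 51 .mp ⟨⟨0, 0, 0, 0, 0, 688128285, 0, 0, 0, ⟨0, 0⟩, 0⟩, 0, 0⟩ 0 0) (.cut .l 97131 (.void 52 ⟨⟨100000, 0, 0, 0, 0, 0, 0, 0, 0, ⟨0, 0⟩, 0⟩, 0, 0⟩ 0 0) (.cut .l 145697 (.void 52 ⟨⟨100000, 0, 0, 0, 0, 0, 0, 0, 0, ⟨0, 0⟩, 0⟩, 0, 0⟩ 0 0) (.cut .s 11927552 (.cut .s 11894784 (.pos 52 .mp ⟨⟨297955762, 0, 0, 0, 0, 163406248, 0, 0, 0, ⟨0, 0⟩, 0⟩, 0, 0⟩ 0 0) (.pos 52 .mp ⟨⟨304567848, 0, 0, 0, 0, 166071274, 0, 0, 0, ⟨0, 0⟩, 0⟩, 0, 0⟩ 0 0)) (.pos 52 .mp ⟨⟨311335553, 0, 0, 0, 0, 178961208, 0, 0, 0, ⟨0, 0⟩, 0⟩, 0, 0⟩ 0 0)))))) (.pos 48 .mp ⟨⟨425697290, 0, 0, 0, 0, 0, 0, 0, 0, ⟨0, 0⟩, 0⟩,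 0, 0⟩ 0 0)))) (.cut .s 11927552 (.cut .v 16809984 (.cut .s 11894784 (.cut .s 11878400 (.cut .s 11870208 (.cut .s 11866112 (.pos 47 .mp ⟨⟨303164574, 0, 0, 0, 0, 144290431, 0, 0, 0, ⟨0, 0⟩, 0⟩, 0, 0⟩ 0 0) (.pos 47 .mp ⟨⟨303996038, 0, 0, 0, 0, 144569481, 0, 0, 0, ⟨0, 0⟩, 0⟩, 0, 0⟩ 0 0)) (.cut .s 11874304 (.pos 47 .mp ⟨⟨304829950, 0, 0, 0, 0, 144850670, 0, 0, 0, ⟨0, 0⟩, 0⟩, 0, 0⟩ 0 0) (.pos 47 .mp ⟨⟨305666318, 0, 0, 0, 0, 145133993, 0, 0, 0, ⟨0, 0⟩, 0⟩, 0, 0⟩ 0 0))) (.cut .s 11886592 (.cut .s 11882496 (.pos 47 .mp ⟨⟨306505145, 0, 0, 0, 0, 145419445, 0, 0, 0, ⟨0, 0⟩, 0⟩, 0, 0⟩ 0 0) (.pos 47 .mp ⟨⟨307346439, 0, 0, 0, 0, 145707020, 0,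 0, 0, ⟨0, 0⟩, 0⟩, 0, 0⟩ 0 0)) (.cut .s 11890688 (.pos 47 .mp ⟨⟨308190205, 0, 0, 0, 0, 145996713, 0, 0, 0, ⟨0, 0⟩, 0⟩, 0, 0⟩ 0 0) (.pos 47 .mp ⟨⟨309036448, 0, 0, 0, 0, 146288517, 0, 0, 0, ⟨0, 0⟩, 0⟩, 0, 0⟩ 0 0)))) (.cut .s 11911168 (.cut .s 11902976 (.cut .s 11898880 (.pos 47 .mp ⟨⟨309885175, 0, 0, 0, 0, 146582429, 0, 0, 0, ⟨0, 0⟩, 0⟩, 0, 0⟩ 0 0) (.pos 47 .mp ⟨⟨310736391, 0, 0, 0, 0, 146878442, 0, 0, 0, ⟨0, 0⟩, 0⟩, 0, 0⟩ 0 0)) (.cut .s 11907072 (.pos 47 .mp ⟨⟨311590102, 0, 0, 0, 0, 147176550, 0, 0, 0, ⟨0, 0⟩, 0⟩, 0, 0⟩ 0 0) (.pos 47 .mp ⟨⟨312446314, 0, 0, 0, 0, 147476748, 0, 0, 0, ⟨0, 0⟩, 0⟩, 0, 0⟩ 0 0))) (.cut .s 11919360 (.cut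 .s 11915264 (.pos 47 .mp ⟨⟨313305033, 0, 0, 0, 0, 147779031, 0, 0, 0, ⟨0, 0⟩, 0⟩, 0, 0⟩ 0 0) (.pos 47 .mp ⟨⟨314166264, 0, 0, 0, 0, 148083393, 0, 0, 0, ⟨0, 0⟩, 0⟩, 0, 0⟩ 0 0)) (.cut .s 11923456 (.pos 47 .mp ⟨⟨315030014, 0, 0, 0, 0, 148389827, 0, 0, 0, ⟨0, 0⟩, 0⟩, 0, 0⟩ 0 0) (.pos 47 .mp ⟨⟨315896288, 0, 0, 0, 0, 148698328, 0, 0, 0, ⟨0, 0⟩, 0⟩, 0, 0⟩ 0 0))))) (.pos 48 .mp ⟨⟨406521809, 0, 0, 0, 0, 0, 0, 0, 0, ⟨0, 0⟩, 0⟩, 0, 0⟩ 0 0)) (.cut .v 16809984 (.cut .s 11960320 (.cut .s 11943936 (.cut .s 11935744 (.cut .s 11931648 (.pos 47 .mp ⟨⟨316765093, 0, 0, 0, 0, 149008891, 0, 0, 0, ⟨0, 0⟩, 0⟩, 0, 0⟩ 0 0) (.pos 47 .mp ⟨⟨317636434, 0, 0,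 0, 0, 149321510, 0, 0, 0, ⟨0, 0⟩, 0⟩, 0, 0⟩ 0 0)) (.cut .s 11939840 (.pos 47 .mp ⟨⟨318510318, 0, 0, 0, 0, 149636178, 0, 0, 0, ⟨0, 0⟩, 0⟩, 0, 0⟩ 0 0) (.pos 47 .mp ⟨⟨319386750, 0, 0, 0, 0, 149952890, 0, 0, 0, ⟨0, 0⟩, 0⟩, 0, 0⟩ 0 0))) (.cut .s 11952128 (.cut .s 11948032 (.pos 47 .mp ⟨⟨320265736, 0, 0, 0, 0, 150271639, 0, 0, 0, ⟨0, 0⟩, 0⟩, 0, 0⟩ 0 0) (.pos 47 .mp ⟨⟨321147283, 0, 0, 0, 0, 150592421, 0, 0, 0, ⟨0, 0⟩, 0⟩, 0, 0⟩ 0 0)) (.cut .s 11956224 (.pos 47 .mp ⟨⟨322031396, 0, 0, 0, 0, 150915228, 0, 0, 0, ⟨0, 0⟩, 0⟩, 0, 0⟩ 0 0) (.pos 47 .mp ⟨⟨322918082, 0, 0, 0, 0, 151240055, 0, 0, 0, ⟨0, 0⟩, 0⟩, 0, 0⟩ 0 0)))) (.cut .s 11976704 (.cut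 .s 11968512 (.cut .s 11964416 (.pos 47 .mp ⟨⟨323807347, 0, 0, 0, 0, 151566895, 0, 0, 0, ⟨0, 0⟩, 0⟩, 0, 0⟩ 0 0) (.pos 47 .mp ⟨⟨324699196, 0, 0, 0, 0, 151895743, 0, 0, 0, ⟨0, 0⟩, 0⟩, 0, 0⟩ 0 0)) (.cut .s 11972608 (.pos 47 .mp ⟨⟨325593637, 0, 0, 0, 0, 152226593, 0, 0, 0, ⟨0, 0⟩, 0⟩, 0, 0⟩ 0 0) (.pos 47 .mp ⟨⟨326490674, 0, 0, 0, 0, 152559437, 0, 0, 0, ⟨0, 0⟩, 0⟩, 0, 0⟩ 0 0))) (.cut .l 97131 (.cut .d (-4096) (.pos 47 .mp ⟨⟨321685254, 0, 0, 0, 0, 171628831, 0, 0, 0, ⟨0, 0⟩, 0⟩, 0, 0⟩ 0 0) (.cut .s 11984896 (.cut .s 11980800 (.pos 47 .mp ⟨⟨324893633, 0, 0, 0, 0, 156746255, 0, 0, 0, ⟨0, 0⟩, 0⟩, 0, 0⟩ 0 0) (.pos 47 .mp ⟨⟨325874733, 0, 0,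 0, 0, 156970467, 0, 0, 0, ⟨0, 0⟩, 0⟩, 0, 0⟩ 0 0)) (.pos 47 .mp ⟨⟨327476256, 0, 0, 0, 0, 156812694, 0, 0, 0, ⟨0, 0⟩, 0⟩, 0, 0⟩ 0 0))) (.pos 47 .mp ⟨⟨327428449, 0, 0, 0, 0, 153076604, 0, 0, 0, ⟨0, 0⟩, 0⟩, 0, 0⟩ 0 0)))) (.pos 48 .mp ⟨⟨423247538, 0, 0, 0, 0, 0, 0, 0, 0, ⟨0, 0⟩, 0⟩, 0, 0⟩ 0 0)))) (.pos 46 .mp ⟨⟨425741484, 0, 0, 0, 0, 0, 0, 0, 0, ⟨0, 0⟩, 0⟩, 0, 0⟩ 0 0))) (.pos 36 .mp ⟨⟨427240190, 0, 0, 0, 0, 0, 0, 0, 0, ⟨0, 0⟩, 0⟩, 0, 0⟩ 0 0)) (.void 34 ⟨⟨100000, 0, 0, 0, 0, 0, 0, 0, 0, ⟨0, 0⟩, 0⟩, 0, 0⟩ 0 0)) (.void 32 ⟨⟨100000, 0, 0, 0, 0, 0, 0, 0, 0, ⟨0, 0⟩, 0⟩, 0, 0⟩ 0 0)))))))) (.void 30 ⟨⟨100000, 0, 0, 0, 0, 0, 0, 0, 0, ⟨0, 0⟩,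 0⟩, 0, 0⟩ 0 0))) (.void 28 ⟨⟨100000, 0, 0, 0, 0, 0, 0, 0, 0, ⟨0, 0⟩, 0⟩, 0, 0⟩ 0 0))) (.void 26 ⟨⟨100000, 0, 0, 0, 0, 0, 0, 0, 0, ⟨0, 0⟩, 0⟩, 0, 0⟩ 0 0)))) (.void 24 ⟨⟨100000, 0, 0, 0, 0, 0, 0, 0, 0, ⟨0, 0⟩, 0⟩, 0, 0⟩ 0 0)) (.void 123 ⟨⟨100000, 0, 0, 0, 0, 0, 0, 0, 0, ⟨0, 0⟩, 0⟩, 0, 0⟩ 0 0)) (.void 142 ⟨⟨100000, 0, 0, 0, 0, 0, 0, 0, 0, ⟨0, 0⟩, 0⟩, 0, 0⟩ 0 0)) (.void 145 ⟨⟨96573, 0, 0, 3427, 0, 0, 0, 0, 0, ⟨0, 0⟩, 0⟩, 0, 0⟩ 0 0))) (.cut .v 16777216 (.cut .v 8388608 (.cut .v 4194304 (.cut .v 2097152 (.cut .v 1048576 (.pos 148 .pm ⟨⟨0, 0, 17850969, 0, 0, 0, 0, 0, 0, ⟨0, 0⟩, 0⟩, 0, 5176⟩ 0 0) (.pos 149 .pm ⟨⟨0, 0, 9477166, 0, 0, 0,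 0, 0, 0, ⟨0, 0⟩, 0⟩, 0, 14378⟩ 0 0)) (.pos 7 .pm ⟨⟨0, 0, 3497498, 0, 0, 0, 0, 0, 0, ⟨0, 0⟩, 0⟩, 0, 24550⟩ 0 0)) (.pos 5 .pm ⟨⟨0, 0, 937124, 0, 0, 0, 0, 0, 0, ⟨0, 0⟩, 0⟩, 0, 32352⟩ 0 0)) (.pos 3 .pm ⟨⟨0, 0, 0, 0, 0, 0, 0, 0, 0, ⟨0, 0⟩, 0⟩, 0, 0⟩ 0 0)) (.cut .v 268435456 (.cut .v 67108864 (.cut .d 3608508 (.cut .d 1804254 (.cut .v 33554432 (.cut .d 902127 (.cut .v 25165824 (.cut .d 451063 (.cut .v 20971520 (.cut .d 225531 (.cut .v 18874368 (.cut .v 17825792 (.cut .s 11862016 (.pos 29 .pp ⟨⟨190579244, 0, 0, 0, 0, 0, 0, 0, 0, ⟨0, 0⟩, 0⟩, 15517260, 0⟩ 0 0) (.pos 29 .pp ⟨⟨224729943, 0, 0, 0, 0, 0, 0, 0, 0, ⟨0, 0⟩, 0⟩, 15070492, 0⟩ 0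 0)) (.pos 30 .pp ⟨⟨414196908, 0, 0, 0, 0, 0, 0, 0, 0, ⟨0, 0⟩, 0⟩, 0, 0⟩ 0 0)) (.pos 28 .pp ⟨⟨494647353, 0, 0, 0, 0, 0, 0, 0, 0, ⟨0, 0⟩, 0⟩, 0, 0⟩ 0 0)) (.pos 25 .pp ⟨⟨0, 0, 0, 0, 0, 0, 214748, 0, 0, ⟨0, 0⟩, 0⟩, 0, 0⟩ 0 0)) (.cut .d 225531 (.pos 26 .pp ⟨⟨0, 0, 0, 0, 0, 0, 0, 0, 0, ⟨0, 0⟩, 0⟩, 53935661, 0⟩ 0 0) (.pos 26 .pp ⟨⟨0, 0, 0, 0, 0, 0, 0, 0, 0, ⟨0, 0⟩, 0⟩, 40486720, 0⟩ 0 0))) (.pos 23 .pp ⟨⟨0, 0, 0, 0, 0, 0, 0, 0, 0, ⟨0, 0⟩, 0⟩, 22814049, 37355⟩ 0 0)) (.cut .d 451063 (.pos 24 .pp ⟨⟨0, 0, 0, 0, 0, 0, 0, 0, 0, ⟨0, 0⟩, 0⟩, 70702691, 0⟩ 0 0) (.pos 24 .pp ⟨⟨0, 0, 0, 0, 0, 0, 0, 0, 0, ⟨0, 0⟩, 0⟩, 51564375, 0⟩ 0 0))) (.pos 22 .pp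 ⟨⟨0, 0, 0, 0, 0, 0, 0, 0, 0, ⟨0, 0⟩, 0⟩, 21474408, 40207⟩ 0 0)) (.cut .d 902127 (.void 123 ⟨⟨0, 0, 0, 0, 0, 0, 0, 0, 0, ⟨0, 0⟩, 0⟩, 100000, 0⟩ 0 0) (.pos 123 .pp ⟨⟨0, 0, 0, 0, 0, 0, 0, 0, 0, ⟨0, 0⟩, 0⟩, 70996035, 0⟩ 0 0))) (.pos 122 .pp ⟨⟨0, 0, 0, 0, 0, 0, 0, 0, 0, ⟨0, 0⟩, 0⟩, 8929297, 66915⟩ 0 0)) (.pos 122 .pp ⟨⟨0, 121357166, 0, 0, 0, 0, 0, 0, 0, ⟨0, 0⟩, 0⟩, 0, 64703⟩ 0 0)) (.pos 142 .pp ⟨⟨0, 3452877654, 0, 0, 0, 0, 0, 0, 0, ⟨0, 0⟩, 0⟩, 397022148, 0⟩ 0 0)) (.void 145 ⟨⟨0, 0, 0, 0, 0, 0, 0, 0, 0, ⟨0, 0⟩, 0⟩, 100000, 0⟩ 0 0)))),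
    by decide +kernel⟩

def covers18 : cell.Covers Vale.Agent.P237.Petty.Cor.Grid.N19.table row18.1 :=
  ⟨(.cut .d 0 (.cut .v 16777216 (.cut .d (-8388608) (.void 1 ⟨⟨0, 0, 0, 0, 0, 100000, 0, 0, 0, ⟨0, 0⟩, 0⟩, 0, 0⟩ 0 0) (.cut .d (-4194304) (.void 1 ⟨⟨0, 0, 0, 0, 0, 100279, 0, 0, 0, ⟨0, 0⟩, 0⟩, 0, 0⟩ 0 0) (.cut .d (-2097152) (.void 1 ⟨⟨0, 0, 0, 0, 0, 100000, 0, 0, 0, ⟨0, 0⟩, 0⟩, 0, 0⟩ 0 0) (.cut .d (-1048576) (.void 1 ⟨⟨0, 0, 0, 0, 0, 100000, 0, 0, 0, ⟨0, 0⟩, 0⟩, 0, 0⟩ 0 0) (.cut .d (-524288) (.void 1 ⟨⟨0, 0, 0, 0, 0, 100000, 0, 0, 0, ⟨0, 0⟩, 0⟩, 0, 0⟩ 0 0) (.cut .d (-262144) (.void 1 ⟨⟨0, 0, 0, 0, 0, 100000, 0, 0, 0, ⟨0, 0⟩, 0⟩,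 0, 0⟩ 0 0) (.cut .d (-131072) (.void 1 ⟨⟨0, 0, 0, 0, 0, 100000, 0, 0, 0, ⟨0, 0⟩, 0⟩, 0, 0⟩ 0 0) (.cut .d (-65536) (.void 1 ⟨⟨0, 0, 0, 0, 0, 100000, 0, 0, 0, ⟨0, 0⟩, 0⟩, 0, 0⟩ 0 0) (.cut .d (-32768) (.void 1 ⟨⟨0, 0, 0, 0, 0, 100000, 0, 0, 0, ⟨0, 0⟩, 0⟩, 0, 0⟩ 0 0) (.cut .d (-16384) (.void 1 ⟨⟨0, 0, 0, 0, 0, 100000, 0, 0, 0, ⟨0, 0⟩, 0⟩, 0, 0⟩ 0 0) (.cut .v 8388608 (.cut .v 4194304 (.void 4 ⟨⟨0, 0, 100000, 0, 0, 0, 0, 0, 0, ⟨0, 0⟩, 0⟩, 0, 0⟩ 0 0) (.pos 5 .mm ⟨⟨0, 0, 7828186, 0, 0, 260839228, 0, 0, 0, ⟨0, 0⟩, 0⟩, 0, 0⟩ 0 0)) (.cut .s 12124160 (.pos 3 .mm ⟨⟨0, 0, 0, 0, 0, 691844789, 0, 0, 0, ⟨0, 0⟩, 0⟩, 0, 0⟩ 0 0) (.pos 3 .mm ⟨⟨0, 0,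 0, 0, 0, 757033770, 0, 0, 0, ⟨0, 0⟩, 0⟩, 0, 0⟩ 0 0))))))))))))) (.cut .v 268435456 (.cut .v 67108864 (.cut .v 33554432 (.cut .d (-8388608) (.void 22 ⟨⟨100000, 0, 0, 0, 0, 0, 0, 0, 0, ⟨0, 0⟩, 0⟩, 0, 0⟩ 0 0) (.cut .v 25165824 (.cut .d (-4194304) (.void 23 ⟨⟨100000, 0, 0, 0, 0, 0, 0, 0, 0, ⟨0, 0⟩, 0⟩, 0, 0⟩ 0 0) (.cut .v 20971520 (.cut .d (-2097152) (.void 25 ⟨⟨100000, 0, 0, 0, 0, 0, 0, 0, 0, ⟨0, 0⟩, 0⟩, 0, 0⟩ 0 0) (.cut .v 18874368 (.cut .d (-1048576) (.void 27 ⟨⟨100000, 0, 0, 0, 0, 0, 0, 0, 0, ⟨0, 0⟩, 0⟩, 0, 0⟩ 0 0) (.cut .d (-524288) (.void 27 ⟨⟨100000, 0, 0, 0, 0, 0, 0, 0, 0, ⟨0, 0⟩, 0⟩, 0, 0⟩ 0 0) (.cut .v 17825792 (.cut .d (-262144)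 (.void 29 ⟨⟨100000, 0, 0, 0, 0, 0, 0, 0, 0, ⟨0, 0⟩, 0⟩, 0, 0⟩ 0 0) (.cut .d (-131072) (.void 29 ⟨⟨100000, 0, 0, 0, 0, 0, 0, 0, 0, ⟨0, 0⟩, 0⟩, 0, 0⟩ 0 0) (.cut .d (-65536) (.void 29 ⟨⟨100000, 0, 0, 0, 0, 0, 0, 0, 0, ⟨0, 0⟩, 0⟩, 0, 0⟩ 0 0) (.cut .d (-32768) (.void 29 ⟨⟨100000, 0, 0, 0, 0, 0, 0, 0, 0, ⟨0, 0⟩, 0⟩, 0, 0⟩ 0 0) (.cut .d (-16384) (.void 29 ⟨⟨100000, 0, 0, 0, 0, 0, 0, 0, 0, ⟨0, 0⟩, 0⟩, 0, 0⟩ 0 0) (.cut .v 17301504 (.cut .v 17039360 (.cut .v 16908288 (.cut .d (-8192) (.cut .v 16842752 (.cut .v 16809984 (.cut .d (-12288) (.void 47 ⟨⟨0, 0, 0, 0, 0, 100000, 0, 0, 0, ⟨0, 0⟩, 0⟩, 0, 0⟩ 0 0) (.cut .d (-10240) (.void 47 ⟨⟨0, 0,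 0, 0, 0, 100000, 0, 0, 0, ⟨0, 0⟩, 0⟩, 0, 0⟩ 0 0) (.cut .d (-9216) (.void 47 ⟨⟨0, 0, 0, 0, 0, 100000, 0, 0, 0, ⟨0, 0⟩, 0⟩, 0, 0⟩ 0 0) (.cut .v 16793600 (.pos 51 .mp ⟨⟨0, 0, 0, 0, 0, 818987339, 0, 0, 0, ⟨0, 0⟩, 0⟩, 0, 0⟩ 0 0) (.cut .l 97131 (.void 52 ⟨⟨100000, 0, 0, 0, 0, 0, 0, 0, 0, ⟨0, 0⟩, 0⟩, 0, 0⟩ 0 0) (.cut .l 145697 (.void 52 ⟨⟨100000, 0, 0, 0, 0, 0, 0, 0, 0, ⟨0, 0⟩, 0⟩, 0, 0⟩ 0 0) (.cut .s 12124160 (.cut .s 12058624 (.pos 52 .mp ⟨⟨325350975, 0, 0, 0, 0, 191632719, 0, 0, 0, ⟨0, 0⟩, 0⟩, 0, 0⟩ 0 0) (.pos 52 .mp ⟨⟨340064652, 0, 0, 0, 0, 197470002, 0, 0, 0, ⟨0, 0⟩, 0⟩, 0, 0⟩ 0 0)) (.pos 52 .mp ⟨⟨355512725, 0, 0, 0, 0, 232521692,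 0, 0, 0, ⟨0, 0⟩, 0⟩, 0, 0⟩ 0 0)))))))) (.pos 48 .mp ⟨⟨511083570, 0, 0, 0, 0, 0, 0, 0, 0, ⟨0, 0⟩, 0⟩, 0, 0⟩ 0 0)) (.void 46 ⟨⟨100000, 0, 0, 0, 0, 0, 0, 0, 0, ⟨0, 0⟩, 0⟩, 0, 0⟩ 0 0)) (.cut .s 12124160 (.cut .v 16842752 (.cut .s 12058624 (.cut .v 16809984 (.cut .s 12025856 (.cut .s 12009472 (.cut .v 16793600 (.cut .d (-4096) (.pos 51 .mp ⟨⟨321538330, 0, 0, 0, 0, 174558640, 0, 0, 0, ⟨0, 0⟩, 0⟩, 0, 0⟩ 0 0) (.cut .s 12001280 (.pos 51 .mp ⟨⟨328680253, 0, 0, 0, 0, 158516195, 0, 0, 0, ⟨0, 0⟩, 0⟩, 0, 0⟩ 0 0) (.pos 51 .mp ⟨⟨330490632, 0, 0, 0, 0, 159045464, 0, 0, 0, ⟨0, 0⟩, 0⟩, 0, 0⟩ 0 0))) (.pos 52 .mp ⟨⟨372926187, 0, 0, 0, 0, 92953648,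 0, 0, 0, ⟨0, 0⟩, 0⟩, 0, 0⟩ 0 0)) (.cut .s 12017664 (.cut .s 12013568 (.pos 47 .mp ⟨⟨334684882, 0, 0, 0, 0, 155306953, 0, 0, 0, ⟨0, 0⟩, 0⟩, 0, 0⟩ 0 0) (.pos 47 .mp ⟨⟨335609157, 0, 0, 0, 0, 155576866, 0, 0, 0, ⟨0, 0⟩, 0⟩, 0, 0⟩ 0 0)) (.cut .s 12021760 (.pos 47 .mp ⟨⟨336536293, 0, 0, 0, 0, 155849555, 0, 0, 0, ⟨0, 0⟩, 0⟩, 0, 0⟩ 0 0) (.pos 47 .mp ⟨⟨337466295, 0, 0, 0, 0, 156125014, 0, 0, 0, ⟨0, 0⟩, 0⟩, 0, 0⟩ 0 0)))) (.cut .s 12042240 (.cut .s 12034048 (.cut .s 12029952 (.pos 47 .mp ⟨⟨338399171, 0, 0, 0, 0, 156403237, 0, 0, 0, ⟨0, 0⟩, 0⟩, 0, 0⟩ 0 0) (.pos 47 .mp ⟨⟨339334927, 0, 0, 0, 0, 156684218, 0, 0, 0, ⟨0, 0⟩, 0⟩, 0, 0⟩ 0 0)) (.cut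 .s 12038144 (.pos 47 .mp ⟨⟨340273570, 0, 0, 0, 0, 156967949, 0, 0, 0, ⟨0, 0⟩, 0⟩, 0, 0⟩ 0 0) (.pos 47 .mp ⟨⟨341215108, 0, 0, 0, 0, 157254426, 0, 0, 0, ⟨0, 0⟩, 0⟩, 0, 0⟩ 0 0))) (.cut .s 12050432 (.cut .s 12046336 (.pos 47 .mp ⟨⟨342159547, 0, 0, 0, 0, 157543640, 0, 0, 0, ⟨0, 0⟩, 0⟩, 0, 0⟩ 0 0) (.pos 47 .mp ⟨⟨343106895, 0, 0, 0, 0, 157835586, 0, 0, 0, ⟨0, 0⟩, 0⟩, 0, 0⟩ 0 0)) (.cut .s 12054528 (.pos 47 .mp ⟨⟨344057158, 0, 0, 0, 0, 158130256, 0, 0, 0, ⟨0, 0⟩, 0⟩, 0, 0⟩ 0 0) (.pos 47 .mp ⟨⟨345010343, 0, 0, 0, 0, 158427645, 0, 0, 0, ⟨0, 0⟩, 0⟩, 0, 0⟩ 0 0))))) (.pos 48 .mp ⟨⟨441000886, 0, 0, 0, 0, 0, 0, 0, 0, ⟨0, 0⟩, 0⟩, 0, 0⟩ 0 0)) (.cut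 .v 16809984 (.cut .s 12091392 (.cut .s 12075008 (.cut .s 12066816 (.cut .s 12062720 (.pos 47 .mp ⟨⟨345966458, 0, 0, 0, 0, 158727746, 0, 0, 0, ⟨0, 0⟩, 0⟩, 0, 0⟩ 0 0) (.pos 47 .mp ⟨⟨346925509, 0, 0, 0, 0, 159030551, 0, 0, 0, ⟨0, 0⟩, 0⟩, 0, 0⟩ 0 0)) (.cut .s 12070912 (.pos 47 .mp ⟨⟨347887504, 0, 0, 0, 0, 159336054, 0, 0, 0, ⟨0, 0⟩, 0⟩, 0, 0⟩ 0 0) (.pos 47 .mp ⟨⟨348852450, 0, 0, 0, 0, 159644249, 0, 0, 0, ⟨0, 0⟩, 0⟩, 0, 0⟩ 0 0))) (.cut .s 12083200 (.cut .s 12079104 (.pos 47 .mp ⟨⟨349820354, 0, 0, 0, 0, 159955128, 0, 0, 0, ⟨0, 0⟩, 0⟩, 0, 0⟩ 0 0) (.pos 47 .mp ⟨⟨350791223, 0, 0, 0, 0, 160268684, 0, 0, 0, ⟨0, 0⟩, 0⟩, 0, 0⟩ 0 0)) (.cut .s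 12087296 (.pos 47 .mp ⟨⟨351765064, 0, 0, 0, 0, 160584910, 0, 0, 0, ⟨0, 0⟩, 0⟩, 0, 0⟩ 0 0) (.pos 47 .mp ⟨⟨352741886, 0, 0, 0, 0, 160903800, 0, 0, 0, ⟨0, 0⟩, 0⟩, 0, 0⟩ 0 0)))) (.cut .s 12107776 (.cut .s 12099584 (.cut .s 12095488 (.pos 47 .mp ⟨⟨353721694, 0, 0, 0, 0, 161225347, 0, 0, 0, ⟨0, 0⟩, 0⟩, 0, 0⟩ 0 0) (.pos 47 .mp ⟨⟨354704496, 0, 0, 0, 0, 161549542, 0, 0, 0, ⟨0, 0⟩, 0⟩, 0, 0⟩ 0 0)) (.cut .s 12103680 (.pos 47 .mp ⟨⟨355690301, 0, 0, 0, 0, 161876380, 0, 0, 0, ⟨0, 0⟩, 0⟩, 0, 0⟩ 0 0) (.pos 47 .mp ⟨⟨356679114, 0, 0, 0, 0, 162205852, 0, 0, 0, ⟨0, 0⟩, 0⟩, 0, 0⟩ 0 0))) (.cut .s 12115968 (.cut .s 12111872 (.pos 47 .mp ⟨⟨357670943,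 0, 0, 0, 0, 162537952, 0, 0, 0, ⟨0, 0⟩, 0⟩, 0, 0⟩ 0 0) (.pos 47 .mp ⟨⟨358665796, 0, 0, 0, 0, 162872672, 0, 0, 0, ⟨0, 0⟩, 0⟩, 0, 0⟩ 0 0)) (.cut .s 12120064 (.pos 47 .mp ⟨⟨359663680, 0, 0, 0, 0, 163210005, 0, 0, 0, ⟨0, 0⟩, 0⟩, 0, 0⟩ 0 0) (.pos 47 .mp ⟨⟨360664603, 0, 0, 0, 0, 163549943, 0, 0, 0, ⟨0, 0⟩, 0⟩, 0, 0⟩ 0 0))))) (.pos 48 .mp ⟨⟨458996619, 0, 0, 0, 0, 0, 0, 0, 0, ⟨0, 0⟩, 0⟩, 0, 0⟩ 0 0))) (.pos 46 .mp ⟨⟨455035724, 0, 0, 0, 0, 0, 0, 0, 0, ⟨0, 0⟩, 0⟩, 0, 0⟩ 0 0)) (.cut .v 16842752 (.cut .s 12189696 (.cut .v 16809984 (.cut .s 12156928 (.cut .s 12140544 (.cut .s 12132352 (.cut .s 12128256 (.pos 47 .mp ⟨⟨361668573, 0, 0, 0, 0, 163892480,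 0, 0, 0, ⟨0, 0⟩, 0⟩, 0, 0⟩ 0 0) (.pos 47 .mp ⟨⟨362675595, 0, 0, 0, 0, 164237607, 0, 0, 0, ⟨0, 0⟩, 0⟩, 0, 0⟩ 0 0)) (.cut .s 12136448 (.pos 47 .mp ⟨⟨363685679, 0, 0, 0, 0, 164585316, 0, 0, 0, ⟨0, 0⟩, 0⟩, 0, 0⟩ 0 0) (.pos 47 .mp ⟨⟨364698832, 0, 0, 0, 0, 164935602, 0, 0, 0, ⟨0, 0⟩, 0⟩, 0, 0⟩ 0 0))) (.cut .s 12148736 (.cut .s 12144640 (.pos 47 .mp ⟨⟨365715061, 0, 0, 0, 0, 165288454, 0, 0, 0, ⟨0, 0⟩, 0⟩, 0, 0⟩ 0 0) (.pos 47 .mp ⟨⟨366734374, 0, 0, 0, 0, 165643867, 0, 0, 0, ⟨0, 0⟩, 0⟩, 0, 0⟩ 0 0)) (.cut .s 12152832 (.pos 47 .mp ⟨⟨367756778, 0, 0, 0, 0, 166001832, 0, 0, 0, ⟨0, 0⟩, 0⟩, 0, 0⟩ 0 0) (.pos 47 .mp ⟨⟨368782282, 0, 0, 0, 0, 166362342,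 0, 0, 0, ⟨0, 0⟩, 0⟩, 0, 0⟩ 0 0)))) (.cut .s 12173312 (.cut .s 12165120 (.cut .s 12161024 (.pos 47 .mp ⟨⟨369810893, 0, 0, 0, 0, 166725388, 0, 0, 0, ⟨0, 0⟩, 0⟩, 0, 0⟩ 0 0) (.pos 47 .mp ⟨⟨370842619, 0, 0, 0, 0, 167090962, 0, 0, 0, ⟨0, 0⟩, 0⟩, 0, 0⟩ 0 0)) (.cut .s 12169216 (.pos 47 .mp ⟨⟨371877467, 0, 0, 0, 0, 167459057, 0, 0, 0, ⟨0, 0⟩, 0⟩, 0, 0⟩ 0 0) (.pos 47 .mp ⟨⟨372915445, 0, 0, 0, 0, 167829665, 0, 0, 0, ⟨0, 0⟩, 0⟩, 0, 0⟩ 0 0))) (.cut .s 12181504 (.cut .s 12177408 (.pos 47 .mp ⟨⟨373956562, 0, 0, 0, 0, 168202778, 0, 0, 0, ⟨0, 0⟩, 0⟩, 0, 0⟩ 0 0) (.pos 47 .mp ⟨⟨375000824, 0, 0, 0, 0, 168578386, 0, 0, 0, ⟨0, 0⟩, 0⟩, 0, 0⟩ 0 0)) (.cut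 .s 12185600 (.pos 47 .mp ⟨⟨376048240, 0, 0, 0, 0, 168956484, 0, 0, 0, ⟨0, 0⟩, 0⟩, 0, 0⟩ 0 0) (.pos 47 .mp ⟨⟨377098818, 0, 0, 0, 0, 169337061, 0, 0, 0, ⟨0, 0⟩, 0⟩, 0, 0⟩ 0 0))))) (.pos 48 .mp ⟨⟨478168457, 0, 0, 0, 0, 0, 0, 0, 0, ⟨0, 0⟩, 0⟩, 0, 0⟩ 0 0)) (.cut .v 16809984 (.cut .s 12222464 (.cut .s 12206080 (.cut .s 12197888 (.cut .s 12193792 (.pos 47 .mp ⟨⟨378152565, 0, 0, 0, 0, 169720110, 0, 0, 0, ⟨0, 0⟩, 0⟩, 0, 0⟩ 0 0) (.pos 47 .mp ⟨⟨379209490, 0, 0, 0, 0, 170105622, 0, 0, 0, ⟨0, 0⟩, 0⟩, 0, 0⟩ 0 0)) (.cut .s 12201984 (.pos 47 .mp ⟨⟨380269601, 0, 0, 0, 0, 170493590, 0, 0, 0, ⟨0, 0⟩, 0⟩, 0, 0⟩ 0 0) (.pos 47 .mp ⟨⟨381332905, 0, 0,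 0, 0, 170884004, 0, 0, 0, ⟨0, 0⟩, 0⟩, 0, 0⟩ 0 0))) (.cut .l 97131 (.cut .d (-4096) (.pos 47 .mp ⟨⟨376470903, 0, 0, 0, 0, 192512193, 0, 0, 0, ⟨0, 0⟩, 0⟩, 0, 0⟩ 0 0) (.cut .s 12214272 (.pos 47 .mp ⟨⟨380215948, 0, 0, 0, 0, 175404462, 0, 0, 0, ⟨0, 0⟩, 0⟩, 0, 0⟩ 0 0) (.pos 47 .mp ⟨⟨382339139, 0, 0, 0, 0, 176234004, 0, 0, 0, ⟨0, 0⟩, 0⟩, 0, 0⟩ 0 0))) (.pos 47 .mp ⟨⟨382526574, 0, 0, 0, 0, 171636215, 0, 0, 0, ⟨0, 0⟩, 0⟩, 0, 0⟩ 0 0))) (.cut .s 12238848 (.cut .v 16793600 (.cut .s 12230656 (.pos 51 .mp ⟨⟨380786907, 0, 0, 0, 0, 183524516, 0, 0, 0, ⟨0, 0⟩, 0⟩, 0, 0⟩ 0 0) (.pos 51 .mp ⟨⟨384318756, 0, 0, 0, 0, 182116670, 0, 0, 0, ⟨0, 0⟩, 0⟩, 0,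 0⟩ 0 0)) (.pos 52 .mp ⟨⟨440885356, 0, 0, 0, 0, 92132234, 0, 0, 0, ⟨0, 0⟩, 0⟩, 0, 0⟩ 0 0)) (.cut .s 12247040 (.cut .s 12242944 (.pos 47 .mp ⟨⟨392750255, 0, 0, 0, 0, 171839143, 0, 0, 0, ⟨0, 0⟩, 0⟩, 0, 0⟩ 0 0) (.pos 47 .mp ⟨⟨394171792, 0, 0, 0, 0, 171742235, 0, 0, 0, ⟨0, 0⟩, 0⟩, 0, 0⟩ 0 0)) (.pos 47 .mp ⟨⟨394344611, 0, 0, 0, 0, 174584386, 0, 0, 0, ⟨0, 0⟩, 0⟩, 0, 0⟩ 0 0)))) (.pos 48 .mp ⟨⟨498522287, 0, 0, 0, 0, 0, 0, 0, 0, ⟨0, 0⟩, 0⟩, 0, 0⟩ 0 0))) (.pos 46 .mp ⟨⟨493662745, 0, 0, 0, 0, 0, 0, 0, 0, ⟨0, 0⟩, 0⟩, 0, 0⟩ 0 0)))) (.pos 36 .mp ⟨⟨502855155, 0, 0, 0, 0, 0, 0, 0, 0, ⟨0, 0⟩, 0⟩, 0, 0⟩ 0 0)) (.void 34 ⟨⟨100000, 0, 0, 0, 0, 0, 0,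 0, 0, ⟨0, 0⟩, 0⟩, 0, 0⟩ 0 0)) (.void 32 ⟨⟨100000, 0, 0, 0, 0, 0, 0, 0, 0, ⟨0, 0⟩, 0⟩, 0, 0⟩ 0 0))))))) (.void 30 ⟨⟨100000, 0, 0, 0, 0, 0, 0, 0, 0, ⟨0, 0⟩, 0⟩, 0, 0⟩ 0 0)))) (.void 28 ⟨⟨100000, 0, 0, 0, 0, 0, 0, 0, 0, ⟨0, 0⟩, 0⟩, 0, 0⟩ 0 0))) (.void 26 ⟨⟨100000, 0, 0, 0, 0, 0, 0, 0, 0, ⟨0, 0⟩, 0⟩, 0, 0⟩ 0 0))) (.void 24 ⟨⟨100000, 0, 0, 0, 0, 0, 0, 0, 0, ⟨0, 0⟩, 0⟩, 0, 0⟩ 0 0))) (.void 123 ⟨⟨100000, 0, 0, 0, 0, 0, 0, 0, 0, ⟨0, 0⟩, 0⟩, 0, 0⟩ 0 0)) (.void 142 ⟨⟨100000, 0, 0, 0, 0, 0, 0, 0, 0, ⟨0, 0⟩, 0⟩, 0, 0⟩ 0 0)) (.void 145 ⟨⟨96630, 0, 0, 3504, 0, 0, 0, 0, 0, ⟨0, 0⟩, 0⟩, 0, 0⟩ 0 0))) (.cut .v 16777216 (.cut .v 8388608 (.cut .v 4194304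 (.cut .v 2097152 (.cut .v 1048576 (.cut .v 524288 (.pos 150 .pm ⟨⟨0, 0, 19196476, 0, 0, 0, 0, 0, 0, ⟨0, 0⟩, 0⟩, 0, 1941⟩ 0 0) (.pos 151 .pm ⟨⟨0, 0, 12075013, 0, 0, 0, 0, 0, 0, ⟨0, 0⟩, 0⟩, 0, 5594⟩ 0 0)) (.pos 149 .pm ⟨⟨0, 0, 3100405, 0, 0, 0, 0, 0, 0, ⟨0, 0⟩, 0⟩, 0, 10567⟩ 0 0)) (.pos 7 .pm ⟨⟨0, 6383010, 0, 0, 0, 0, 0, 0, 0, ⟨0, 0⟩, 0⟩, 0, 19020⟩ 0 0)) (.cut .d 3346276 (.pos 5 .pm ⟨⟨0, 0, 7725933, 0, 0, 0, 0, 0, 0, ⟨0, 0⟩, 0⟩, 0, 0⟩ 0 0) (.pos 5 .pm ⟨⟨0, 82447391, 0, 0, 0, 0, 0, 0, 0, ⟨0, 0⟩, 0⟩, 0, 23776⟩ 0 0))) (.pos 3 .pm ⟨⟨0, 0, 0, 0, 0, 0, 0, 0, 0, ⟨0, 0⟩, 0⟩, 0, 0⟩ 0 0)) (.cut .v 268435456 (.cut .v 67108864 (.cut .d 3346276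 (.cut .d 1673138 (.cut .v 33554432 (.cut .d 836569 (.cut .v 25165824 (.cut .d 418284 (.cut .v 20971520 (.cut .d 209142 (.cut .v 18874368 (.cut .v 17825792 (.cut .s 12124160 (.pos 29 .pp ⟨⟨261451264, 0, 0, 0, 0, 0, 0, 0, 0, ⟨0, 0⟩, 0⟩, 14695322, 0⟩ 0 0) (.pos 29 .pp ⟨⟨307015183, 0, 0, 0, 0, 0, 0, 0, 0, ⟨0, 0⟩, 0⟩, 13716012, 0⟩ 0 0)) (.pos 30 .pp ⟨⟨486157758, 0, 0, 0, 0, 0, 0, 0, 0, ⟨0, 0⟩, 0⟩, 0, 0⟩ 0 0)) (.cut .d 104571 (.pos 28 .pp ⟨⟨631396311, 0, 0, 0, 0, 0, 0, 0, 0, ⟨0, 0⟩, 0⟩, 0, 0⟩ 0 0) (.pos 28 .pp ⟨⟨16872246, 0, 0, 0, 0, 0, 7227, 0, 0, ⟨0, 0⟩, 0⟩, 43275862, 0⟩ 0 0))) (.pos 25 .pp ⟨⟨0, 0, 0, 0, 0, 0, 161635, 0, 0, ⟨0, 0⟩,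 0⟩, 0, 0⟩ 0 0)) (.cut .d 209142 (.pos 26 .pp ⟨⟨0, 0, 0, 0, 0, 0, 0, 0, 0, ⟨0, 0⟩, 0⟩, 63583741, 0⟩ 0 0) (.pos 26 .pp ⟨⟨0, 0, 0, 0, 0, 0, 0, 0, 0, ⟨0, 0⟩, 0⟩, 47591315, 0⟩ 0 0))) (.pos 23 .pp ⟨⟨0, 0, 0, 0, 0, 0, 0, 0, 0, ⟨0, 0⟩, 0⟩, 26431342, 28508⟩ 0 0)) (.cut .d 418284 (.pos 24 .pp ⟨⟨0, 0, 0, 0, 0, 0, 0, 0, 0, ⟨0, 0⟩, 0⟩, 83035854, 0⟩ 0 0) (.pos 24 .pp ⟨⟨0, 0, 0, 0, 0, 0, 0, 0, 0, ⟨0, 0⟩, 0⟩, 60186864, 0⟩ 0 0))) (.pos 22 .pp ⟨⟨0, 0, 0, 0, 0, 0, 0, 0, 0, ⟨0, 0⟩, 0⟩, 23586369, 32400⟩ 0 0)) (.cut .d 836569 (.pos 123 .pp ⟨⟨0, 0, 0, 0, 0, 0, 0, 0, 0, ⟨0, 0⟩, 0⟩, 147648413, 0⟩ 0 0) (.pos 123 .pp ⟨⟨0, 0, 0, 0, 0, 0, 0, 0, 0, ⟨0, 0⟩,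 0⟩, 81324670, 0⟩ 0 0))) (.pos 122 .pp ⟨⟨0, 0, 0, 0, 0, 0, 0, 0, 0, ⟨0, 0⟩, 0⟩, 8071904, 53624⟩ 0 0)) (.pos 122 .pp ⟨⟨0, 193714174, 0, 0, 0, 0, 0, 0, 0, ⟨0, 0⟩, 0⟩, 0, 47551⟩ 0 0)) (.pos 142 .pp ⟨⟨0, 4093178899, 0, 0, 0, 0, 0, 0, 0, ⟨0, 0⟩, 0⟩, 455993153, 0⟩ 0 0)) (.void 145 ⟨⟨0, 0, 0, 0, 0, 0, 0, 0, 0, ⟨0, 0⟩, 0⟩, 100000, 0⟩ 0 0)))),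
    by decide +kernel⟩

def covers19 : cell.Covers Vale.Agent.P237.Petty.Cor.Grid.N19.table row19.1 :=
  ⟨(.cut .d 0 (.cut .v 16777216 (.cut .d (-8388608) (.void 1 ⟨⟨0, 0, 0, 0, 0, 100000, 0, 0, 0, ⟨0, 0⟩, 0⟩, 0, 0⟩ 0 0) (.cut .d (-4194304) (.void 1 ⟨⟨0, 0, 0, 0, 0, 100000, 0, 0, 0, ⟨0, 0⟩, 0⟩, 0, 0⟩ 0 0) (.cut .d (-2097152) (.void 1 ⟨⟨0, 0, 30, 0, 0, 99684, 0, 0, 0, ⟨0, 0⟩, 0⟩, 0, 0⟩ 0 0) (.cut .d (-1048576) (.void 1 ⟨⟨0, 0, 0, 0, 0, 100000, 0, 0, 0, ⟨0, 0⟩, 0⟩, 0, 0⟩ 0 0) (.cut .d (-524288) (.void 1 ⟨⟨0, 0, 0, 0, 0, 100000, 0, 0, 0, ⟨0, 0⟩, 0⟩, 0, 0⟩ 0 0) (.cut .d (-262144) (.void 1 ⟨⟨0, 0, 0, 0, 0, 100000, 0, 0, 0, ⟨0, 0⟩, 0⟩,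 0, 0⟩ 0 0) (.cut .d (-131072) (.void 1 ⟨⟨0, 0, 0, 0, 0, 100000, 0, 0, 0, ⟨0, 0⟩, 0⟩, 0, 0⟩ 0 0) (.cut .d (-65536) (.void 1 ⟨⟨0, 0, 0, 0, 0, 100000, 0, 0, 0, ⟨0, 0⟩, 0⟩, 0, 0⟩ 0 0) (.cut .d (-32768) (.void 1 ⟨⟨0, 0, 0, 0, 0, 100000, 0, 0, 0, ⟨0, 0⟩, 0⟩, 0, 0⟩ 0 0) (.cut .d (-16384) (.void 1 ⟨⟨0, 0, 0, 0, 0, 100000, 0, 0, 0, ⟨0, 0⟩, 0⟩, 0, 0⟩ 0 0) (.cut .v 8388608 (.cut .v 4194304 (.void 4 ⟨⟨0, 0, 100000, 0, 0, 0, 0, 0, 0, ⟨0, 0⟩, 0⟩, 0, 0⟩ 0 0) (.pos 5 .mm ⟨⟨0, 0, 9476727, 0, 0, 312119534, 0, 0, 0, ⟨0, 0⟩, 0⟩, 0, 0⟩ 0 0)) (.cut .s 12386304 (.pos 3 .mm ⟨⟨0, 0, 0, 0, 0, 831101707, 0, 0, 0, ⟨0, 0⟩, 0⟩, 0, 0⟩ 0 0) (.pos 3 .mm ⟨⟨0, 0,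 0, 0, 0, 910342193, 0, 0, 0, ⟨0, 0⟩, 0⟩, 0, 0⟩ 0 0))))))))))))) (.cut .v 268435456 (.cut .v 67108864 (.cut .v 33554432 (.cut .d (-8388608) (.void 22 ⟨⟨99946, 0, 0, 0, 0, 0, 0, 0, 0, ⟨0, 0⟩, 0⟩, 0, 0⟩ 0 0) (.cut .v 25165824 (.cut .d (-4194304) (.void 23 ⟨⟨100000, 0, 0, 0, 0, 0, 0, 0, 0, ⟨0, 0⟩, 0⟩, 0, 0⟩ 0 0) (.cut .v 20971520 (.cut .d (-2097152) (.void 25 ⟨⟨100000, 0, 0, 0, 0, 0, 0, 0, 0, ⟨0, 0⟩, 0⟩, 0, 0⟩ 0 0) (.cut .v 18874368 (.cut .d (-1048576) (.void 27 ⟨⟨100000, 0, 0, 0, 0, 0, 0, 0, 0, ⟨0, 0⟩, 0⟩, 0, 0⟩ 0 0) (.cut .v 17825792 (.cut .d (-524288) (.void 29 ⟨⟨100000, 0, 0, 0, 0, 0, 0, 0, 0, ⟨0, 0⟩, 0⟩, 0, 0⟩ 0 0) (.cut .d (-262144)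 (.void 29 ⟨⟨100000, 0, 0, 0, 0, 0, 0, 0, 0, ⟨0, 0⟩, 0⟩, 0, 0⟩ 0 0) (.cut .d (-131072) (.void 29 ⟨⟨100000, 0, 0, 0, 0, 0, 0, 0, 0, ⟨0, 0⟩, 0⟩, 0, 0⟩ 0 0) (.cut .d (-65536) (.void 29 ⟨⟨100000, 0, 0, 0, 0, 0, 0, 0, 0, ⟨0, 0⟩, 0⟩, 0, 0⟩ 0 0) (.cut .d (-32768) (.void 29 ⟨⟨100000, 0, 0, 0, 0, 0, 0, 0, 0, ⟨0, 0⟩, 0⟩, 0, 0⟩ 0 0) (.cut .d (-16384) (.void 29 ⟨⟨100000, 0, 0, 0, 0, 0, 0, 0, 0, ⟨0, 0⟩, 0⟩, 0, 0⟩ 0 0) (.cut .v 17301504 (.cut .v 17039360 (.cut .v 16908288 (.cut .d (-8192) (.pos 35 .mp ⟨⟨392266581, 0, 0, 0, 0, 1094270192, 0, 0, 0, ⟨0, 0⟩, 0⟩, 0, 0⟩ 0 0) (.cut .s 12386304 (.cut .v 16842752 (.cut .s 12320768 (.cut .v 16809984 (.cut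 .s 12288000 (.cut .s 12271616 (.cut .s 12263424 (.pos 47 .mp ⟨⟨396560728, 0, 0, 0, 0, 175423900, 0, 0, 0, ⟨0, 0⟩, 0⟩, 0, 0⟩ 0 0) (.pos 47 .mp ⟨⟨398789523, 0, 0, 0, 0, 175972435, 0, 0, 0, ⟨0, 0⟩, 0⟩, 0, 0⟩ 0 0)) (.cut .d (-4096) (.pos 47 .mp ⟨⟨395070573, 0, 0, 0, 0, 191807745, 0, 0, 0, ⟨0, 0⟩, 0⟩, 0, 0⟩ 0 0) (.cut .s 12279808 (.pos 47 .mp ⟨⟨397254812, 0, 0, 0, 0, 182474067, 0, 0, 0, ⟨0, 0⟩, 0⟩, 0, 0⟩ 0 0) (.pos 47 .mp ⟨⟨399714329, 0, 0, 0, 0, 182636973, 0, 0, 0, ⟨0, 0⟩, 0⟩, 0, 0⟩ 0 0)))) (.cut .s 12304384 (.cut .v 16793600 (.cut .s 12296192 (.pos 51 .mp ⟨⟨397820047, 0, 0, 0, 0, 190361434, 0, 0, 0, ⟨0, 0⟩, 0⟩, 0, 0⟩ 0 0) (.cut .s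 12300288 (.pos 51 .mp ⟨⟨408639599, 0, 0, 0, 0, 176031751, 0, 0, 0, ⟨0, 0⟩, 0⟩, 0, 0⟩ 0 0) (.pos 51 .mp ⟨⟨409412404, 0, 0, 0, 0, 176924384, 0, 0, 0, ⟨0, 0⟩, 0⟩, 0, 0⟩ 0 0))) (.pos 52 .mp ⟨⟨460433575, 0, 0, 0, 0, 94759660, 0, 0, 0, ⟨0, 0⟩, 0⟩, 0, 0⟩ 0 0)) (.cut .s 12312576 (.cut .s 12308480 (.pos 47 .mp ⟨⟨408997191, 0, 0, 0, 0, 179695338, 0, 0, 0, ⟨0, 0⟩, 0⟩, 0, 0⟩ 0 0) (.pos 47 .mp ⟨⟨410149551, 0, 0, 0, 0, 180009970, 0, 0, 0, ⟨0, 0⟩, 0⟩, 0, 0⟩ 0 0)) (.cut .s 12316672 (.pos 47 .mp ⟨⟨411305580, 0, 0, 0, 0, 180327914, 0, 0, 0, ⟨0, 0⟩, 0⟩, 0, 0⟩ 0 0) (.pos 47 .mp ⟨⟨412465288, 0, 0, 0, 0, 180649162, 0, 0, 0, ⟨0, 0⟩, 0⟩, 0, 0⟩ 0 0)))))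 (.pos 48 .mp ⟨⟨520143870, 0, 0, 0, 0, 0, 0, 0, 0, ⟨0, 0⟩, 0⟩, 0, 0⟩ 0 0)) (.cut .v 16809984 (.cut .s 12353536 (.cut .s 12337152 (.cut .s 12328960 (.cut .s 12324864 (.pos 47 .mp ⟨⟨413628683, 0, 0, 0, 0, 180973702, 0, 0, 0, ⟨0, 0⟩, 0⟩, 0, 0⟩ 0 0) (.pos 47 .mp ⟨⟨414795776, 0, 0, 0, 0, 181301526, 0, 0, 0, ⟨0, 0⟩, 0⟩, 0, 0⟩ 0 0)) (.cut .s 12333056 (.pos 47 .mp ⟨⟨415966577, 0, 0, 0, 0, 181632625, 0, 0, 0, ⟨0, 0⟩, 0⟩, 0, 0⟩ 0 0) (.pos 47 .mp ⟨⟨417141094, 0, 0, 0, 0, 181966987, 0, 0, 0, ⟨0, 0⟩, 0⟩, 0, 0⟩ 0 0))) (.cut .s 12345344 (.cut .s 12341248 (.pos 47 .mp ⟨⟨418319338, 0, 0, 0, 0, 182304603, 0, 0, 0, ⟨0, 0⟩, 0⟩, 0, 0⟩ 0 0) (.pos 47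 .mp ⟨⟨419501318, 0, 0, 0, 0, 182645464, 0, 0, 0, ⟨0, 0⟩, 0⟩, 0, 0⟩ 0 0)) (.cut .s 12349440 (.pos 47 .mp ⟨⟨420687044, 0, 0, 0, 0, 182989559, 0, 0, 0, ⟨0, 0⟩, 0⟩, 0, 0⟩ 0 0) (.pos 47 .mp ⟨⟨421876525, 0, 0, 0, 0, 183336877, 0, 0, 0, ⟨0, 0⟩, 0⟩, 0, 0⟩ 0 0)))) (.cut .s 12369920 (.cut .s 12361728 (.cut .s 12357632 (.pos 47 .mp ⟨⟨423069772, 0, 0, 0, 0, 183687410, 0, 0, 0, ⟨0, 0⟩, 0⟩, 0, 0⟩ 0 0) (.pos 47 .mp ⟨⟨424266794, 0, 0, 0, 0, 184041146, 0, 0, 0, ⟨0, 0⟩, 0⟩, 0, 0⟩ 0 0)) (.cut .s 12365824 (.pos 47 .mp ⟨⟨425467601, 0, 0, 0, 0, 184398075, 0, 0, 0, ⟨0, 0⟩, 0⟩, 0, 0⟩ 0 0) (.cut .s 12367872 (.pos 47 .mp ⟨⟨426069427, 0, 0, 0, 0, 185160706,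 0, 0, 0, ⟨0, 0⟩, 0⟩, 0, 0⟩ 0 0) (.pos 47 .mp ⟨⟨426672203, 0, 0, 0, 0, 185342465, 0, 0, 0, ⟨0, 0⟩, 0⟩, 0, 0⟩ 0 0)))) (.cut .s 12378112 (.cut .d (-4096) (.pos 47 .mp ⟨⟨421086206, 0, 0, 0, 0, 199995295, 0, 0, 0, ⟨0, 0⟩, 0⟩, 0, 0⟩ 0 0) (.cut .s 12374016 (.pos 47 .mp ⟨⟨423684901, 0, 0, 0, 0, 191775476, 0, 0, 0, ⟨0, 0⟩, 0⟩, 0, 0⟩ 0 0) (.pos 47 .mp ⟨⟨424915996, 0, 0, 0, 0, 192098712, 0, 0, 0, ⟨0, 0⟩, 0⟩, 0, 0⟩ 0 0))) (.cut .d (-4096) (.pos 47 .mp ⟨⟨423322120, 0, 0, 0, 0, 201092461, 0, 0, 0, ⟨0, 0⟩, 0⟩, 0, 0⟩ 0 0) (.cut .s 12382208 (.pos 47 .mp ⟨⟨426147214, 0, 0, 0, 0, 192432463, 0, 0, 0, ⟨0, 0⟩, 0⟩, 0, 0⟩ 0 0) (.pos 47 .mp ⟨⟨427378516,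 0, 0, 0, 0, 192776820, 0, 0, 0, ⟨0, 0⟩, 0⟩, 0, 0⟩ 0 0)))))) (.pos 48 .mp ⟨⟨541644976, 0, 0, 0, 0, 0, 0, 0, 0, ⟨0, 0⟩, 0⟩, 0, 0⟩ 0 0))) (.pos 46 .mp ⟨⟨537370248, 0, 0, 0, 0, 0, 0, 0, 0, ⟨0, 0⟩, 0⟩, 0, 0⟩ 0 0)) (.cut .v 16842752 (.cut .s 12451840 (.cut .v 16809984 (.cut .s 12419072 (.cut .s 12402688 (.cut .s 12394496 (.cut .d (-4096) (.pos 47 .mp ⟨⟨425608339, 0, 0, 0, 0, 202142343, 0, 0, 0, ⟨0, 0⟩, 0⟩, 0, 0⟩ 0 0) (.cut .s 12390400 (.pos 47 .mp ⟨⟨428609862, 0, 0, 0, 0, 193131876, 0, 0, 0, ⟨0, 0⟩, 0⟩, 0, 0⟩ 0 0) (.pos 47 .mp ⟨⟨429841213, 0, 0, 0, 0, 193497721, 0, 0, 0, ⟨0, 0⟩, 0⟩, 0, 0⟩ 0 0))) (.cut .d (-4096) (.pos 47 .mp ⟨⟨427945641,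 0, 0, 0, 0, 203143583, 0, 0, 0, ⟨0, 0⟩, 0⟩, 0, 0⟩ 0 0) (.cut .s 12398592 (.pos 47 .mp ⟨⟨431072528, 0, 0, 0, 0, 193874448, 0, 0, 0, ⟨0, 0⟩, 0⟩, 0, 0⟩ 0 0) (.pos 47 .mp ⟨⟨432303767, 0, 0, 0, 0, 194262150, 0, 0, 0, ⟨0, 0⟩, 0⟩, 0, 0⟩ 0 0)))) (.cut .s 12410880 (.cut .d (-4096) (.pos 47 .mp ⟨⟨430334805, 0, 0, 0, 0, 204094816, 0, 0, 0, ⟨0, 0⟩, 0⟩, 0, 0⟩ 0 0) (.cut .s 12406784 (.pos 47 .mp ⟨⟨433534889, 0, 0, 0, 0, 194660922, 0, 0, 0, ⟨0, 0⟩, 0⟩, 0, 0⟩ 0 0) (.pos 47 .mp ⟨⟨434765853, 0, 0, 0, 0, 195070856, 0, 0, 0, ⟨0, 0⟩, 0⟩, 0, 0⟩ 0 0))) (.cut .d (-4096) (.pos 47 .mp ⟨⟨432776618, 0, 0, 0, 0, 204994666, 0, 0, 0, ⟨0, 0⟩, 0⟩, 0, 0⟩ 0 0) (.cut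 .s 12414976 (.pos 47 .mp ⟨⟨435996618, 0, 0, 0, 0, 195492048, 0, 0, 0, ⟨0, 0⟩, 0⟩, 0, 0⟩ 0 0) (.pos 47 .mp ⟨⟨437227142, 0, 0, 0, 0, 195924593, 0, 0, 0, ⟨0, 0⟩, 0⟩, 0, 0⟩ 0 0))))) (.cut .s 12435456 (.cut .s 12427264 (.cut .d (-4096) (.pos 47 .mp ⟨⟨435271866, 0, 0, 0, 0, 205841751, 0, 0, 0, ⟨0, 0⟩, 0⟩, 0, 0⟩ 0 0) (.cut .s 12423168 (.pos 47 .mp ⟨⟨438457383, 0, 0, 0, 0, 196368587, 0, 0, 0, ⟨0, 0⟩, 0⟩, 0, 0⟩ 0 0) (.pos 47 .mp ⟨⟨439687300, 0, 0, 0, 0, 196824126, 0, 0, 0, ⟨0, 0⟩, 0⟩, 0, 0⟩ 0 0))) (.cut .d (-4096) (.pos 47 .mp ⟨⟨437821342, 0, 0, 0, 0, 206634678, 0, 0, 0, ⟨0, 0⟩, 0⟩, 0, 0⟩ 0 0) (.cut .s 12431360 (.pos 47 .mp ⟨⟨440916850,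 0, 0, 0, 0, 197291308, 0, 0, 0, ⟨0, 0⟩, 0⟩, 0, 0⟩ 0 0) (.pos 47 .mp ⟨⟨442145990, 0, 0, 0, 0, 197770230, 0, 0, 0, ⟨0, 0⟩, 0⟩, 0, 0⟩ 0 0)))) (.cut .s 12443648 (.cut .d (-4096) (.pos 47 .mp ⟨⟨440425843, 0, 0, 0, 0, 207372046, 0, 0, 0, ⟨0, 0⟩, 0⟩, 0, 0⟩ 0 0) (.cut .s 12439552 (.pos 47 .mp ⟨⟨443374677, 0, 0, 0, 0, 198260991, 0, 0, 0, ⟨0, 0⟩, 0⟩, 0, 0⟩ 0 0) (.pos 47 .mp ⟨⟨444602869, 0, 0, 0, 0, 198763688, 0, 0, 0, ⟨0, 0⟩, 0⟩, 0, 0⟩ 0 0))) (.cut .d (-4096) (.pos 47 .mp ⟨⟨443086170, 0, 0, 0, 0, 208052444, 0, 0, 0, ⟨0, 0⟩, 0⟩, 0, 0⟩ 0 0) (.cut .s 12447744 (.pos 47 .mp ⟨⟨445830522, 0, 0, 0, 0, 199278423, 0, 0, 0, ⟨0, 0⟩, 0⟩, 0, 0⟩ 0 0) (.pos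 47 .mp ⟨⟨447057592, 0, 0, 0, 0, 199805294, 0, 0, 0, ⟨0, 0⟩, 0⟩, 0, 0⟩ 0 0)))))) (.pos 48 .mp ⟨⟨564602792, 0, 0, 0, 0, 0, 0, 0, 0, ⟨0, 0⟩, 0⟩, 0, 0⟩ 0 0)) (.cut .v 16809984 (.cut .s 12484608 (.cut .s 12468224 (.cut .s 12460032 (.cut .s 12455936 (.cut .s 12453888 (.pos 47 .mp ⟨⟨452219576, 0, 0, 0, 0, 193462751, 0, 0, 0, ⟨0, 0⟩, 0⟩, 0, 0⟩ 0 0) (.pos 47 .mp ⟨⟨452863403, 0, 0, 0, 0, 193676682, 0, 0, 0, ⟨0, 0⟩, 0⟩, 0, 0⟩ 0 0)) (.pos 47 .mp ⟨⟨454154074, 0, 0, 0, 0, 193464014, 0, 0, 0, ⟨0, 0⟩, 0⟩, 0, 0⟩ 0 0)) (.cut .s 12464128 (.pos 47 .mp ⟨⟨455448778, 0, 0, 0, 0, 193894303, 0, 0, 0, ⟨0, 0⟩, 0⟩, 0, 0⟩ 0 0) (.pos 47 .mp ⟨⟨456747526, 0,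 0, 0, 0, 194327503, 0, 0, 0, ⟨0, 0⟩, 0⟩, 0, 0⟩ 0 0))) (.cut .s 12476416 (.cut .s 12472320 (.pos 47 .mp ⟨⟨458050330, 0, 0, 0, 0, 194763604, 0, 0, 0, ⟨0, 0⟩, 0⟩, 0, 0⟩ 0 0) (.pos 47 .mp ⟨⟨459357198, 0, 0, 0, 0, 195202592, 0, 0, 0, ⟨0, 0⟩, 0⟩, 0, 0⟩ 0 0)) (.cut .s 12480512 (.pos 47 .mp ⟨⟨460668144, 0, 0, 0, 0, 195644455, 0, 0, 0, ⟨0, 0⟩, 0⟩, 0, 0⟩ 0 0) (.pos 47 .mp ⟨⟨461983177, 0, 0, 0, 0, 196089181, 0, 0, 0, ⟨0, 0⟩, 0⟩, 0, 0⟩ 0 0)))) (.cut .s 12500992 (.cut .s 12492800 (.cut .s 12488704 (.pos 47 .mp ⟨⟨463302310, 0, 0, 0, 0, 196536757, 0, 0, 0, ⟨0, 0⟩, 0⟩, 0, 0⟩ 0 0) (.pos 47 .mp ⟨⟨464625552, 0, 0, 0, 0, 196987170, 0, 0, 0, ⟨0, 0⟩,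 0⟩, 0, 0⟩ 0 0)) (.cut .s 12496896 (.pos 47 .mp ⟨⟨465952915, 0, 0, 0, 0, 197440408, 0, 0, 0, ⟨0, 0⟩, 0⟩, 0, 0⟩ 0 0) (.pos 47 .mp ⟨⟨467284410, 0, 0, 0, 0, 197896458, 0, 0, 0, ⟨0, 0⟩, 0⟩, 0, 0⟩ 0 0))) (.cut .s 12509184 (.cut .s 12505088 (.pos 47 .mp ⟨⟨468620048, 0, 0, 0, 0, 198355308, 0, 0, 0, ⟨0, 0⟩, 0⟩, 0, 0⟩ 0 0) (.pos 47 .mp ⟨⟨469959842, 0, 0, 0, 0, 198816943, 0, 0, 0, ⟨0, 0⟩, 0⟩, 0, 0⟩ 0 0)) (.cut .s 12513280 (.pos 47 .mp ⟨⟨471303801, 0, 0, 0, 0, 199281352, 0, 0, 0, ⟨0, 0⟩, 0⟩, 0, 0⟩ 0 0) (.pos 47 .mp ⟨⟨472651937, 0, 0, 0, 0, 199748520, 0, 0, 0, ⟨0, 0⟩, 0⟩, 0, 0⟩ 0 0))))) (.pos 48 .mp ⟨⟨589024782, 0, 0, 0, 0, 0, 0, 0, 0, ⟨0,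 0⟩, 0⟩, 0, 0⟩ 0 0))) (.pos 46 .mp ⟨⟨583684496, 0, 0, 0, 0, 0, 0, 0, 0, ⟨0, 0⟩, 0⟩, 0, 0⟩ 0 0)))) (.pos 36 .mp ⟨⟨594920226, 0, 0, 0, 0, 0, 0, 0, 0, ⟨0, 0⟩, 0⟩, 0, 0⟩ 0 0)) (.void 34 ⟨⟨100000, 0, 0, 0, 0, 0, 0, 0, 0, ⟨0, 0⟩, 0⟩, 0, 0⟩ 0 0)) (.void 32 ⟨⟨100000, 0, 0, 0, 0, 0, 0, 0, 0, ⟨0, 0⟩, 0⟩, 0, 0⟩ 0 0)))))))) (.void 30 ⟨⟨100000, 0, 0, 0, 0, 0, 0, 0, 0, ⟨0, 0⟩, 0⟩, 0, 0⟩ 0 0))) (.void 28 ⟨⟨100000, 0, 0, 0, 0, 0, 0, 0, 0, ⟨0, 0⟩, 0⟩, 0, 0⟩ 0 0))) (.void 26 ⟨⟨100000, 0, 0, 0, 0, 0, 0, 0, 0, ⟨0, 0⟩, 0⟩, 0, 0⟩ 0 0))) (.void 24 ⟨⟨100000, 0, 0, 0, 0, 0, 0, 0, 0, ⟨0, 0⟩, 0⟩, 0, 0⟩ 0 0))) (.void 123 ⟨⟨100000, 0, 0, 0, 0, 0, 0, 0, 0, ⟨0,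 0⟩, 0⟩, 0, 0⟩ 0 0)) (.void 142 ⟨⟨100000, 0, 0, 0, 0, 0, 0, 0, 0, ⟨0, 0⟩, 0⟩, 0, 0⟩ 0 0)) (.void 145 ⟨⟨96424, 0, 0, 3576, 0, 0, 0, 0, 0, ⟨0, 0⟩, 0⟩, 0, 0⟩ 0 0))) (.cut .v 16777216 (.cut .v 8388608 (.cut .v 4194304 (.cut .d 3095263 (.pos 4 .pm ⟨⟨0, 0, 687073162, 0, 0, 0, 0, 0, 0, ⟨0, 0⟩, 0⟩, 0, 9653⟩ 0 0) (.cut .v 2097152 (.cut .v 1048576 (.cut .v 524288 (.pos 150 .pm ⟨⟨0, 0, 12730875, 0, 0, 0, 0, 0, 0, ⟨0, 0⟩, 0⟩, 0, 1379⟩ 0 0) (.pos 151 .pm ⟨⟨0, 8858179, 0, 0, 0, 0, 0, 0, 0, ⟨0, 0⟩, 0⟩, 0, 3975⟩ 0 0)) (.pos 149 .pm ⟨⟨0, 33423683, 0, 0, 0, 0, 0, 0, 0, ⟨0, 0⟩, 0⟩, 0, 5590⟩ 0 0)) (.cut .d 4642894 (.pos 7 .pm ⟨⟨0, 0, 0, 0, 0, 0, 0,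 0, 0, ⟨0, 0⟩, 0⟩, 0, 7508⟩ 0 0) (.pos 7 .pm ⟨⟨0, 114753907, 0, 0, 0, 0, 0, 0, 0, ⟨0, 0⟩, 0⟩, 0, 10559⟩ 0 0)))) (.cut .d 3095263 (.pos 5 .pm ⟨⟨0, 0, 9358439, 0, 0, 0, 0, 0, 0, ⟨0, 0⟩, 0⟩, 0, 0⟩ 0 0) (.cut .d 4642894 (.pos 5 .pm ⟨⟨0, 0, 0, 0, 0, 0, 0, 0, 0, ⟨0, 0⟩, 0⟩, 0, 13514⟩ 0 0) (.pos 5 .pm ⟨⟨0, 176077547, 0, 0, 0, 0, 0, 0, 0, ⟨0, 0⟩, 0⟩, 0, 16893⟩ 0 0)))) (.cut .d 3095263 (.pos 3 .pm ⟨⟨0, 0, 0, 0, 0, 0, 0, 0, 0, ⟨0, 0⟩, 0⟩, 0, 0⟩ 0 0) (.pos 3 .pm ⟨⟨0, 197633598, 0, 0, 0, 0, 0, 0, 0, ⟨0, 0⟩, 0⟩, 0, 22524⟩ 0 0))) (.cut .v 268435456 (.cut .v 67108864 (.cut .d 3095263 (.cut .d 1547631 (.cut .v 33554432 (.cut .d 773815 (.cut .v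 25165824 (.cut .d 386907 (.cut .v 20971520 (.cut .d 193453 (.cut .v 18874368 (.cut .d 96726 (.cut .v 17825792 (.cut .s 12386304 (.pos 29 .pp ⟨⟨315195025, 0, 0, 0, 0, 0, 0, 0, 0, ⟨0, 0⟩, 0⟩, 17101782, 0⟩ 0 0) (.pos 29 .pp ⟨⟨362909881, 0, 0, 0, 0, 0, 0, 0, 0, ⟨0, 0⟩, 0⟩, 16705610, 0⟩ 0 0)) (.pos 30 .pp ⟨⟨601127622, 0, 0, 0, 0, 0, 0, 0, 0, ⟨0, 0⟩, 0⟩, 0, 0⟩ 0 0)) (.pos 27 .pp ⟨⟨0, 0, 0, 0, 0, 0, 0, 0, 0, ⟨0, 0⟩, 0⟩, 0, 50311⟩ 0 0)) (.cut .d 96726 (.pos 28 .pp ⟨⟨747083535, 0, 0, 0, 0, 0, 0, 0, 0, ⟨0, 0⟩, 0⟩, 0, 0⟩ 0 0) (.pos 28 .pp ⟨⟨0, 0, 0, 0, 0, 0, 5564, 0, 0, ⟨0, 0⟩, 0⟩, 52849308, 0⟩ 0 0))) (.pos 25 .pp ⟨⟨0, 0, 0, 0, 0, 0, 118777,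 0, 0, ⟨0, 0⟩, 0⟩, 0, 0⟩ 0 0)) (.cut .d 193453 (.pos 26 .pp ⟨⟨0, 0, 0, 0, 0, 0, 0, 0, 0, ⟨0, 0⟩, 0⟩, 75238646, 0⟩ 0 0) (.pos 26 .pp ⟨⟨0, 0, 0, 0, 0, 0, 0, 0, 0, ⟨0, 0⟩, 0⟩, 56232924, 0⟩ 0 0))) (.pos 23 .pp ⟨⟨0, 0, 0, 0, 0, 0, 0, 0, 0, ⟨0, 0⟩, 0⟩, 30859835, 21215⟩ 0 0)) (.cut .d 386907 (.pos 24 .pp ⟨⟨0, 0, 0, 0, 0, 0, 0, 0, 0, ⟨0, 0⟩, 0⟩, 97884724, 0⟩ 0 0) (.pos 24 .pp ⟨⟨0, 0, 0, 0, 0, 0, 0, 0, 0, ⟨0, 0⟩, 0⟩, 61215562, 0⟩ 0 0))) (.pos 22 .pp ⟨⟨0, 0, 0, 0, 0, 0, 0, 0, 0, ⟨0, 0⟩, 0⟩, 26270789, 25126⟩ 0 0)) (.cut .d 773815 (.pos 123 .pp ⟨⟨0, 0, 0, 0, 0, 0, 0, 0, 0, ⟨0, 0⟩, 0⟩, 172684743, 0⟩ 0 0) (.pos 123 .pp ⟨⟨0, 0, 0, 0, 0, 0, 0,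 0, 0, ⟨0, 0⟩, 0⟩, 94304883, 0⟩ 0 0))) (.pos 122 .pp ⟨⟨0, 0, 0, 0, 0, 0, 0, 0, 0, ⟨0, 0⟩, 0⟩, 7613531, 41027⟩ 0 0)) (.pos 122 .pp ⟨⟨0, 277319872, 0, 0, 0, 0, 0, 0, 0, ⟨0, 0⟩, 0⟩, 0, 33786⟩ 0 0)) (.pos 142 .pp ⟨⟨0, 4889079402, 0, 0, 0, 0, 0, 0, 0, ⟨0, 0⟩, 0⟩, 526360506, 0⟩ 0 0)) (.void 145 ⟨⟨0, 0, 0, 0, 0, 0, 0, 0, 0, ⟨0, 0⟩, 0⟩, 100000, 0⟩ 0 0)))),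
    by decide +kernel⟩

def covers20 : cell.Covers Vale.Agent.P237.Petty.Cor.Grid.N19.table row20.1 :=
  ⟨(.cut .d 0 (.cut .v 16777216 (.cut .d (-8388608) (.void 1 ⟨⟨0, 0, 0, 0, 0, 100000, 0, 0, 0, ⟨0, 0⟩, 0⟩, 0, 0⟩ 0 0) (.cut .d (-4194304) (.pos 1 .mm ⟨⟨0, 0, 0, 0, 0, 1677721600000000, 0, 0, 0, ⟨0, 0⟩, 0⟩, 0, 0⟩ 0 0) (.cut .d (-2097152) (.void 1 ⟨⟨0, 0, 0, 0, 0, 100000, 0, 0, 0, ⟨0, 0⟩, 0⟩, 0, 0⟩ 0 0) (.cut .d (-1048576) (.void 1 ⟨⟨0, 0, 0, 0, 0, 100000, 0, 0, 0, ⟨0, 0⟩, 0⟩, 0, 0⟩ 0 0) (.cut .d (-524288) (.void 1 ⟨⟨0, 0, 0, 0, 0, 100000, 0, 0, 0, ⟨0, 0⟩, 0⟩, 0, 0⟩ 0 0) (.cut .d (-262144) (.void 1 ⟨⟨0, 0, 0, 0, 0, 100000, 0, 0,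 0, ⟨0, 0⟩, 0⟩, 0, 0⟩ 0 0) (.cut .d (-131072) (.void 1 ⟨⟨0, 0, 0, 0, 0, 100000, 0, 0, 0, ⟨0, 0⟩, 0⟩, 0, 0⟩ 0 0) (.cut .d (-65536) (.void 1 ⟨⟨0, 0, 0, 0, 0, 100000, 0, 0, 0, ⟨0, 0⟩, 0⟩, 0, 0⟩ 0 0) (.cut .d (-32768) (.void 1 ⟨⟨0, 0, 0, 0, 0, 100000, 0, 0, 0, ⟨0, 0⟩, 0⟩, 0, 0⟩ 0 0) (.cut .d (-16384) (.void 1 ⟨⟨0, 0, 0, 0, 0, 100000, 0, 0, 0, ⟨0, 0⟩, 0⟩, 0, 0⟩ 0 0) (.cut .d (-8192) (.void 1 ⟨⟨0, 0, 0, 0, 0, 100000, 0, 0, 0, ⟨0, 0⟩, 0⟩, 0, 0⟩ 0 0) (.cut .v 8388608 (.cut .v 4194304 (.void 4 ⟨⟨0, 0, 100000, 0, 0, 0, 0, 0, 0, ⟨0, 0⟩, 0⟩, 0, 0⟩ 0 0) (.pos 5 .mm ⟨⟨0, 0, 11750645, 0, 0, 375032059, 0, 0, 0, ⟨0, 0⟩, 0⟩, 0, 0⟩ 0 0)) (.cut .s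 12615680 (.pos 3 .mm ⟨⟨0, 0, 0, 0, 0, 995286542, 0, 0, 0, ⟨0, 0⟩, 0⟩, 0, 0⟩ 0 0) (.pos 3 .mm ⟨⟨0, 0, 0, 0, 0, 1067041383, 0, 0, 0, ⟨0, 0⟩, 0⟩, 0, 0⟩ 0 0)))))))))))))) (.cut .v 268435456 (.cut .v 67108864 (.cut .v 33554432 (.cut .d (-8388608) (.void 22 ⟨⟨100014, 0, 0, 0, 0, 0, 0, 0, 0, ⟨0, 0⟩, 0⟩, 0, 0⟩ 0 0) (.cut .v 25165824 (.cut .d (-4194304) (.void 23 ⟨⟨100000, 0, 0, 0, 0, 0, 0, 0, 0, ⟨0, 0⟩, 0⟩, 0, 0⟩ 0 0) (.cut .v 20971520 (.cut .d (-2097152) (.void 25 ⟨⟨100000, 0, 0, 0, 0, 0, 0, 0, 0, ⟨0, 0⟩, 0⟩, 0, 0⟩ 0 0) (.cut .v 18874368 (.cut .d (-1048576) (.void 27 ⟨⟨100000, 0, 0, 0, 0, 0, 0, 0, 0, ⟨0, 0⟩, 0⟩, 0, 0⟩ 0 0) (.cut .d (-524288)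 (.void 27 ⟨⟨100000, 0, 0, 0, 0, 0, 0, 0, 0, ⟨0, 0⟩, 0⟩, 0, 0⟩ 0 0) (.cut .v 17825792 (.cut .d (-262144) (.void 29 ⟨⟨100000, 0, 0, 0, 0, 0, 0, 0, 0, ⟨0, 0⟩, 0⟩, 0, 0⟩ 0 0) (.cut .d (-131072) (.void 29 ⟨⟨100000, 0, 0, 0, 0, 0, 0, 0, 0, ⟨0, 0⟩, 0⟩, 0, 0⟩ 0 0) (.cut .d (-65536) (.void 29 ⟨⟨100000, 0, 0, 0, 0, 0, 0, 0, 0, ⟨0, 0⟩, 0⟩, 0, 0⟩ 0 0) (.cut .d (-32768) (.void 29 ⟨⟨100000, 0, 0, 0, 0, 0, 0, 0, 0, ⟨0, 0⟩, 0⟩, 0, 0⟩ 0 0) (.cut .d (-16384) (.void 29 ⟨⟨100000, 0, 0, 0, 0, 0, 0, 0, 0, ⟨0, 0⟩, 0⟩, 0, 0⟩ 0 0) (.cut .d (-8192) (.void 29 ⟨⟨0, 0, 0, 0, 0, 100000, 0, 0, 0, ⟨0, 0⟩, 0⟩, 0, 0⟩ 0 0) (.cut .v 17301504 (.cut .v 17039360 (.cut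 .v 16908288 (.cut .v 16842752 (.cut .s 12615680 (.cut .s 12566528 (.cut .v 16809984 (.cut .s 12541952 (.cut .s 12529664 (.cut .s 12523520 (.pos 47 .mp ⟨⟨474678187, 0, 0, 0, 0, 199772177, 0, 0, 0, ⟨0, 0⟩, 0⟩, 0, 0⟩ 0 0) (.cut .s 12526592 (.pos 47 .mp ⟨⟨476174843, 0, 0, 0, 0, 200207777, 0, 0, 0, ⟨0, 0⟩, 0⟩, 0, 0⟩ 0 0) (.pos 47 .mp ⟨⟨476960488, 0, 0, 0, 0, 200851436, 0, 0, 0, ⟨0, 0⟩, 0⟩, 0, 0⟩ 0 0))) (.cut .d (-4096) (.pos 47 .mp ⟨⟨471589301, 0, 0, 0, 0, 218384942, 0, 0, 0, ⟨0, 0⟩, 0⟩, 0, 0⟩ 0 0) (.cut .s 12535808 (.pos 47 .mp ⟨⟨473980571, 0, 0, 0, 0, 208441070, 0, 0, 0, ⟨0, 0⟩, 0⟩, 0, 0⟩ 0 0) (.pos 47 .mp ⟨⟨476170025, 0, 0, 0, 0,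 208717420, 0, 0, 0, ⟨0, 0⟩, 0⟩, 0, 0⟩ 0 0)))) (.cut .s 12554240 (.cut .d (-4096) (.pos 47 .mp ⟨⟨475000070, 0, 0, 0, 0, 220805699, 0, 0, 0, ⟨0, 0⟩, 0⟩, 0, 0⟩ 0 0) (.cut .s 12548096 (.pos 47 .mp ⟨⟨478361009, 0, 0, 0, 0, 209019944, 0, 0, 0, ⟨0, 0⟩, 0⟩, 0, 0⟩ 0 0) (.pos 47 .mp ⟨⟨480448472, 0, 0, 0, 0, 209539812, 0, 0, 0, ⟨0, 0⟩, 0⟩, 0, 0⟩ 0 0))) (.cut .d (-4096) (.pos 47 .mp ⟨⟨478533739, 0, 0, 0, 0, 223121480, 0, 0, 0, ⟨0, 0⟩, 0⟩, 0, 0⟩ 0 0) (.cut .s 12560384 (.pos 47 .mp ⟨⟨482512923, 0, 0, 0, 0, 210130784, 0, 0, 0, ⟨0, 0⟩, 0⟩, 0, 0⟩ 0 0) (.pos 47 .mp ⟨⟨484587498, 0, 0, 0, 0, 210732674, 0, 0, 0, ⟨0, 0⟩, 0⟩, 0, 0⟩ 0 0))))) (.pos 48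 .mp ⟨⟨611248013, 0, 0, 0, 0, 0, 0, 0, 0, ⟨0, 0⟩, 0⟩, 0, 0⟩ 0 0)) (.cut .v 16809984 (.cut .s 12591104 (.cut .s 12578816 (.cut .d (-4096) (.pos 47 .mp ⟨⟨482193542, 0, 0, 0, 0, 225326639, 0, 0, 0, ⟨0, 0⟩, 0⟩, 0, 0⟩ 0 0) (.cut .s 12572672 (.pos 47 .mp ⟨⟨486672237, 0, 0, 0, 0, 211345470, 0, 0, 0, ⟨0, 0⟩, 0⟩, 0, 0⟩ 0 0) (.pos 47 .mp ⟨⟨488767182, 0, 0, 0, 0, 211969161, 0, 0, 0, ⟨0, 0⟩, 0⟩, 0, 0⟩ 0 0))) (.cut .d (-4096) (.pos 47 .mp ⟨⟨485982737, 0, 0, 0, 0, 227415470, 0, 0, 0, ⟨0, 0⟩, 0⟩, 0, 0⟩ 0 0) (.cut .s 12584960 (.pos 47 .mp ⟨⟨490872377, 0, 0, 0, 0, 212603734, 0, 0, 0, ⟨0, 0⟩, 0⟩, 0, 0⟩ 0 0) (.pos 47 .mp ⟨⟨492987862, 0, 0, 0, 0, 213249178,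 0, 0, 0, ⟨0, 0⟩, 0⟩, 0, 0⟩ 0 0)))) (.cut .s 12603392 (.cut .d (-4096) (.pos 47 .mp ⟨⟨489904608, 0, 0, 0, 0, 229382214, 0, 0, 0, ⟨0, 0⟩, 0⟩, 0, 0⟩ 0 0) (.cut .s 12597248 (.pos 47 .mp ⟨⟨495113682, 0, 0, 0, 0, 213905481, 0, 0, 0, ⟨0, 0⟩, 0⟩, 0, 0⟩ 0 0) (.pos 47 .mp ⟨⟨497249879, 0, 0, 0, 0, 214572628, 0, 0, 0, ⟨0, 0⟩, 0⟩, 0, 0⟩ 0 0))) (.cut .d (-4096) (.pos 47 .mp ⟨⟨493962467, 0, 0, 0, 0, 231221054, 0, 0, 0, ⟨0, 0⟩, 0⟩, 0, 0⟩ 0 0) (.cut .s 12609536 (.pos 47 .mp ⟨⟨499396497, 0, 0, 0, 0, 215250608, 0, 0, 0, ⟨0, 0⟩, 0⟩, 0, 0⟩ 0 0) (.pos 47 .mp ⟨⟨501553578, 0, 0, 0, 0, 215939407, 0, 0, 0, ⟨0, 0⟩, 0⟩, 0, 0⟩ 0 0))))) (.pos 48 .mp ⟨⟨630772095,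 0, 0, 0, 0, 0, 0, 0, 0, ⟨0, 0⟩, 0⟩, 0, 0⟩ 0 0))) (.cut .s 12664832 (.cut .v 16809984 (.cut .s 12640256 (.cut .s 12627968 (.cut .d (-4096) (.cut .s 12621824 (.pos 47 .mp ⟨⟨500430808, 0, 0, 0, 0, 225491678, 0, 0, 0, ⟨0, 0⟩, 0⟩, 0, 0⟩ 0 0) (.pos 47 .mp ⟨⟨502583600, 0, 0, 0, 0, 226268864, 0, 0, 0, ⟨0, 0⟩, 0⟩, 0, 0⟩ 0 0)) (.cut .s 12621824 (.pos 47 .mp ⟨⟨503721168, 0, 0, 0, 0, 216639011, 0, 0, 0, ⟨0, 0⟩, 0⟩, 0, 0⟩ 0 0) (.pos 47 .mp ⟨⟨505899309, 0, 0, 0, 0, 217349406, 0, 0, 0, ⟨0, 0⟩, 0⟩, 0, 0⟩ 0 0))) (.cut .d (-4096) (.pos 47 .mp ⟨⟨502499521, 0, 0, 0, 0, 234491454, 0, 0, 0, ⟨0, 0⟩, 0⟩, 0, 0⟩ 0 0) (.cut .s 12634112 (.pos 47 .mp ⟨⟨508088047,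 0, 0, 0, 0, 218070577, 0, 0, 0, ⟨0, 0⟩, 0⟩, 0, 0⟩ 0 0) (.pos 47 .mp ⟨⟨510287425, 0, 0, 0, 0, 218802510, 0, 0, 0, ⟨0, 0⟩, 0⟩, 0, 0⟩ 0 0)))) (.cut .s 12652544 (.cut .d (-4096) (.pos 47 .mp ⟨⟨506985474, 0, 0, 0, 0, 235911082, 0, 0, 0, ⟨0, 0⟩, 0⟩, 0, 0⟩ 0 0) (.cut .s 12646400 (.pos 47 .mp ⟨⟨512497490, 0, 0, 0, 0, 219545190, 0, 0, 0, ⟨0, 0⟩, 0⟩, 0, 0⟩ 0 0) (.pos 47 .mp ⟨⟨514718285, 0, 0, 0, 0, 220298601, 0, 0, 0, ⟨0, 0⟩, 0⟩, 0, 0⟩ 0 0))) (.cut .d (-4096) (.pos 47 .mp ⟨⟨511620928, 0, 0, 0, 0, 237178939, 0, 0, 0, ⟨0, 0⟩, 0⟩, 0, 0⟩ 0 0) (.cut .s 12658688 (.pos 47 .mp ⟨⟨516949857, 0, 0, 0, 0, 221062728, 0, 0, 0, ⟨0, 0⟩, 0⟩, 0, 0⟩ 0 0) (.pos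 47 .mp ⟨⟨519192251, 0, 0, 0, 0, 221837553, 0, 0, 0, ⟨0, 0⟩, 0⟩, 0, 0⟩ 0 0))))) (.pos 48 .mp ⟨⟨651295721, 0, 0, 0, 0, 0, 0, 0, 0, ⟨0, 0⟩, 0⟩, 0, 0⟩ 0 0)) (.cut .v 16809984 (.cut .s 12689408 (.cut .s 12677120 (.cut .d (-4096) (.pos 47 .mp ⟨⟨516409332, 0, 0, 0, 0, 238288906, 0, 0, 0, ⟨0, 0⟩, 0⟩, 0, 0⟩ 0 0) (.cut .s 12670976 (.pos 47 .mp ⟨⟨521445513, 0, 0, 0, 0, 222623061, 0, 0, 0, ⟨0, 0⟩, 0⟩, 0, 0⟩ 0 0) (.pos 47 .mp ⟨⟨523709689, 0, 0, 0, 0, 223419235, 0, 0, 0, ⟨0, 0⟩, 0⟩, 0, 0⟩ 0 0))) (.cut .d (-4096) (.pos 47 .mp ⟨⟨521354164, 0, 0, 0, 0, 239234799, 0, 0, 0, ⟨0, 0⟩, 0⟩, 0, 0⟩ 0 0) (.cut .s 12683264 (.pos 47 .mp ⟨⟨525984827, 0, 0,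 0, 0, 224226058, 0, 0, 0, ⟨0, 0⟩, 0⟩, 0, 0⟩ 0 0) (.pos 47 .mp ⟨⟨528270971, 0, 0, 0, 0, 225043511, 0, 0, 0, ⟨0, 0⟩, 0⟩, 0, 0⟩ 0 0)))) (.cut .s 12701696 (.cut .d (-4096) (.pos 47 .mp ⟨⟨519927332, 0, 0, 0, 0, 253178540, 0, 0, 0, ⟨0, 0⟩, 0⟩, 0, 0⟩ 0 0) (.cut .s 12695552 (.pos 47 .mp ⟨⟨530568171, 0, 0, 0, 0, 225871578, 0, 0, 0, ⟨0, 0⟩, 0⟩, 0, 0⟩ 0 0) (.pos 47 .mp ⟨⟨532876473, 0, 0, 0, 0, 226710238, 0, 0, 0, ⟨0, 0⟩, 0⟩, 0, 0⟩ 0 0))) (.cut .d (-4096) (.pos 47 .mp ⟨⟨524462426, 0, 0, 0, 0, 255267763, 0, 0, 0, ⟨0, 0⟩, 0⟩, 0, 0⟩ 0 0) (.cut .s 12707840 (.pos 47 .mp ⟨⟨535195924, 0, 0, 0, 0, 227559475, 0, 0, 0, ⟨0, 0⟩, 0⟩, 0, 0⟩ 0 0) (.pos 47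 .mp ⟨⟨537454944, 0, 0, 0, 0, 228550585, 0, 0, 0, ⟨0, 0⟩, 0⟩, 0, 0⟩ 0 0))))) (.pos 48 .mp ⟨⟨672822833, 0, 0, 0, 0, 0, 0, 0, 0, ⟨0, 0⟩, 0⟩, 0, 0⟩ 0 0)))) (.pos 46 .mp ⟨⟨655107931, 0, 0, 0, 0, 0, 0, 0, 0, ⟨0, 0⟩, 0⟩, 0, 0⟩ 0 0)) (.pos 36 .mp ⟨⟨670876079, 0, 0, 0, 0, 0, 0, 0, 0, ⟨0, 0⟩, 0⟩, 0, 0⟩ 0 0)) (.void 34 ⟨⟨100000, 0, 0, 0, 0, 0, 0, 0, 0, ⟨0, 0⟩, 0⟩, 0, 0⟩ 0 0)) (.void 32 ⟨⟨100000, 0, 0, 0, 0, 0, 0, 0, 0, ⟨0, 0⟩, 0⟩, 0, 0⟩ 0 0)))))))) (.void 30 ⟨⟨100000, 0, 0, 0, 0, 0, 0, 0, 0, ⟨0, 0⟩, 0⟩, 0, 0⟩ 0 0)))) (.void 28 ⟨⟨100000, 0, 0, 0, 0, 0, 0, 0, 0, ⟨0, 0⟩, 0⟩, 0, 0⟩ 0 0))) (.void 26 ⟨⟨100000, 0, 0, 0, 0, 0, 0, 0, 0, ⟨0, 0⟩, 0⟩,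 0, 0⟩ 0 0))) (.void 24 ⟨⟨100000, 0, 0, 0, 0, 0, 0, 0, 0, ⟨0, 0⟩, 0⟩, 0, 0⟩ 0 0))) (.void 123 ⟨⟨100000, 0, 0, 0, 0, 0, 0, 0, 0, ⟨0, 0⟩, 0⟩, 0, 0⟩ 0 0)) (.void 142 ⟨⟨100000, 0, 0, 0, 0, 0, 0, 0, 0, ⟨0, 0⟩, 0⟩, 0, 0⟩ 0 0)) (.void 145 ⟨⟨96364, 0, 0, 3636, 0, 0, 0, 0, 0, ⟨0, 0⟩, 0⟩, 0, 0⟩ 0 0))) (.cut .v 16777216 (.cut .v 8388608 (.cut .v 4194304 (.cut .d 2854763 (.pos 4 .pm ⟨⟨0, 0, 748827399, 0, 0, 0, 0, 0, 0, ⟨0, 0⟩, 0⟩, 0, 7318⟩ 0 0) (.cut .v 2097152 (.cut .v 1048576 (.cut .v 524288 (.pos 150 .pm ⟨⟨0, 0, 10280281, 0, 0, 0, 0, 0, 0, ⟨0, 0⟩, 0⟩, 0, 1045⟩ 0 0) (.pos 151 .pm ⟨⟨0, 13250263, 0, 0, 0, 0, 0, 0, 0, ⟨0, 0⟩, 0⟩, 0, 2048⟩ 0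 0)) (.pos 149 .pm ⟨⟨0, 41384685, 0, 0, 0, 0, 0, 0, 0, ⟨0, 0⟩, 0⟩, 0, 3976⟩ 0 0)) (.cut .d 4282144 (.pos 7 .pm ⟨⟨0, 0, 0, 0, 0, 0, 0, 0, 0, ⟨0, 0⟩, 0⟩, 0, 5692⟩ 0 0) (.cut .d 4995835 (.pos 7 .pm ⟨⟨0, 0, 0, 0, 0, 0, 0, 0, 0, ⟨0, 0⟩, 0⟩, 0, 7318⟩ 0 0) (.pos 7 .pm ⟨⟨0, 182819760, 0, 0, 0, 0, 0, 0, 0, ⟨0, 0⟩, 0⟩, 0, 7510⟩ 0 0))))) (.cut .d 2854763 (.pos 5 .pm ⟨⟨0, 0, 11449876, 0, 0, 0, 0, 0, 0, ⟨0, 0⟩, 0⟩, 0, 0⟩ 0 0) (.cut .d 4282144 (.pos 5 .pm ⟨⟨0, 0, 0, 0, 0, 0, 0, 0, 0, ⟨0, 0⟩, 0⟩, 0, 10245⟩ 0 0) (.cut .d 4995835 (.pos 5 .pm ⟨⟨0, 0, 0, 0, 0, 0, 0, 0, 0, ⟨0, 0⟩, 0⟩, 0, 10245⟩ 0 0) (.pos 5 .pm ⟨⟨0, 255960213, 0, 0, 0, 0, 0, 0, 0,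 ⟨0, 0⟩, 0⟩, 0, 12807⟩ 0 0))))) (.cut .d 2854763 (.pos 3 .pm ⟨⟨0, 0, 0, 0, 0, 0, 0, 0, 0, ⟨0, 0⟩, 0⟩, 0, 0⟩ 0 0) (.pos 3 .pm ⟨⟨0, 237470771, 0, 0, 0, 0, 0, 0, 0, ⟨0, 0⟩, 0⟩, 0, 17075⟩ 0 0))) (.cut .v 268435456 (.cut .v 67108864 (.cut .d 2854763 (.cut .d 1427381 (.cut .v 33554432 (.cut .d 713690 (.cut .v 25165824 (.cut .d 356845 (.cut .v 20971520 (.cut .d 178422 (.cut .v 18874368 (.cut .v 17825792 (.cut .s 12615680 (.pos 29 .pp ⟨⟨391761628, 0, 0, 0, 0, 0, 0, 0, 0, ⟨0, 0⟩, 0⟩, 17708016, 0⟩ 0 0) (.pos 29 .pp ⟨⟨439892562, 0, 0, 0, 0, 0, 0, 0, 0, ⟨0, 0⟩, 0⟩, 16756267, 0⟩ 0 0)) (.pos 30 .pp ⟨⟨666329711, 0, 0, 0, 0, 0, 0, 0, 0, ⟨0, 0⟩,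 0⟩, 0, 0⟩ 0 0)) (.cut .d 89211 (.pos 28 .pp ⟨⟨852444762, 0, 0, 0, 0, 0, 0, 0, 0, ⟨0, 0⟩, 0⟩, 0, 0⟩ 0 0) (.pos 28 .pp ⟨⟨64965799, 0, 0, 0, 0, 0, 3620, 0, 0, ⟨0, 0⟩, 0⟩, 56334410, 0⟩ 0 0))) (.pos 25 .pp ⟨⟨0, 0, 0, 0, 0, 0, 84480, 0, 0, ⟨0, 0⟩, 0⟩, 0, 0⟩ 0 0)) (.cut .d 178422 (.pos 26 .pp ⟨⟨0, 0, 0, 0, 0, 0, 0, 0, 0, ⟨0, 0⟩, 0⟩, 85826547, 0⟩ 0 0) (.pos 26 .pp ⟨⟨0, 0, 0, 0, 0, 0, 812, 0, 0, ⟨0, 0⟩, 0⟩, 65172287, 0⟩ 0 0))) (.pos 23 .pp ⟨⟨0, 0, 0, 0, 0, 0, 0, 0, 0, ⟨0, 0⟩, 0⟩, 36323291, 15140⟩ 0 0)) (.cut .d 356845 (.pos 24 .pp ⟨⟨0, 0, 0, 0, 0, 0, 0, 0, 0, ⟨0, 0⟩, 0⟩, 111348235, 0⟩ 0 0) (.pos 24 .pp ⟨⟨0, 0, 0, 0, 0, 0, 0, 0, 0, ⟨0, 0⟩,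 0⟩, 71085880, 0⟩ 0 0))) (.pos 22 .pp ⟨⟨0, 0, 0, 0, 0, 0, 0, 0, 0, ⟨0, 0⟩, 0⟩, 29712605, 18535⟩ 0 0)) (.cut .d 713690 (.pos 123 .pp ⟨⟨0, 0, 0, 0, 0, 0, 0, 0, 0, ⟨0, 0⟩, 0⟩, 195153886, 0⟩ 0 0) (.pos 123 .pp ⟨⟨0, 0, 0, 0, 0, 0, 0, 0, 0, ⟨0, 0⟩, 0⟩, 109956467, 0⟩ 0 0))) (.pos 122 .pp ⟨⟨0, 0, 0, 0, 0, 0, 0, 0, 0, ⟨0, 0⟩, 0⟩, 7808008, 29785⟩ 0 0)) (.pos 122 .pp ⟨⟨0, 338821654, 0, 0, 0, 0, 0, 0, 0, ⟨0, 0⟩, 0⟩, 0, 25613⟩ 0 0)) (.pos 142 .pp ⟨⟨0, 5554522689, 0, 0, 0, 0, 0, 0, 0, ⟨0, 0⟩, 0⟩, 589945036, 0⟩ 0 0)) (.void 145 ⟨⟨0, 0, 0, 0, 0, 0, 0, 0, 0, ⟨0, 0⟩, 0⟩, 100000, 0⟩ 0 0)))),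
    by decide +kernel⟩

def covers21 : cell.Covers Vale.Agent.P237.Petty.Cor.Grid.N19.table row21.1 :=
  ⟨(.cut .d 0 (.cut .v 16777216 (.cut .d (-8388608) (.void 1 ⟨⟨0, 0, 0, 0, 0, 100000, 0, 0, 0, ⟨0, 0⟩, 0⟩, 0, 0⟩ 0 0) (.cut .d (-4194304) (.void 1 ⟨⟨0, 0, 2, 0, 0, 100000, 0, 0, 0, ⟨0, 0⟩, 0⟩, 0, 0⟩ 0 0) (.cut .d (-2097152) (.void 1 ⟨⟨0, 0, 0, 0, 0, 100000, 0, 0, 0, ⟨0, 0⟩, 0⟩, 0, 0⟩ 0 0) (.cut .d (-1048576) (.void 1 ⟨⟨0, 0, 0, 0, 0, 100000, 0, 0, 0, ⟨0, 0⟩, 0⟩, 0, 0⟩ 0 0) (.cut .d (-524288) (.void 1 ⟨⟨0, 0, 0, 0, 0, 100000, 0, 0, 0, ⟨0, 0⟩, 0⟩, 0, 0⟩ 0 0) (.cut .d (-262144) (.void 1 ⟨⟨0, 0, 0, 0, 0, 100000, 0, 0, 0, ⟨0, 0⟩, 0⟩,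 0, 0⟩ 0 0) (.cut .d (-131072) (.void 1 ⟨⟨0, 0, 0, 0, 0, 100000, 0, 0, 0, ⟨0, 0⟩, 0⟩, 0, 0⟩ 0 0) (.cut .d (-65536) (.void 1 ⟨⟨0, 0, 0, 0, 0, 100000, 0, 0, 0, ⟨0, 0⟩, 0⟩, 0, 0⟩ 0 0) (.cut .d (-32768) (.void 1 ⟨⟨0, 0, 0, 0, 0, 100000, 0, 0, 0, ⟨0, 0⟩, 0⟩, 0, 0⟩ 0 0) (.cut .d (-16384) (.void 1 ⟨⟨0, 0, 0, 0, 0, 100000, 0, 0, 0, ⟨0, 0⟩, 0⟩, 0, 0⟩ 0 0) (.cut .d (-8192) (.void 1 ⟨⟨0, 0, 0, 0, 0, 100000, 0, 0, 0, ⟨0, 0⟩, 0⟩, 0, 0⟩ 0 0) (.cut .v 8388608 (.cut .v 4194304 (.void 4 ⟨⟨0, 0, 100000, 0, 0, 0, 0, 0, 0, ⟨0, 0⟩, 0⟩, 0, 0⟩ 0 0) (.pos 5 .mm ⟨⟨0, 0, 14044831, 0, 0, 432641415, 0, 0, 0, ⟨0, 0⟩, 0⟩, 0, 0⟩ 0 0)) (.cut .s 12845056 (.pos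 3 .mm ⟨⟨0, 0, 0, 0, 0, 1157146520, 0, 0, 0, ⟨0, 0⟩, 0⟩, 0, 0⟩ 0 0) (.pos 3 .mm ⟨⟨0, 0, 0, 0, 0, 1273533252, 0, 0, 0, ⟨0, 0⟩, 0⟩, 0, 0⟩ 0 0)))))))))))))) (.cut .v 268435456 (.cut .v 67108864 (.cut .v 33554432 (.cut .d (-8388608) (.void 22 ⟨⟨100000, 0, 0, 0, 0, 0, 0, 0, 0, ⟨0, 0⟩, 0⟩, 0, 0⟩ 0 0) (.cut .v 25165824 (.cut .d (-4194304) (.void 23 ⟨⟨100000, 0, 0, 0, 0, 0, 0, 0, 0, ⟨0, 0⟩, 0⟩, 0, 0⟩ 0 0) (.cut .v 20971520 (.cut .d (-2097152) (.void 25 ⟨⟨100000, 0, 0, 0, 0, 0, 0, 0, 0, ⟨0, 0⟩, 0⟩, 0, 0⟩ 0 0) (.cut .d (-1048576) (.void 25 ⟨⟨100000, 0, 0, 0, 0, 0, 0, 0, 0, ⟨0, 0⟩, 0⟩, 0, 0⟩ 0 0) (.cut .v 18874368 (.cut .d (-524288) (.void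 27 ⟨⟨100000, 0, 0, 0, 0, 0, 0, 0, 0, ⟨0, 0⟩, 0⟩, 0, 0⟩ 0 0) (.cut .v 17825792 (.cut .d (-262144) (.void 29 ⟨⟨100000, 0, 0, 0, 0, 0, 0, 0, 0, ⟨0, 0⟩, 0⟩, 0, 0⟩ 0 0) (.cut .d (-131072) (.void 29 ⟨⟨100000, 0, 0, 0, 0, 0, 0, 0, 0, ⟨0, 0⟩, 0⟩, 0, 0⟩ 0 0) (.cut .d (-65536) (.void 29 ⟨⟨100000, 0, 0, 0, 0, 0, 0, 0, 0, ⟨0, 0⟩, 0⟩, 0, 0⟩ 0 0) (.cut .d (-32768) (.void 29 ⟨⟨100000, 0, 0, 0, 0, 0, 0, 0, 0, ⟨0, 0⟩, 0⟩, 0, 0⟩ 0 0) (.cut .d (-16384) (.void 29 ⟨⟨100000, 0, 0, 0, 0, 0, 0, 0, 0, ⟨0, 0⟩, 0⟩, 0, 0⟩ 0 0) (.cut .d (-8192) (.void 29 ⟨⟨0, 0, 0, 0, 0, 100000, 0, 0, 0, ⟨0, 0⟩, 0⟩, 0, 0⟩ 0 0) (.cut .v 17301504 (.cut .v 17039360 (.cut .v 16908288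 (.cut .s 12845056 (.cut .v 16842752 (.cut .s 12779520 (.cut .v 16809984 (.cut .s 12746752 (.cut .s 12730368 (.cut .d (-4096) (.pos 47 .mp ⟨⟨529050496, 0, 0, 0, 0, 259489152, 0, 0, 0, ⟨0, 0⟩, 0⟩, 0, 0⟩ 0 0) (.cut .v 16793600 (.cut .s 12722176 (.pos 51 .mp ⟨⟨539702843, 0, 0, 0, 0, 230090897, 0, 0, 0, ⟨0, 0⟩, 0⟩, 0, 0⟩ 0 0) (.cut .s 12726272 (.pos 51 .mp ⟨⟨547015642, 0, 0, 0, 0, 223008606, 0, 0, 0, ⟨0, 0⟩, 0⟩, 0, 0⟩ 0 0) (.pos 51 .mp ⟨⟨548292193, 0, 0, 0, 0, 223903587, 0, 0, 0, ⟨0, 0⟩, 0⟩, 0, 0⟩ 0 0))) (.pos 52 .mp ⟨⟨677906030, 0, 0, 0, 0, 0, 0, 0, 0, ⟨0, 0⟩, 0⟩, 0, 0⟩ 0 0))) (.cut .d (-4096) (.cut .s 12738560 (.pos 47 .mp ⟨⟨535230118,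 0, 0, 0, 0, 257000109, 0, 0, 0, ⟨0, 0⟩, 0⟩, 0, 0⟩ 0 0) (.pos 47 .mp ⟨⟨538351390, 0, 0, 0, 0, 257940378, 0, 0, 0, ⟨0, 0⟩, 0⟩, 0, 0⟩ 0 0)) (.cut .v 16793600 (.cut .l 97131 (.cut .d (-2048) (.pos 51 .mp ⟨⟨535856749, 0, 0, 0, 0, 259012233, 0, 0, 0, ⟨0, 0⟩, 0⟩, 0, 0⟩ 0 0) (.cut .s 12738560 (.pos 51 .mp ⟨⟨543280915, 0, 0, 0, 0, 236082896, 0, 0, 0, ⟨0, 0⟩, 0⟩, 0, 0⟩ 0 0) (.pos 51 .mp ⟨⟨546441160, 0, 0, 0, 0, 236979734, 0, 0, 0, ⟨0, 0⟩, 0⟩, 0, 0⟩ 0 0))) (.pos 51 .mp ⟨⟨544853988, 0, 0, 0, 0, 229010132, 0, 0, 0, ⟨0, 0⟩, 0⟩, 0, 0⟩ 0 0)) (.pos 52 .mp ⟨⟨684985444, 0, 0, 0, 0, 0, 0, 0, 0, ⟨0, 0⟩, 0⟩, 0, 0⟩ 0 0)))) (.cut .s 12763136 (.cut .d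 (-4096) (.cut .s 12754944 (.pos 47 .mp ⟨⟨541493795, 0, 0, 0, 0, 258913645, 0, 0, 0, ⟨0, 0⟩, 0⟩, 0, 0⟩ 0 0) (.pos 47 .mp ⟨⟨544657457, 0, 0, 0, 0, 259920137, 0, 0, 0, ⟨0, 0⟩, 0⟩, 0, 0⟩ 0 0)) (.cut .v 16793600 (.cut .l 97131 (.cut .d (-2048) (.pos 51 .mp ⟨⟨542110460, 0, 0, 0, 0, 261016204, 0, 0, 0, ⟨0, 0⟩, 0⟩, 0, 0⟩ 0 0) (.cut .v 16785408 (.cut .s 12754944 (.pos 65 .mp ⟨⟨549135377, 0, 0, 0, 0, 238707298, 0, 0, 0, ⟨0, 0⟩, 0⟩, 0, 0⟩ 0 0) (.cut .s 12759040 (.pos 65 .mp ⟨⟨557638129, 0, 0, 0, 0, 229929006, 0, 0, 0, ⟨0, 0⟩, 0⟩, 0, 0⟩ 0 0) (.pos 65 .mp ⟨⟨559054618, 0, 0, 0, 0, 230717453, 0, 0, 0, ⟨0, 0⟩, 0⟩, 0, 0⟩ 0 0))) (.pos 66 .mp ⟨⟨691843477,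 0, 0, 0, 0, 0, 0, 0, 0, ⟨0, 0⟩, 0⟩, 0, 0⟩ 0 0))) (.pos 51 .mp ⟨⟨551238320, 0, 0, 0, 0, 230974917, 0, 0, 0, ⟨0, 0⟩, 0⟩, 0, 0⟩ 0 0)) (.pos 52 .mp ⟨⟨692222659, 0, 0, 0, 0, 0, 0, 0, 0, ⟨0, 0⟩, 0⟩, 0, 0⟩ 0 0))) (.cut .d (-4096) (.cut .s 12771328 (.pos 47 .mp ⟨⟨547842498, 0, 0, 0, 0, 260960080, 0, 0, 0, ⟨0, 0⟩, 0⟩, 0, 0⟩ 0 0) (.pos 47 .mp ⟨⟨551049042, 0, 0, 0, 0, 262033703, 0, 0, 0, ⟨0, 0⟩, 0⟩, 0, 0⟩ 0 0)) (.cut .v 16793600 (.cut .l 97131 (.cut .d (-2048) (.pos 51 .mp ⟨⟨548449169, 0, 0, 0, 0, 263153533, 0, 0, 0, ⟨0, 0⟩, 0⟩, 0, 0⟩ 0 0) (.cut .v 16785408 (.cut .l 48565 (.cut .d (-1024) (.pos 65 .mp ⟨⟨548753589, 0, 0, 0, 0, 261978601, 0,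 0, 0, ⟨0, 0⟩, 0⟩, 0, 0⟩ 0 0) (.cut .s 12771328 (.pos 65 .mp ⟨⟨554152481, 0, 0, 0, 0, 242881431, 0, 0, 0, ⟨0, 0⟩, 0⟩, 0, 0⟩ 0 0) (.pos 65 .mp ⟨⟨557385043, 0, 0, 0, 0, 243900730, 0, 0, 0, ⟨0, 0⟩, 0⟩, 0, 0⟩ 0 0))) (.pos 65 .mp ⟨⟨556590453, 0, 0, 0, 0, 234258681, 0, 0, 0, ⟨0, 0⟩, 0⟩, 0, 0⟩ 0 0)) (.pos 66 .mp ⟨⟨699236165, 0, 0, 0, 0, 0, 0, 0, 0, ⟨0, 0⟩, 0⟩, 0, 0⟩ 0 0))) (.pos 51 .mp ⟨⟨557709511, 0, 0, 0, 0, 232981093, 0, 0, 0, ⟨0, 0⟩, 0⟩, 0, 0⟩ 0 0)) (.pos 52 .mp ⟨⟨699619438, 0, 0, 0, 0, 0, 0, 0, 0, ⟨0, 0⟩, 0⟩, 0, 0⟩ 0 0))))) (.pos 48 .mp ⟨⟨699931053, 0, 0, 0, 0, 0, 0, 0, 0, ⟨0, 0⟩, 0⟩, 0, 0⟩ 0 0)) (.cut .v 16809984 (.cut .s 12812288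 (.cut .s 12795904 (.cut .d (-4096) (.cut .s 12787712 (.pos 47 .mp ⟨⟨554277215, 0, 0, 0, 0, 263141236, 0, 0, 0, ⟨0, 0⟩, 0⟩, 0, 0⟩ 0 0) (.pos 47 .mp ⟨⟨557527143, 0, 0, 0, 0, 264282912, 0, 0, 0, ⟨0, 0⟩, 0⟩, 0, 0⟩ 0 0)) (.cut .v 16793600 (.cut .l 97131 (.cut .s 12787712 (.cut .s 12783616 (.pos 51 .mp ⟨⟨565053302, 0, 0, 0, 0, 236499203, 0, 0, 0, ⟨0, 0⟩, 0⟩, 0, 0⟩ 0 0) (.pos 51 .mp ⟨⟨566562986, 0, 0, 0, 0, 237236442, 0, 0, 0, ⟨0, 0⟩, 0⟩, 0, 0⟩ 0 0)) (.cut .s 12791808 (.pos 51 .mp ⟨⟨568093484, 0, 0, 0, 0, 237954098, 0, 0, 0, ⟨0, 0⟩, 0⟩, 0, 0⟩ 0 0) (.pos 51 .mp ⟨⟨569645007, 0, 0, 0, 0, 238651817, 0, 0, 0, ⟨0, 0⟩, 0⟩, 0, 0⟩ 0 0))) (.pos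 51 .mp ⟨⟨564268577, 0, 0, 0, 0, 235025846, 0, 0, 0, ⟨0, 0⟩, 0⟩, 0, 0⟩ 0 0)) (.pos 52 .mp ⟨⟨707177573, 0, 0, 0, 0, 0, 0, 0, 0, ⟨0, 0⟩, 0⟩, 0, 0⟩ 0 0))) (.cut .d (-4096) (.cut .s 12804096 (.pos 47 .mp ⟨⟨560798953, 0, 0, 0, 0, 265458964, 0, 0, 0, ⟨0, 0⟩, 0⟩, 0, 0⟩ 0 0) (.pos 47 .mp ⟨⟨564092774, 0, 0, 0, 0, 266669629, 0, 0, 0, ⟨0, 0⟩, 0⟩, 0, 0⟩ 0 0)) (.cut .l 97131 (.cut .v 16793600 (.cut .s 12804096 (.cut .s 12800000 (.pos 51 .mp ⟨⟨571217770, 0, 0, 0, 0, 239329241, 0, 0, 0, ⟨0, 0⟩, 0⟩, 0, 0⟩ 0 0) (.pos 51 .mp ⟨⟨572811986, 0, 0, 0, 0, 239986013, 0, 0, 0, ⟨0, 0⟩, 0⟩, 0, 0⟩ 0 0)) (.cut .s 12808192 (.pos 51 .mp ⟨⟨574427871, 0, 0, 0, 0,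 240621772, 0, 0, 0, ⟨0, 0⟩, 0⟩, 0, 0⟩ 0 0) (.pos 51 .mp ⟨⟨576065640, 0, 0, 0, 0, 241236156, 0, 0, 0, ⟨0, 0⟩, 0⟩, 0, 0⟩ 0 0))) (.pos 52 .mp ⟨⟨728313224, 0, 0, 0, 0, 0, 0, 0, 0, ⟨0, 0⟩, 0⟩, 0, 0⟩ 0 0)) (.pos 47 .mp ⟨⟨571929958, 0, 0, 0, 0, 235559471, 0, 0, 0, ⟨0, 0⟩, 0⟩, 0, 0⟩ 0 0)))) (.cut .s 12828672 (.cut .d (-4096) (.cut .s 12820480 (.pos 47 .mp ⟨⟨567408734, 0, 0, 0, 0, 267915144, 0, 0, 0, ⟨0, 0⟩, 0⟩, 0, 0⟩ 0 0) (.pos 47 .mp ⟨⟨570746964, 0, 0, 0, 0, 269195751, 0, 0, 0, ⟨0, 0⟩, 0⟩, 0, 0⟩ 0 0)) (.cut .l 97131 (.cut .v 16793600 (.cut .s 12820480 (.cut .s 12816384 (.pos 51 .mp ⟨⟨577725511, 0, 0, 0, 0, 241828801, 0, 0, 0, ⟨0, 0⟩,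 0⟩, 0, 0⟩ 0 0) (.pos 51 .mp ⟨⟨579407700, 0, 0, 0, 0, 242399343, 0, 0, 0, ⟨0, 0⟩, 0⟩, 0, 0⟩ 0 0)) (.cut .s 12824576 (.pos 51 .mp ⟨⟨581112428, 0, 0, 0, 0, 242947413, 0, 0, 0, ⟨0, 0⟩, 0⟩, 0, 0⟩ 0 0) (.pos 51 .mp ⟨⟨582839911, 0, 0, 0, 0, 243472643, 0, 0, 0, ⟨0, 0⟩, 0⟩, 0, 0⟩ 0 0))) (.pos 52 .mp ⟨⟨736252657, 0, 0, 0, 0, 0, 0, 0, 0, ⟨0, 0⟩, 0⟩, 0, 0⟩ 0 0)) (.pos 47 .mp ⟨⟨578679220, 0, 0, 0, 0, 237653499, 0, 0, 0, ⟨0, 0⟩, 0⟩, 0, 0⟩ 0 0))) (.cut .d (-4096) (.cut .s 12836864 (.pos 47 .mp ⟨⟨574107595, 0, 0, 0, 0, 270511690, 0, 0, 0, ⟨0, 0⟩, 0⟩, 0, 0⟩ 0 0) (.pos 47 .mp ⟨⟨577490761, 0, 0, 0, 0, 271863206, 0, 0, 0, ⟨0, 0⟩, 0⟩, 0, 0⟩ 0 0)) (.cut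 .l 97131 (.cut .v 16793600 (.cut .s 12836864 (.cut .s 12832768 (.pos 51 .mp ⟨⟨584590372, 0, 0, 0, 0, 243974664, 0, 0, 0, ⟨0, 0⟩, 0⟩, 0, 0⟩ 0 0) (.pos 51 .mp ⟨⟨586364031, 0, 0, 0, 0, 244453101, 0, 0, 0, ⟨0, 0⟩, 0⟩, 0, 0⟩ 0 0)) (.cut .s 12840960 (.pos 51 .mp ⟨⟨588161109, 0, 0, 0, 0, 244907583, 0, 0, 0, ⟨0, 0⟩, 0⟩, 0, 0⟩ 0 0) (.pos 51 .mp ⟨⟨589981829, 0, 0, 0, 0, 245337732, 0, 0, 0, ⟨0, 0⟩, 0⟩, 0, 0⟩ 0 0))) (.pos 52 .mp ⟨⟨744299794, 0, 0, 0, 0, 0, 0, 0, 0, ⟨0, 0⟩, 0⟩, 0, 0⟩ 0 0)) (.pos 47 .mp ⟨⟨585519653, 0, 0, 0, 0, 239777203, 0, 0, 0, ⟨0, 0⟩, 0⟩, 0, 0⟩ 0 0))))) (.pos 48 .mp ⟨⟨730835145, 0, 0, 0, 0, 0, 0, 0, 0, ⟨0, 0⟩, 0⟩, 0, 0⟩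 0 0))) (.pos 46 .mp ⟨⟨725051065, 0, 0, 0, 0, 0, 0, 0, 0, ⟨0, 0⟩, 0⟩, 0, 0⟩ 0 0)) (.cut .v 16842752 (.cut .s 12910592 (.cut .v 16809984 (.cut .s 12877824 (.cut .s 12861440 (.cut .d (-4096) (.cut .s 12853248 (.pos 47 .mp ⟨⟨580896595, 0, 0, 0, 0, 273250544, 0, 0, 0, ⟨0, 0⟩, 0⟩, 0, 0⟩ 0 0) (.pos 47 .mp ⟨⟨584325231, 0, 0, 0, 0, 274673953, 0, 0, 0, ⟨0, 0⟩, 0⟩, 0, 0⟩ 0 0)) (.cut .l 97131 (.cut .v 16793600 (.cut .d (-2048) (.pos 51 .mp ⟨⟨581452858, 0, 0, 0, 0, 275905445, 0, 0, 0, ⟨0, 0⟩, 0⟩, 0, 0⟩ 0 0) (.cut .v 16785408 (.cut .l 48565 (.cut .d (-1024) (.pos 65 .mp ⟨⟨581732170, 0, 0, 0, 0, 274730762, 0, 0, 0, ⟨0, 0⟩, 0⟩, 0, 0⟩ 0 0) (.cut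 .v 16781312 (.cut .l 24282 (.cut .d (-512) (.pos 71 .mp ⟨⟨581872200, 0, 0, 0, 0, 274142893, 0, 0, 0, ⟨0, 0⟩, 0⟩, 0, 0⟩ 0 0) (.cut .s 12853248 (.pos 71 .mp ⟨⟨586454095, 0, 0, 0, 0, 255835650, 0, 0, 0, ⟨0, 0⟩, 0⟩, 0, 0⟩ 0 0) (.pos 71 .mp ⟨⟨589878622, 0, 0, 0, 0, 257158231, 0, 0, 0, ⟨0, 0⟩, 0⟩, 0, 0⟩ 0 0))) (.pos 71 .mp ⟨⟨589504486, 0, 0, 0, 0, 245745886, 0, 0, 0, ⟨0, 0⟩, 0⟩, 0, 0⟩ 0 0)) (.pos 72 .mp ⟨⟨738451164, 0, 0, 0, 0, 0, 0, 0, 0, ⟨0, 0⟩, 0⟩, 0, 0⟩ 0 0))) (.pos 65 .mp ⟨⟨590137192, 0, 0, 0, 0, 245009116, 0, 0, 0, ⟨0, 0⟩, 0⟩, 0, 0⟩ 0 0)) (.pos 66 .mp ⟨⟨738655483, 0, 0, 0, 0, 0, 0, 0, 0, ⟨0, 0⟩, 0⟩, 0, 0⟩ 0 0))) (.pos 52 .mp ⟨⟨752453736,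 0, 0, 0, 0, 0, 0, 0, 0, ⟨0, 0⟩, 0⟩, 0, 0⟩ 0 0)) (.pos 47 .mp ⟨⟨592452342, 0, 0, 0, 0, 241927640, 0, 0, 0, ⟨0, 0⟩, 0⟩, 0, 0⟩ 0 0))) (.cut .d (-4096) (.cut .s 12869632 (.pos 47 .mp ⟨⟨587776806, 0, 0, 0, 0, 276133682, 0, 0, 0, ⟨0, 0⟩, 0⟩, 0, 0⟩ 0 0) (.pos 47 .mp ⟨⟨591251457, 0, 0, 0, 0, 277629984, 0, 0, 0, ⟨0, 0⟩, 0⟩, 0, 0⟩ 0 0)) (.cut .l 97131 (.cut .v 16793600 (.cut .d (-2048) (.pos 51 .mp ⟨⟨588322897, 0, 0, 0, 0, 278882292, 0, 0, 0, ⟨0, 0⟩, 0⟩, 0, 0⟩ 0 0) (.cut .v 16785408 (.cut .l 48565 (.cut .d (-1024) (.pos 65 .mp ⟨⟨588597143, 0, 0, 0, 0, 277707288, 0, 0, 0, ⟨0, 0⟩, 0⟩, 0, 0⟩ 0 0) (.cut .s 12869632 (.pos 65 .mp ⟨⟨594415212,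 0, 0, 0, 0, 256727884, 0, 0, 0, ⟨0, 0⟩, 0⟩, 0, 0⟩ 0 0) (.pos 65 .mp ⟨⟨597918875, 0, 0, 0, 0, 258039601, 0, 0, 0, ⟨0, 0⟩, 0⟩, 0, 0⟩ 0 0))) (.pos 65 .mp ⟨⟨597120380, 0, 0, 0, 0, 247245225, 0, 0, 0, ⟨0, 0⟩, 0⟩, 0, 0⟩ 0 0)) (.pos 66 .mp ⟨⟨747043699, 0, 0, 0, 0, 0, 0, 0, 0, ⟨0, 0⟩, 0⟩, 0, 0⟩ 0 0))) (.pos 52 .mp ⟨⟨760713593, 0, 0, 0, 0, 0, 0, 0, 0, ⟨0, 0⟩, 0⟩, 0, 0⟩ 0 0)) (.pos 47 .mp ⟨⟨599478392, 0, 0, 0, 0, 244101835, 0, 0, 0, ⟨0, 0⟩, 0⟩, 0, 0⟩ 0 0)))) (.cut .s 12894208 (.cut .d (-4096) (.cut .s 12886016 (.pos 47 .mp ⟨⟨594749322, 0, 0, 0, 0, 279163112, 0, 0, 0, ⟨0, 0⟩, 0⟩, 0, 0⟩ 0 0) (.pos 47 .mp ⟨⟨598270541, 0, 0, 0, 0, 280733323,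 0, 0, 0, ⟨0, 0⟩, 0⟩, 0, 0⟩ 0 0)) (.cut .l 97131 (.cut .v 16793600 (.cut .d (-2048) (.pos 51 .mp ⟨⟨595285208, 0, 0, 0, 0, 282005913, 0, 0, 0, ⟨0, 0⟩, 0⟩, 0, 0⟩ 0 0) (.cut .v 16785408 (.cut .s 12886016 (.cut .s 12881920 (.pos 65 .mp ⟨⟨608988570, 0, 0, 0, 0, 245783905, 0, 0, 0, ⟨0, 0⟩, 0⟩, 0, 0⟩ 0 0) (.pos 65 .mp ⟨⟨611049292, 0, 0, 0, 0, 245980178, 0, 0, 0, ⟨0, 0⟩, 0⟩, 0, 0⟩ 0 0)) (.pos 65 .mp ⟨⟨606589716, 0, 0, 0, 0, 258171698, 0, 0, 0, ⟨0, 0⟩, 0⟩, 0, 0⟩ 0 0)) (.pos 66 .mp ⟨⟨755604574, 0, 0, 0, 0, 0, 0, 0, 0, ⟨0, 0⟩, 0⟩, 0, 0⟩ 0 0))) (.pos 52 .mp ⟨⟨769078478, 0, 0, 0, 0, 0, 0, 0, 0, ⟨0, 0⟩, 0⟩, 0, 0⟩ 0 0)) (.pos 47 .mp ⟨⟨606598926,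 0, 0, 0, 0, 246296778, 0, 0, 0, ⟨0, 0⟩, 0⟩, 0, 0⟩ 0 0))) (.cut .d (-4096) (.pos 47 .mp ⟨⟨601815253, 0, 0, 0, 0, 287625996, 0, 0, 0, ⟨0, 0⟩, 0⟩, 0, 0⟩ 0 0) (.cut .v 16793600 (.cut .l 97131 (.cut .d (-2048) (.pos 51 .mp ⟨⟨602340903, 0, 0, 0, 0, 285278352, 0, 0, 0, ⟨0, 0⟩, 0⟩, 0, 0⟩ 0 0) (.cut .s 12902400 (.pos 51 .mp ⟨⟨610716489, 0, 0, 0, 0, 258633708, 0, 0, 0, ⟨0, 0⟩, 0⟩, 0, 0⟩ 0 0) (.pos 51 .mp ⟨⟨614331457, 0, 0, 0, 0, 260012904, 0, 0, 0, ⟨0, 0⟩, 0⟩, 0, 0⟩ 0 0))) (.pos 51 .mp ⟨⟨612731381, 0, 0, 0, 0, 250176329, 0, 0, 0, ⟨0, 0⟩, 0⟩, 0, 0⟩ 0 0)) (.pos 52 .mp ⟨⟨764759393, 0, 0, 0, 0, 0, 0, 0, 0, ⟨0, 0⟩, 0⟩, 0, 0⟩ 0 0))))) (.pos 48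 .mp ⟨⟨763922777, 0, 0, 0, 0, 0, 0, 0, 0, ⟨0, 0⟩, 0⟩, 0, 0⟩ 0 0)) (.cut .v 16809984 (.cut .s 12943360 (.cut .s 12926976 (.cut .d (-4096) (.pos 47 .mp ⟨⟨608975730, 0, 0, 0, 0, 291050674, 0, 0, 0, ⟨0, 0⟩, 0⟩, 0, 0⟩ 0 0) (.cut .v 16793600 (.cut .l 97131 (.cut .d (-2048) (.pos 51 .mp ⟨⟨609491111, 0, 0, 0, 0, 288701687, 0, 0, 0, ⟨0, 0⟩, 0⟩, 0, 0⟩ 0 0) (.cut .s 12918784 (.pos 51 .mp ⟨⟨617970615, 0, 0, 0, 0, 261415659, 0, 0, 0, ⟨0, 0⟩, 0⟩, 0, 0⟩ 0 0) (.pos 51 .mp ⟨⟨621548330, 0, 0, 0, 0, 263031429, 0, 0, 0, ⟨0, 0⟩, 0⟩, 0, 0⟩ 0 0))) (.pos 51 .mp ⟨⟨620032072, 0, 0, 0, 0, 252424608, 0, 0, 0, ⟨0, 0⟩, 0⟩, 0, 0⟩ 0 0)) (.pos 52 .mp ⟨⟨773676582,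 0, 0, 0, 0, 0, 0, 0, 0, ⟨0, 0⟩, 0⟩, 0, 0⟩ 0 0))) (.cut .d (-4096) (.pos 47 .mp ⟨⟨616231902, 0, 0, 0, 0, 294628628, 0, 0, 0, ⟨0, 0⟩, 0⟩, 0, 0⟩ 0 0) (.cut .s 12935168 (.pos 47 .mp ⟨⟨629752410, 0, 0, 0, 0, 257082002, 0, 0, 0, ⟨0, 0⟩, 0⟩, 0, 0⟩ 0 0) (.pos 47 .mp ⟨⟨633499312, 0, 0, 0, 0, 258496196, 0, 0, 0, ⟨0, 0⟩, 0⟩, 0, 0⟩ 0 0)))) (.cut .s 12959744 (.cut .d (-4096) (.pos 47 .mp ⟨⟨623584938, 0, 0, 0, 0, 298362010, 0, 0, 0, ⟨0, 0⟩, 0⟩, 0, 0⟩ 0 0) (.cut .s 12951552 (.pos 47 .mp ⟨⟨637271288, 0, 0, 0, 0, 259933163, 0, 0, 0, ⟨0, 0⟩, 0⟩, 0, 0⟩ 0 0) (.pos 47 .mp ⟨⟨641068492, 0, 0, 0, 0, 261392827, 0, 0, 0, ⟨0, 0⟩, 0⟩, 0, 0⟩ 0 0))) (.cut .d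 (-4096) (.pos 47 .mp ⟨⟨631036028, 0, 0, 0, 0, 302253008, 0, 0, 0, ⟨0, 0⟩, 0⟩, 0, 0⟩ 0 0) (.cut .s 12967936 (.pos 47 .mp ⟨⟨644706790, 0, 0, 0, 0, 263216986, 0, 0, 0, ⟨0, 0⟩, 0⟩, 0, 0⟩ 0 0) (.pos 47 .mp ⟨⟨648830830, 0, 0, 0, 0, 264330571, 0, 0, 0, ⟨0, 0⟩, 0⟩, 0, 0⟩ 0 0))))) (.pos 48 .mp ⟨⟨799205629, 0, 0, 0, 0, 0, 0, 0, 0, ⟨0, 0⟩, 0⟩, 0, 0⟩ 0 0))) (.pos 46 .mp ⟨⟨791948214, 0, 0, 0, 0, 0, 0, 0, 0, ⟨0, 0⟩, 0⟩, 0, 0⟩ 0 0))) (.pos 36 .mp ⟨⟨794224291, 0, 0, 0, 0, 0, 0, 0, 0, ⟨0, 0⟩, 0⟩, 0, 0⟩ 0 0)) (.void 34 ⟨⟨100000, 0, 0, 0, 0, 0, 0, 0, 0, ⟨0, 0⟩, 0⟩, 0, 0⟩ 0 0)) (.void 32 ⟨⟨100000, 0, 0, 0, 0, 0, 0, 0, 0, ⟨0, 0⟩, 0⟩, 0, 0⟩ 0 0))))))))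 (.void 30 ⟨⟨100000, 0, 0, 0, 0, 0, 0, 0, 0, ⟨0, 0⟩, 0⟩, 0, 0⟩ 0 0))) (.void 28 ⟨⟨100000, 0, 0, 0, 0, 0, 0, 0, 0, ⟨0, 0⟩, 0⟩, 0, 0⟩ 0 0)))) (.void 26 ⟨⟨100000, 0, 0, 0, 0, 0, 0, 0, 0, ⟨0, 0⟩, 0⟩, 0, 0⟩ 0 0))) (.void 24 ⟨⟨100000, 0, 0, 0, 0, 0, 0, 0, 0, ⟨0, 0⟩, 0⟩, 0, 0⟩ 0 0))) (.void 123 ⟨⟨100000, 0, 0, 0, 0, 0, 0, 0, 0, ⟨0, 0⟩, 0⟩, 0, 0⟩ 0 0)) (.void 142 ⟨⟨100000, 0, 0, 0, 0, 0, 0, 0, 0, ⟨0, 0⟩, 0⟩, 0, 0⟩ 0 0)) (.void 145 ⟨⟨96294, 0, 0, 3706, 0, 0, 0, 0, 0, ⟨0, 0⟩, 0⟩, 0, 0⟩ 0 0))) (.cut .v 16777216 (.cut .v 8388608 (.cut .v 4194304 (.cut .d 2680896 (.pos 4 .pm ⟨⟨0, 0, 845261421, 0, 0, 0, 0, 0, 0, ⟨0, 0⟩, 0⟩, 0, 4902⟩ 0 0) (.cut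 .v 2097152 (.cut .v 1048576 (.cut .v 524288 (.pos 150 .pm ⟨⟨0, 0, 5985400, 0, 0, 0, 0, 0, 0, ⟨0, 0⟩, 0⟩, 0, 354⟩ 0 0) (.pos 151 .pm ⟨⟨0, 22365818, 0, 0, 0, 0, 0, 0, 0, ⟨0, 0⟩, 0⟩, 0, 1550⟩ 0 0)) (.cut .d 4021344 (.pos 149 .pm ⟨⟨0, 0, 22964736, 0, 0, 0, 0, 0, 0, ⟨0, 0⟩, 0⟩, 0, 2640⟩ 0 0) (.pos 149 .pm ⟨⟨0, 97804707, 0, 0, 0, 0, 0, 0, 0, ⟨0, 0⟩, 0⟩, 0, 3008⟩ 0 0))) (.cut .d 4021344 (.pos 7 .pm ⟨⟨0, 0, 0, 0, 0, 0, 0, 0, 0, ⟨0, 0⟩, 0⟩, 0, 3813⟩ 0 0) (.cut .d 4691568 (.pos 7 .pm ⟨⟨0, 0, 0, 0, 0, 0, 0, 0, 0, ⟨0, 0⟩, 0⟩, 0, 5916⟩ 0 0) (.cut .d 5026680 (.cut .d 4859124 (.pos 7 .pm ⟨⟨0, 171738392, 0, 0, 0, 0, 0, 0, 0, ⟨0, 0⟩, 0⟩, 0, 5682⟩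 0 0) (.pos 7 .pm ⟨⟨0, 220354759, 0, 0, 0, 0, 0, 0, 0, ⟨0, 0⟩, 0⟩, 0, 6863⟩ 0 0)) (.pos 7 .pm ⟨⟨0, 283360761, 0, 0, 0, 0, 0, 0, 0, ⟨0, 0⟩, 0⟩, 0, 6863⟩ 0 0)))))) (.cut .d 2680896 (.pos 5 .pm ⟨⟨0, 0, 13696937, 0, 0, 0, 0, 0, 0, ⟨0, 0⟩, 0⟩, 0, 0⟩ 0 0) (.cut .d 4021344 (.pos 5 .pm ⟨⟨0, 0, 0, 0, 0, 0, 0, 0, 0, ⟨0, 0⟩, 0⟩, 0, 6863⟩ 0 0) (.cut .d 4691568 (.pos 5 .pm ⟨⟨0, 0, 0, 0, 0, 0, 0, 0, 0, ⟨0, 0⟩, 0⟩, 0, 6863⟩ 0 0) (.cut .d 5026680 (.pos 5 .pm ⟨⟨0, 273817126, 0, 0, 0, 0, 0, 0, 0, ⟨0, 0⟩, 0⟩, 0, 8579⟩ 0 0) (.pos 5 .pm ⟨⟨0, 374759206, 0, 0, 0, 0, 0, 0, 0, ⟨0, 0⟩, 0⟩, 0, 8579⟩ 0 0)))))) (.cut .d 2680896 (.pos 3 .pm ⟨⟨0, 0, 0, 0, 0,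 0, 0, 0, 0, ⟨0, 0⟩, 0⟩, 0, 0⟩ 0 0) (.cut .d 4021344 (.pos 3 .pm ⟨⟨0, 0, 0, 0, 0, 0, 0, 0, 0, ⟨0, 0⟩, 0⟩, 0, 11439⟩ 0 0) (.pos 3 .pm ⟨⟨0, 436160780, 0, 0, 0, 0, 0, 0, 0, ⟨0, 0⟩, 0⟩, 0, 11439⟩ 0 0)))) (.cut .v 268435456 (.cut .v 67108864 (.cut .d 2680896 (.cut .d 1340448 (.cut .v 33554432 (.cut .d 670224 (.cut .v 25165824 (.cut .d 335112 (.cut .v 20971520 (.cut .d 167556 (.cut .v 18874368 (.cut .d 83778 (.cut .v 17825792 (.cut .s 12845056 (.pos 29 .pp ⟨⟨518184741, 0, 0, 0, 0, 0, 0, 0, 0, ⟨0, 0⟩, 0⟩, 14313624, 0⟩ 0 0) (.pos 29 .pp ⟨⟨596960233, 0, 0, 0, 0, 0, 0, 0, 0, ⟨0, 0⟩, 0⟩, 12686315, 0⟩ 0 0)) (.pos 30 .pp ⟨⟨813125513, 0, 0, 0,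 0, 0, 0, 0, 0, ⟨0, 0⟩, 0⟩, 0, 0⟩ 0 0)) (.pos 27 .pp ⟨⟨0, 0, 0, 0, 0, 0, 0, 0, 0, ⟨0, 0⟩, 0⟩, 0, 27071⟩ 0 0)) (.cut .d 83778 (.pos 28 .pp ⟨⟨1013717841, 0, 0, 0, 0, 0, 0, 0, 0, ⟨0, 0⟩, 0⟩, 0, 0⟩ 0 0) (.pos 28 .pp ⟨⟨0, 0, 0, 0, 0, 0, 2477, 0, 0, ⟨0, 0⟩, 0⟩, 71584846, 0⟩ 0 0))) (.pos 25 .pp ⟨⟨0, 0, 0, 0, 0, 0, 63914, 0, 0, ⟨0, 0⟩, 0⟩, 0, 0⟩ 0 0)) (.cut .d 167556 (.pos 26 .pp ⟨⟨0, 0, 0, 0, 0, 0, 0, 0, 0, ⟨0, 0⟩, 0⟩, 102090200, 0⟩ 0 0) (.pos 26 .pp ⟨⟨0, 0, 0, 0, 0, 0, 0, 0, 0, ⟨0, 0⟩, 0⟩, 76327420, 0⟩ 0 0))) (.pos 23 .pp ⟨⟨0, 0, 0, 0, 0, 0, 0, 0, 0, ⟨0, 0⟩, 0⟩, 41286786, 11456⟩ 0 0)) (.cut .d 335112 (.pos 24 .pp ⟨⟨0, 0, 0, 0, 0, 0, 0,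 0, 0, ⟨0, 0⟩, 0⟩, 131990357, 0⟩ 0 0) (.pos 24 .pp ⟨⟨0, 0, 0, 0, 0, 0, 0, 0, 0, ⟨0, 0⟩, 0⟩, 82293248, 0⟩ 0 0))) (.pos 22 .pp ⟨⟨0, 0, 0, 0, 0, 0, 0, 0, 0, ⟨0, 0⟩, 0⟩, 32957400, 14303⟩ 0 0)) (.cut .d 670224 (.pos 123 .pp ⟨⟨0, 0, 0, 0, 0, 0, 0, 0, 0, ⟨0, 0⟩, 0⟩, 230044210, 0⟩ 0 0) (.pos 123 .pp ⟨⟨0, 0, 0, 0, 0, 0, 0, 0, 0, ⟨0, 0⟩, 0⟩, 124273703, 0⟩ 0 0))) (.pos 122 .pp ⟨⟨0, 0, 0, 0, 0, 0, 0, 0, 0, ⟨0, 0⟩, 0⟩, 8628361, 22618⟩ 0 0)) (.pos 122 .pp ⟨⟨0, 441073543, 0, 0, 0, 0, 0, 0, 0, ⟨0, 0⟩, 0⟩, 0, 17158⟩ 0 0)) (.pos 142 .pp ⟨⟨0, 6780985125, 0, 0, 0, 0, 0, 0, 0, ⟨0, 0⟩, 0⟩, 686695280, 0⟩ 0 0)) (.void 145 ⟨⟨0, 0, 0, 0, 0, 0, 0, 0, 0, ⟨0,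 0⟩, 0⟩, 100000, 0⟩ 0 0)))),
    by decide +kernel⟩

end Vale.Agent.P237.Petty.Cor.Grid.Tiny.N19
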